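import Vale.Agent.P287Q.Pv.Defs

/-!
# Connected varieties, coordinate projections, towers of blow-ups, master spaces (definitions)
-/

namespace Vale.Agent.P287Q

open Set Function Topology Filter MvPolynomial

/-- `y'` lies in the orbit of `y`. -/
def Orb {J R : Type} (π : J → R) (y y' : J → ℂ) : Prop := ∃ t, IsUnit t ∧ y' = scl π t y

/-- `s` is an equivariant holomorphic section over `O` of the coordinate projection `w ↦ w ∘ i` of
`A`, and it meets every orbit over `O`. -/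
structure Sct {J J₀ R R₀ : Type} [Fintype J] [Fintype J₀] [Fintype R₀] (π₀ : J₀ → R₀) (π : J → R)
    (A : Set (J → ℂ)) (i : J₀ → J) (O : Set (J₀ → ℂ)) (s : (J₀ → ℂ) → J → ℂ) : Prop where
  hol : ∀ x ∈ O, P269.Holo.HolOn O s x
  mem : ∀ x ∈ O, s x ∈ A
  inv : ∀ x ∈ O, s x ∘ i = x
  orb : ∀ w ∈ A, w ∘ i ∈ O → Orb π (s (w ∘ i)) w
  eqv : ∃ d : R → R₀ → ℤ, ∀ t, IsUnit t → ∀ x ∈ O,
    s (scl π₀ t x) = scl π (fun r => ∏ r₀, t r₀ ^ d r r₀) (s x)

/-- An entire function that is homogeneous of multidegree `μ`. -/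
structure Frm {J R : Type} [Fintype J] [Fintype R] (π : J → R) (μ : R → ℕ)
    (G : (J → ℂ) → ℂ) : Prop where
  an : ∀ x, AnalyticAt ℂ G x
  hom : ∀ t, IsUnit t → ∀ x, G (scl π t x) = (∏ r, t r ^ μ r) * G x

/-- A connected smooth projective variety of dimension `n`. -/
structure Var (n : ℕ) : Type 1 where
  /-- the fields -/
  J : Type
  /-- the blocks -/
  R : Type
  [fJ : Fintype J]
  [fR : Fintype R]
  [dJ : DecidableEq J]
  [dR : DecidableEq R]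
  /-- the block of a field -/
  π : J → R
  /-- the multicone -/
  A : Set (J → ℂ)
  pv : PV π A n
  conn : IsConnected A

attribute [instance] Var.fJ Var.fR Var.dJ Var.dR

variable {n m l : ℕ}

/-- A morphism `Y → X` that is a coordinate projection. -/
structure Ext (Y : Var n) (X : Var m) where
  /-- on the fields -/
  iJ : X.J → Y.J
  /-- on the blocks -/
  iR : X.R → Y.R
  injJ : Injective iJ
  injR : Injective iR
  blk : ∀ j, Y.π (iJ j) = iR (X.π j)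
  map : ∀ y ∈ Y.A, y ∘ iJ ∈ X.A

namespace Ext

/-- The identity. -/
def refl (Y : Var n) : Ext Y Y := ⟨id, id, injective_id, injective_id, fun _ => rfl, fun _ h => h⟩

/-- The composite. -/
def comp {Z : Var l} {Y : Var n} {X : Var m} (q : Ext Z Y) (p : Ext Y X) : Ext Z X :=
  ⟨q.iJ ∘ p.iJ, q.iR ∘ p.iR, q.injJ.comp p.injJ, q.injR.comp p.injR,
    fun j => (q.blk _).trans (congrArg q.iR (p.blk j)), fun z h => p.map _ (q.map z h)⟩

/-- The map of the varieties. -/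
def spc {Y : Var n} {X : Var m} (p : Ext Y X) : Spc Y.π Y.A → Spc X.π X.A :=
  Quot.map (fun y => ⟨y.1 ∘ p.iJ, p.map _ y.2⟩) fun _ _ ⟨t, ht, e⟩ =>
    ⟨t ∘ p.iR, Pi.isUnit_iff.2 fun r => Pi.isUnit_iff.1 ht _, funext fun j => by
      simp only [e, Function.comp, scl, p.blk]⟩

/-- The projection is an isomorphism of varieties, and the line bundles of the new blocks come from
characters. -/
def Iso {Y X : Var n} (p : Ext Y X) : Prop := ∃ s, Sct X.π Y.π Y.A p.iJ X.A s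

/-- The projection is birational: over `G ≠ 0` the inverse is given by forms. -/
def Bir {Y X : Var n} (p : Ext Y X) : Prop :=
  ∃ (μ : X.R → ℕ) (G : (X.J → ℂ) → ℂ) (d : Y.R → X.R → ℕ) (s : (X.J → ℂ) → Y.J → ℂ),
    Frm X.π μ G ∧ (∀ j, Frm X.π (d (Y.π j)) fun x => s x j) ∧
    Sct X.π Y.π Y.A p.iJ {x | x ∈ X.A ∧ G x ≠ 0} s ∧ ∃ x ∈ X.A, G x ≠ 0

end Ext

/-- A connected smooth centre of codimension at least two with its equations. -/
structure Ctr (Y : Var n) where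
  /-- the dimension -/
  m : ℕ
  /-- the multicone of the centre -/
  C : Set (Y.J → ℂ)
  /-- the number of equations -/
  k : ℕ
  /-- their multidegree -/
  δ : Y.R → ℤ
  /-- the equations -/
  g : Fin k → MvPolynomial Y.J ℂ
  cod : m + 2 ≤ n
  pv : PV Y.π C m
  conn : IsConnected C
  cut : Cut Y.π Y.A C δ g
  pos : ∀ r, 0 < δ r
  pv' : PV (blP (Fin k) Y.π) (blA Y.A g) n
  conn' : IsConnected (blA Y.A g)

namespace Ctr

variable {Y : Var n} (c : Ctr Y)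

/-- The centre. -/
abbrev Z : Var c.m := { J := Y.J, R := Y.R, π := Y.π, A := c.C, pv := c.pv, conn := c.conn }

/-- The blow-up. -/
abbrev bl : Var n :=
  { J := Y.J ⊕ Fin c.k, R := Option Y.R, π := blP (Fin c.k) Y.π, A := blA Y.A c.g, pv := c.pv',
    conn := c.conn' }

/-- The inclusion of the centre. -/
def inc : Ext c.Z Y :=
  ⟨id, id, injective_id, injective_id, fun _ => rfl, fun _ h => c.cut.sub h⟩

/-- The blow-down. -/
def down : Ext c.bl Y :=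
  ⟨Sum.inl, some, Sum.inl_injective, Option.some_injective _, fun _ => rfl, fun _ h => h.1⟩

end Ctr

/-- Towers of blow-ups in connected smooth centres of codimension at least two. -/
inductive Tow (Y₀ : Var n) : Var n → Prop
  | refl : Tow Y₀ Y₀
  | step {Y : Var n} (h : Tow Y₀ Y) (c : Ctr Y) : Tow Y₀ c.bl

/-- **Master space** of a birational projection `p : Y → X`: a variety `B` with an action of `ℂˣ` and
equivariant projections to `X` and to the line `[a : b]`. Over `G ≠ 0` it is `X × ℙ¹`; the open set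
`b ≠ 0` is `Y × 𝔸¹` (so the sink `a = 0` is `Y` with trivial normal bundle); the source is the set
where the block of the field `τ` is `[0 : 1]`, it is a copy of `X`. -/
structure Master {Y X : Var n} (p : Ext Y X) where
  /-- the space -/
  B : Var (n + 1)
  /-- the weights -/
  wt : B.J → Unit → ℤ
  tinv : TInv wt B.A
  /-- the projection to `X` -/
  pX : Ext B X
  wtX : ∀ j, wt (pX.iJ j) = 0
  /-- the fields `a = ab true` and `b = ab false` -/
  ab : Bool → B.J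
  ab_inj : Injective ab
  ab_blk : ∀ j, B.π j = B.π (ab true) ↔ j ∈ range ab
  ab_X : B.π (ab true) ∉ range pX.iR
  wta : wt (ab true) = 1
  wtb : wt (ab false) = 0
  /-- the degree of `G` -/
  μ : X.R → ℕ
  /-- the form -/
  G : (X.J → ℂ) → ℂ
  frm : Frm X.π μ G
  ne : ∃ x ∈ X.A, G x ≠ 0
  /-- the section over `{G ≠ 0} × ℙ¹` -/
  φ : (X.J ⊕ Bool → ℂ) → B.J → ℂ
  gen : Sct (blP Bool X.π) B.π B.A (Sum.elim pX.iJ ab)
    {q | q ∘ .inl ∈ X.A ∧ G (q ∘ .inl) ≠ 0 ∧ q ∘ .inr ≠ 0} φ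
  /-- the fields of `Y` -/
  iy : Y.J → B.J
  /-- the blocks of `Y` -/
  ry : Y.R → B.R
  iy_inj : Injective iy
  ry_inj : Injective ry
  iy_blk : ∀ j, B.π (iy j) = ry (Y.π j)
  ab_Y : B.π (ab true) ∉ range ry
  wtY : ∀ j, wt (iy j) = 0
  mapY : ∀ w ∈ B.A, w (ab false) ≠ 0 → w ∘ iy ∈ Y.A ∧ Orb X.π (w ∘ iy ∘ p.iJ) (w ∘ pX.iJ)
  /-- the section over `Y × 𝔸¹` -/
  ψ : (Y.J ⊕ Bool → ℂ) → B.J → ℂ
  snk : Sct (blP Bool Y.π) B.π B.A (Sum.elim iy ab)
    {q | q ∘ .inl ∈ Y.A ∧ q (.inr false) ≠ 0} ψ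
  /-- the field `τ` -/
  jτ : B.J
  wtτ : wt jτ = 1
  wtz : ∀ j, B.π j = B.π jτ → j ≠ jτ → wt j = 0
  /-- the section over `X` -/
  χ : (X.J → ℂ) → B.J → ℂ
  src : Sct X.π B.π {w | w ∈ B.A ∧ ∀ j, B.π j = B.π jτ → j ≠ jτ → w j = 0} pX.iJ X.A χ
  src_b : ∀ x ∈ X.A, χ x (ab false) = 0
  gen_τ : ∀ w ∈ B.A, G (w ∘ pX.iJ) ≠ 0 → (w jτ = 0 ↔ w (ab true) = 0) ∧
    ((∀ j, B.π j = B.π jτ → j ≠ jτ → w j = 0) ↔ w (ab false) = 0)

/-- Every birational projection has a master space. -/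
def MASTER : Prop := ∀ (n : ℕ) (Y X : Var n) (p : Ext Y X), p.Bir → Nonempty (Master p)

/-- Choices of one field in each block. -/
abbrev Sel {J R : Type} (π : J → R) : Type := {s : R → J // ∀ r, π (s r) = r}

namespace Ctr

variable {Y : Var n} (c : Ctr Y)

/-- The multicone of `Y × ℙ¹`; the fields are `t₁ = inr true` and `t₀ = inr false`. -/
def PA (Y : Var n) : Set (Y.J ⊕ Bool → ℂ) := {w | w ∘ .inl ∈ Y.A ∧ w ∘ .inr ≠ 0}

/-- The multicone of `Z × 0`. -/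
def PC : Set (Y.J ⊕ Bool → ℂ) := {w | w ∘ .inl ∈ c.C ∧ w ∘ .inr ≠ 0 ∧ w (.inr true) = 0}

/-- Forms of multidegree `δ` without common zero. -/
noncomputable def h (α : Sel Y.π) : MvPolynomial Y.J ℂ := ∏ r, X (α.1 r) ^ (c.δ r).toNat

/-- The equations `g k * t₀` and `h α * t₁` of `Z × 0`. -/
noncomputable def Pg : Fin c.k ⊕ Sel Y.π → MvPolynomial (Y.J ⊕ Bool) ℂ :=
  Sum.elim (fun k => rename .inl (c.g k) * X (.inr false))
    fun α => rename .inl (c.h α) * X (.inr true)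

/-- The fields `x, t₁, t₀, u, w` of the blow-up of `Y × ℙ¹` along `Z × 0`. -/
abbrev MJ : Type := (Y.J ⊕ Bool) ⊕ (Fin c.k ⊕ Sel Y.π)

/-- Its blocks. -/
def Mπ : c.MJ → Option (Option Y.R) := blP _ (blP Bool Y.π)

/-- Its multicone. -/
def MA : Set (c.MJ → ℂ) := blA (PA Y) c.Pg

/-- The weights: one for `t₁` and `w`. -/
def Mwt : c.MJ → Unit → ℤ :=
  Sum.elim (Sum.elim 0 fun b => cond b 1 0) (Sum.elim 0 1)

/-- The source `t₀ = 0`. -/
def Src : Set (c.MJ → ℂ) := {w | w ∈ c.MA ∧ w (.inl (.inr false)) = 0}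

/-- The sink `w = 0`. -/
def Snk : Set (c.MJ → ℂ) := {w | w ∈ c.MA ∧ ∀ α, w (.inr (.inr α)) = 0}

/-- The third fixed component `t₁ = 0`, `u = 0`. -/
def Mid : Set (c.MJ → ℂ) :=
  {w | w ∈ c.MA ∧ w (.inl (.inr true)) = 0 ∧ ∀ k, w (.inr (.inl k)) = 0}

/-- The normal coordinate of the sink: `w α = τ * h α`. -/
noncomputable def Mτ (w : c.MJ → ℂ) : ℂ :=
  Classical.epsilon fun τ : ℂ => ∀ α, w (.inr (.inr α)) = τ * eval (w ∘ .inl ∘ .inl) (c.h α)

/-- **The master space of a smooth blow-up.** -/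
structure BlM : Prop where
  pvP : PV (blP Bool Y.π) (PA Y) (n + 1)
  pvC : PV (blP Bool Y.π) c.PC c.m
  cut : Cut (blP Bool Y.π) (PA Y) c.PC (fun o => o.elim 1 c.δ) c.Pg
  pv : PV c.Mπ c.MA (n + 1)
  conn : IsConnected c.MA
  tinv : TInv c.Mwt c.MA
  src : ∃ s, Sct Y.π c.Mπ c.Src (.inl ∘ .inl) Y.A s
  snk : ∃ s, Sct c.bl.π c.Mπ c.Snk (Sum.map .inl .inl) c.bl.A s
  snk_map : ∀ w ∈ c.Snk, w ∘ Sum.map .inl .inl ∈ c.bl.A
  mid : ∃ s, Sct Y.π c.Mπ c.Mid (.inl ∘ .inl) c.C s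
  mid_map : ∀ w ∈ c.Mid, w ∘ .inl ∘ .inl ∈ c.C
  gen : ∃ s, Sct (blP Bool Y.π) c.Mπ c.MA .inl (PA Y \ c.PC) s
  fix : ∀ w ∈ c.MA, (∀ τ, IsUnit τ → Orb c.Mπ w (tw c.Mwt τ w)) ↔ w ∈ c.Src ∪ c.Snk ∪ c.Mid
  tau : ∀ w ∈ c.MA, ∀ α, w (.inr (.inr α)) = c.Mτ w * eval (w ∘ .inl ∘ .inl) (c.h α)
  tau_hol : ∀ w ∈ c.MA, P269.Holo.HolOn c.MA c.Mτ w
  tau_snk : ∀ w ∈ c.Snk, ∃ v ∈ tn c.MA w, ∃ α, v (.inr (.inr α)) ≠ 0
  t0_src : ∀ w ∈ c.Src, ∃ v ∈ tn c.MA w, v (.inl (.inr false)) ≠ 0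

end Ctr

/-- Every smooth blow-up has its master space. -/
def BLM : Prop := ∀ (n : ℕ) (Y : Var n) (c : Ctr Y), c.BlM

end Vale.Agent.P287Q
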