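import Vale.Agent.P287Q.Us.Defs
import Vale.Agent.P287Q.Pv.Bl

/-!
# Birational projections: identity theorem, composites, blow-downs
-/

set_option linter.unusedSectionVars false

namespace Vale.Agent.P287Q

open Set Function Topology Filter MvPolynomial P269 P269.Holo

section ident

variable {W B : Type*} [NormedAddCommGroup W] [NormedSpace ℂ W] [FiniteDimensional ℂ W]
  [NormedAddCommGroup B] [NormedSpace ℂ B] [FiniteDimensional ℂ B] {A : Set W} {f : W → B}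

/-- **Identity theorem** on a connected submanifold. -/
theorem ident_thm (hc : IsPreconnected A) (hm : ∀ y ∈ A, ∃ n, MfdAt A n y)
    (hf : ∀ y ∈ A, HolOn A f y) {a : W} (ha : a ∈ A) (h0 : ∀ᶠ s in 𝓝[A] a, f s = 0) :
    ∀ y ∈ A, f y = 0 := by
  have key : ∀ x ∈ A, ∀ᶠ y in 𝓝[A] x,
      ((∀ᶠ s in 𝓝[A] x, f s = 0) → ∀ᶠ s in 𝓝[A] y, f s = 0) ∧
      ((∀ᶠ s in 𝓝[A] y, f s = 0) → ∀ᶠ s in 𝓝[A] x, f s = 0) := by
    intro x hx
    obtain ⟨n, hn⟩ := hm x hx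
    obtain ⟨ψ, h1, rfl⟩ := hn.prm
    obtain ⟨r, hr, h2⟩ := Metric.eventually_nhds_iff_ball.1 h1.eventually
    have h3 : AnalyticOnNhd ℂ (fun z => f (ψ z)) (Metric.ball 0 r) := fun z hz =>
      (h2 z hz).holOn_iff.1 (hf _ (h2 z hz).mem0)
    have h4 : ∀ z ∈ Metric.ball (0 : Fin n → ℂ) r, ∀ z' ∈ Metric.ball (0 : Fin n → ℂ) r,
        (∀ᶠ s in 𝓝[A] (ψ z), f s = 0) → ∀ᶠ s in 𝓝[A] (ψ z'), f s = 0 := by
      intro z hz z' hz' h
      rw [← (h2 z hz).nh, eventually_map] at h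
      rw [← (h2 z' hz').nh, eventually_map]
      filter_upwards [Metric.isOpen_ball.mem_nhds hz'] with u hu
      exact h3.eqOn_zero_of_preconnected_of_eventuallyEq_zero (convex_ball _ _).isPreconnected hz
        h hu
    rw [← h1.nh, eventually_map, h1.nh]
    filter_upwards [Metric.ball_mem_nhds _ hr] with z hz
    exact ⟨h4 _ (Metric.mem_ball_self hr) _ hz, h4 _ hz _ (Metric.mem_ball_self hr)⟩
  intro y hy
  exact (hc.induction₂' (fun x y => (∀ᶠ s in 𝓝[A] x, f s = 0) → ∀ᶠ s in 𝓝[A] y, f s = 0) key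
    (fun _ _ _ _ _ _ h1 h2 h => h2 (h1 h)) ha hy h0).self_of_nhdsWithin hy

/-- The set where a nonzero holomorphic map does not vanish is dense. -/
theorem freq_ne (hc : IsPreconnected A) (hm : ∀ y ∈ A, ∃ n, MfdAt A n y)
    (hf : ∀ y ∈ A, HolOn A f y) (h0 : ∃ y ∈ A, f y ≠ 0) {a : W} (ha : a ∈ A) :
    ∃ᶠ s in 𝓝[A] a, f s ≠ 0 := fun h =>
  let ⟨y, hy, e⟩ := h0
  e (ident_thm hc hm hf ha (h.mono fun _ => not_not.1) y hy)

theorem subset_closure_ne (hc : IsPreconnected A) (hm : ∀ y ∈ A, ∃ n, MfdAt A n y)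
    (hf : ∀ y ∈ A, HolOn A f y) (h0 : ∃ y ∈ A, f y ≠ 0) :
    A ⊆ closure {y | y ∈ A ∧ f y ≠ 0} := fun _ ha =>
  mem_closure_iff_frequently.2 (frequently_nhdsWithin_iff.1 (freq_ne hc hm hf h0 ha) |>.mono
    fun _ h => ⟨h.2, h.1⟩)

/-- Two nonzero holomorphic maps are nonzero at a common point. -/
theorem exists_ne_ne {B' : Type*} [NormedAddCommGroup B'] [NormedSpace ℂ B'] {f' : W → B'}
    (hc : IsPreconnected A) (hm : ∀ y ∈ A, ∃ n, MfdAt A n y)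
    (hf : ∀ y ∈ A, HolOn A f y) (h0 : ∃ y ∈ A, f y ≠ 0) (hf' : ∀ y ∈ A, HolOn A f' y)
    (h0' : ∃ y ∈ A, f' y ≠ 0) : ∃ y ∈ A, f y ≠ 0 ∧ f' y ≠ 0 := by
  obtain ⟨a, ha, e⟩ := h0'
  have h1 : ∀ᶠ s in 𝓝[A] a, f' s ≠ 0 :=
    eventually_nhdsWithin_iff.2 ((hf' a ha).ev ha (eventually_ne_nhds e))
  obtain ⟨y, h2, h3, h4⟩ := ((freq_ne hc hm hf h0 ha).and_eventually
    (h1.and self_mem_nhdsWithin)).exists
  exact ⟨y, h4, h2, h3⟩

end ident

section frm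

variable {J J' R R' : Type} [Fintype J] [Fintype J'] [Fintype R] [Fintype R'] {π : J → R}
  {π' : J' → R'} {μ ν : R → ℕ} {G G' : (J → ℂ) → ℂ}

theorem Frm.mul (h : Frm π μ G) (h' : Frm π ν G') : Frm π (μ + ν) fun x => G x * G' x :=
  ⟨fun x => (h.an x).mul (h'.an x), fun t ht x => by
    simp only [h.hom t ht, h'.hom t ht, Pi.add_apply, pow_add, Finset.prod_mul_distrib]
    ring⟩

theorem Frm.ne_iff (h : Frm π μ G) {t : R → ℂ} (ht : IsUnit t) {x : J → ℂ} :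
    G (scl π t x) ≠ 0 ↔ G x ≠ 0 := by
  rw [h.hom t ht, mul_ne_zero_iff_left]
  exact Finset.prod_ne_zero_iff.2 fun r _ => pow_ne_zero _ (unit_iff.1 ht r)

theorem unit_mon {d : R' → R → ℕ} {t : R → ℂ} (ht : IsUnit t) :
    IsUnit fun r' => ∏ r, t r ^ d r' r :=
  unit_iff.2 fun _ => Finset.prod_ne_zero_iff.2 fun r _ => pow_ne_zero _ (unit_iff.1 ht r)

theorem unit_zmon {d : R' → R → ℤ} {t : R → ℂ} (ht : IsUnit t) :
    IsUnit fun r' => ∏ r, t r ^ d r' r :=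
  unit_iff.2 fun _ => Finset.prod_ne_zero_iff.2 fun r _ => zpow_ne_zero _ (unit_iff.1 ht r)

/-- A map given by forms is equivariant. -/
theorem frms_scl {d : R' → R → ℕ} {s : (J → ℂ) → J' → ℂ}
    (hs : ∀ j, Frm π (d (π' j)) fun x => s x j) {t : R → ℂ} (ht : IsUnit t) (x : J → ℂ) :
    s (scl π t x) = scl π' (fun r' => ∏ r, t r ^ d r' r) (s x) :=
  funext fun j => (hs j).hom t ht x

theorem frms_an {d : R' → R → ℕ} {s : (J → ℂ) → J' → ℂ}
    (hs : ∀ j, Frm π (d (π' j)) fun x => s x j) (x : J → ℂ) : AnalyticAt ℂ s x :=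
  analyticAt_pi_iff.2 fun j => (hs j).an x

theorem Frm.comp {μ' : R' → ℕ} {F : (J' → ℂ) → ℂ} (h : Frm π' μ' F) {d : R' → R → ℕ}
    {s : (J → ℂ) → J' → ℂ} (hs : ∀ j, Frm π (d (π' j)) fun x => s x j) :
    Frm π (fun r => ∑ r', d r' r * μ' r') fun x => F (s x) :=
  ⟨fun x => (h.an _).comp (frms_an hs x), fun t ht x => by
    rw [frms_scl hs ht, h.hom _ (unit_mon ht)]
    simp only [← Finset.prod_pow, ← pow_mul, ← Finset.prod_pow_eq_pow_sum]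
    rw [Finset.prod_comm]⟩

theorem frm_crd [DecidableEq R] (j : J) : Frm π (Pi.single (π j) 1) fun x => x j :=
  ⟨fun _ => analyticAt_pi_iff.1 analyticAt_id j, fun t _ x => by
    rw [Finset.prod_eq_single (π j) (fun r _ e => by simp [e]) (by simp)]
    simp [scl]⟩

theorem frm_eval [DecidableEq R] {δ : R → ℤ} {p : MvPolynomial J ℂ} (h : WHom (bw π) δ p)
    (hδ : ∀ r, 0 ≤ δ r) : Frm π (fun r => (δ r).toNat) fun x => eval x p :=
  ⟨an_eval p, fun t ht x => by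
    rw [← tw_bw, h.eval_tw ht]
    refine congrArg (· * _) (Finset.prod_congr rfl fun r _ => ?_)
    rw [← zpow_natCast, Int.toNat_of_nonneg (hδ r)]⟩

/-- Sections given by forms. -/
theorem Sct.of_frm {A : Set (J' → ℂ)} {i : J → J'} {O : Set (J → ℂ)} {d : R' → R → ℕ}
    {s : (J → ℂ) → J' → ℂ} (hs : ∀ j, Frm π (d (π' j)) fun x => s x j)
    (mem : ∀ x ∈ O, s x ∈ A) (inv : ∀ x ∈ O, s x ∘ i = x)
    (orb : ∀ w ∈ A, w ∘ i ∈ O → Orb π' (s (w ∘ i)) w) : Sct π π' A i O s :=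
  ⟨fun x _ => .of_an (frms_an hs x), mem, inv, orb, fun r' r => d r' r, fun t ht x _ => by
    simpa only [zpow_natCast] using frms_scl hs ht x⟩

end frm

variable {n : ℕ}

theorem Var.mfd (V : Var n) : ∀ y ∈ V.A, ∃ k, MfdAt V.A k y := fun y hy => ⟨_, V.pv.mfd y hy⟩

/-- Two nonzero entire functions on a variety are nonzero at a common point. -/
theorem Var.exists_ne_ne (V : Var n) {F F' : (V.J → ℂ) → ℂ} (h : ∀ y, AnalyticAt ℂ F y)
    (h' : ∀ y, AnalyticAt ℂ F' y) (h0 : ∃ y ∈ V.A, F y ≠ 0) (h0' : ∃ y ∈ V.A, F' y ≠ 0) :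
    ∃ y ∈ V.A, F y ≠ 0 ∧ F' y ≠ 0 :=
  P287Q.exists_ne_ne V.conn.2 V.mfd (fun y _ => .of_an (h y)) h0 (fun y _ => .of_an (h' y)) h0'

/-- Composites of birational projections are birational. -/
theorem Ext.Bir.comp {U V W : Var n} {g : Ext U V} {f : Ext V W} (hg : g.Bir) (hf : f.Bir) :
    (g.comp f).Bir := by
  obtain ⟨μ', G', d', s', a1, a2, a3, a4⟩ := hg
  obtain ⟨μ, G, d, s, b1, b2, b3, x₀, b4, b5⟩ := hf
  have c2 : ∀ j, Frm W.π (fun r => ∑ r', d r' r * d' (U.π j) r') fun x => s' (s x) j :=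
    fun j => (a2 j).comp b2
  refine ⟨_, _, fun r'' r => ∑ r', d r' r * d' r'' r', fun x => s' (s x), b1.mul (a1.comp b2), c2,
    Sct.of_frm (d := fun r'' r => ∑ r', d r' r * d' r'' r') c2 (fun x hx => ?_) (fun x hx => ?_)
      (fun w hw hx => ?_), ?_⟩
  · exact a3.mem _ ⟨b3.mem x ⟨hx.1, left_ne_zero_of_mul hx.2⟩, right_ne_zero_of_mul hx.2⟩
  · have h1 := b3.mem x ⟨hx.1, left_ne_zero_of_mul hx.2⟩
    have h2 := a3.inv _ ⟨h1, right_ne_zero_of_mul hx.2⟩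
    exact (congrArg (· ∘ f.iJ) h2).trans (b3.inv x ⟨hx.1, left_ne_zero_of_mul hx.2⟩)
  · obtain ⟨t, ht, e⟩ := b3.orb (w ∘ g.iJ) (g.map w hw) ⟨hx.1, left_ne_zero_of_mul hx.2⟩
    have h1 : G' (w ∘ g.iJ) ≠ 0 := by
      rw [e]
      exact (a1.ne_iff ht).2 (right_ne_zero_of_mul hx.2)
    obtain ⟨t', ht', e'⟩ := a3.orb w hw ⟨g.map w hw, h1⟩
    refine ⟨t' * fun r' => ∏ r, t r ^ d' r' r, ht'.mul (unit_mon ht), ?_⟩
    rw [scl_mul, ← frms_scl a2 ht]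
    exact e'.trans (congrArg (fun y => scl U.π t' (s' y)) e)
  · obtain ⟨y, hy, h1, h2⟩ := V.exists_ne_ne (F := G') (F' := fun y => G (y ∘ f.iJ)) a1.an
      (fun y => (b1.an _).comp (an_pre f.iJ y)) a4
      ⟨s x₀, b3.mem x₀ ⟨b4, b5⟩, by rw [b3.inv x₀ ⟨b4, b5⟩]; exact b5⟩
    obtain ⟨t, ht, e⟩ := b3.orb y hy ⟨f.map y hy, h2⟩
    refine ⟨y ∘ f.iJ, f.map y hy, mul_ne_zero h2 ((a1.ne_iff ht).1 ?_)⟩
    rwa [← e]

/-- The identity is birational. -/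
theorem Ext.bir_refl (V : Var n) : (Ext.refl V).Bir := by
  have c : ∀ j, Frm V.π (Pi.single (V.π j) 1) fun x => x j := frm_crd
  obtain ⟨y, hy⟩ := V.conn.1
  exact ⟨0, fun _ => 1, fun r => Pi.single r 1, fun x => x,
    ⟨fun _ => analyticAt_const, fun _ _ _ => by simp⟩, c,
    Sct.of_frm (d := fun r => Pi.single r 1) c (fun _ h => h.1) (fun _ _ => rfl)
      fun w _ _ => ⟨1, isUnit_one, (scl_one w).symm⟩, y, hy, one_ne_zero⟩

/-- The centre is a proper subset. -/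
theorem Ctr.exists_off {V : Var n} (c : Ctr V) : ∃ y ∈ V.A, gv c.g y ≠ 0 := by
  by_contra! h
  obtain ⟨y, hy⟩ := V.conn.1
  have h1 : V.A ⊆ c.C := fun y hy => (c.cut.zero y hy).2 (h y hy)
  have h2 := dim_le (c.pv.mfd y (h1 hy)) (V.pv.mfd y hy) h1
  have h3 := c.cod
  omega

/-- Blow-downs are birational. -/
theorem Ctr.down_bir {V : Var n} (c : Ctr V) : c.down.Bir := by
  obtain ⟨y, hy, h0⟩ := c.exists_off
  obtain ⟨k, hk⟩ := ne_iff.1 h0
  have c1 : ∀ k, Frm V.π (fun r => (c.δ r).toNat) fun x => eval x (c.g k) :=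
    fun k => frm_eval (c.cut.hom k) fun r => (c.pos r).le
  let d : Option V.R → V.R → ℕ := fun o => o.elim (fun r => (c.δ r).toNat) fun r => Pi.single r 1
  have c2 : ∀ j, Frm V.π (d (c.bl.π j))
      fun x => (Sum.elim x (gv c.g x) : V.J ⊕ Fin c.k → ℂ) j := by
    rintro (j | j)
    exacts [frm_crd j, c1 j]
  have ne : ∀ x, eval x (c.g k) ≠ 0 → gv c.g x ≠ 0 := fun x h e => h (congrFun e k)
  refine ⟨_, _, d, fun x => Sum.elim x (gv c.g x), c1 k, c2,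
    Sct.of_frm (d := d) c2 (fun x hx => ?_) (fun _ _ => rfl) (fun w hw hx => ?_), y, hy, hk⟩
  · exact (mem_blA_off (ne x hx.2)).2 ⟨hx.1, 1, one_ne_zero, (one_smul _ _).symm⟩
  · have hw' : Sum.elim (w ∘ Sum.inl) (w ∘ Sum.inr) ∈ blA V.A c.g := by
      rw [Sum.elim_comp_inl_inr]
      exact hw
    obtain ⟨-, s, hs, e⟩ := (mem_blA_off (ne _ hx.2)).1 hw'
    refine ⟨fun o => o.elim s fun _ => 1, unit_iff.2 ?_, funext ?_⟩
    · rintro (_ | r)
      exacts [hs, one_ne_zero]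
    · rintro (j | j)
      exacts [(one_mul _).symm, congrFun e j]

end Vale.Agent.P287Q
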