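import Vale.Agent.P287Q.Us.TwDefs
import Vale.Agent.P287Q.Pv.Bl

/-!
# The blow-up and the exceptional divisor are connected
-/

namespace Vale.Agent.P287Q

open Set Function Topology Filter MvPolynomial P269 P269.Holo

theorem blc_sub {W : Type} [NormedAddCommGroup W] [NormedSpace ℂ W] (V : Submodule ℂ W) :
    IsPreconnected {u | u ≠ 0 ∧ u ∈ V} := by
  refine isPreconnected_of_forall_pair fun u hu v hv => ?_
  have hc : ({z : ℂ | (1 - z) • u + z • v = 0}).Countable := by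
    refine Set.Subsingleton.countable fun z hz w hw => by_contra fun hne => hu.1 ?_
    have h1 : (z - w) • (v - u) = 0 := by
      rw [mem_ofPred_eq] at hz hw
      rw [← sub_eq_zero.2 (hz.trans hw.symm)]
      module
    have h2 := sub_eq_zero.1 ((smul_eq_zero.1 h1).resolve_left (sub_ne_zero.2 hne))
    rw [mem_ofPred_eq, h2, ← add_smul, sub_add_cancel, one_smul] at hz
    exact hz
  refine ⟨(fun z : ℂ => (1 - z) • u + z • v) '' {z : ℂ | (1 - z) • u + z • v = 0}ᶜ, ?_,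
    ⟨0, by simpa using hu.1, by simp⟩, ⟨1, by simpa using hv.1, by simp⟩,
    (hc.isConnected_compl_of_one_lt_rank (by simp)).isPreconnected.image _ (by fun_prop)⟩
  rintro _ ⟨z, hz, rfl⟩
  exact ⟨hz, V.add_mem (V.smul_mem _ hu.2) (V.smul_mem _ hv.2)⟩

theorem blc_gen {J K : Type} [Fintype J] [Fintype K] {B : Set (J ⊕ K → ℂ)} {D : Set (J → ℂ)}
    (hD : IsPreconnected D)
    (hc : ∀ y ∈ D, ∀ u, u ≠ 0 → Sum.elim y u ∈ closure B → Sum.elim y u ∈ B)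
    (hf : ∀ y ∈ D, ∃ V : Submodule ℂ (K → ℂ), V ≠ ⊥ ∧ ∀ u, Sum.elim y u ∈ B ↔ u ≠ 0 ∧ u ∈ V) :
    IsPreconnected {w | w ∈ B ∧ w ∘ .inl ∈ D} := by
  have c0 : Continuous fun p : (J → ℂ) × (K → ℂ) => Sum.elim p.1 p.2 :=
    continuous_pi fun j => by rcases j with j | k <;> simp only [Sum.elim_inl, Sum.elim_inr] <;> fun_prop
  have cl : ∀ U : Set (J ⊕ K → ℂ), IsClosed U →
      IsClosed {y | ∃ u : Metric.sphere (0 : K → ℂ) 1, Sum.elim y u.1 ∈ closure B ∩ U} := by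
    intro U hU
    have := isClosedMap_fst_of_compactSpace (X := J → ℂ) (Y := Metric.sphere (0 : K → ℂ) 1) _
      ((isClosed_closure (s := B).inter hU).preimage
        (c0.comp (continuous_id.prodMap continuous_subtype_val)))
    convert this using 1
    exact Set.ext fun y => ⟨fun ⟨u, h⟩ => ⟨(y, u), h, rfl⟩, fun ⟨p, h, e⟩ => ⟨p.2, e ▸ h⟩⟩
  have ne : ∀ u : Metric.sphere (0 : K → ℂ) 1, u.1 ≠ 0 := fun u h => by simpa [h] using u.2
  rw [isPreconnected_iff_subset_of_disjoint_closed] at hD ⊢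
  intro U U' hU hU' h1 h2
  have fib : ∀ y ∈ D, (∀ u, Sum.elim y u ∈ B → Sum.elim y u ∈ U) ∨
      ∀ u, Sum.elim y u ∈ B → Sum.elim y u ∈ U' := by
    intro y hy
    obtain ⟨V, -, hV⟩ := hf y hy
    have c1 : Continuous fun u : K → ℂ => Sum.elim y u := c0.comp (Continuous.prodMk_right y)
    refine (isPreconnected_iff_subset_of_disjoint_closed.1 (blc_sub V) _ _ (hU.preimage c1)
      (hU'.preimage c1) (fun u hu => h1 ⟨(hV u).2 hu, hy⟩) (eq_empty_of_forall_notMem fun u hu =>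
        h2.le ⟨⟨(hV u).2 hu.1, hy⟩, hu.2⟩)).imp (fun h u hu => h ((hV u).1 hu))
      fun h u hu => h ((hV u).1 hu)
  have key : ∀ U U' : Set (J ⊕ K → ℂ), {w | w ∈ B ∧ w ∘ .inl ∈ D} ∩ (U ∩ U') = ∅ → ∀ y ∈ D,
      (∃ u : Metric.sphere (0 : K → ℂ) 1, Sum.elim y u.1 ∈ closure B ∩ U) →
      ¬ ∀ u, Sum.elim y u ∈ B → Sum.elim y u ∈ U' := fun U U' h y hy ⟨u, hu⟩ k =>
    h.le ⟨⟨hc y hy u (ne u) hu.1, hy⟩, hu.2, k u (hc y hy u (ne u) hu.1)⟩
  have h2' := h2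
  rw [inter_comm U] at h2'
  refine (hD _ _ (cl U hU) (cl U' hU') (fun y hy => ?_) (eq_empty_of_forall_notMem fun y hy =>
    (fib y hy.1).elim (key _ _ h2' y hy.1 hy.2.2) (key _ _ h2 y hy.1 hy.2.1))).imp
    (fun h w hw => ?_) fun h w hw => ?_
  · obtain ⟨V, h3, hV⟩ := hf y hy
    obtain ⟨v, h4, h5⟩ := (Submodule.ne_bot_iff V).1 h3
    have h6 := norm_ne_zero_iff.2 h5
    have h7 : (‖v‖ : ℂ)⁻¹ • v ∈ Metric.sphere (0 : K → ℂ) 1 := by
      simp [norm_smul, inv_mul_cancel₀ h6]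
    have h8 := (hV _).2 ⟨ne ⟨_, h7⟩, V.smul_mem _ h4⟩
    exact (h1 ⟨h8, hy⟩).imp (fun h => ⟨⟨_, h7⟩, subset_closure h8, h⟩)
      fun h => ⟨⟨_, h7⟩, subset_closure h8, h⟩
  · have := ((fib _ hw.2).resolve_right (key _ _ h2 _ hw.2 (h hw.2))) (w ∘ .inr)
    rw [Sum.elim_comp_inl_inr] at this
    exact this hw.1
  · have := ((fib _ hw.2).resolve_left (key _ _ h2' _ hw.2 (h hw.2))) (w ∘ .inr)
    rw [Sum.elim_comp_inl_inr] at this
    exact this hw.1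

theorem blc : BLC := by
  intro J R K _ _ _ _ π A C D δ g n m hA hC hd h hDA hD
  refine ⟨?_, blc_gen hD.isPreconnected (fun y hy u hu hw => (h.bl hA hC).cl _ hw
    (mem_Ust_blP.2 ⟨hA.sub (hDA hy), hu⟩)) fun y hy => ?_⟩
  · obtain ⟨y, hy⟩ := hD.nonempty
    obtain ⟨u, hu⟩ := h.bl_surj hA hC hd (hDA hy)
    exact ⟨_, hu, hy⟩
  have key : ∀ V : Submodule ℂ (K → ℂ), (∀ u, Sum.elim y u ∈ blA A g ↔ u ≠ 0 ∧ u ∈ V) →
      ∃ V : Submodule ℂ (K → ℂ), V ≠ ⊥ ∧ ∀ u, Sum.elim y u ∈ blA A g ↔ u ≠ 0 ∧ u ∈ V := by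
    intro V hV
    obtain ⟨u, hu⟩ := h.bl_surj hA hC hd (hDA hy)
    exact ⟨V, (Submodule.ne_bot_iff V).2 ⟨u, ((hV u).1 hu).2, ((hV u).1 hu).1⟩, hV⟩
  by_cases e : gv g y = 0
  · exact key ((tn A y).map (fderiv ℂ (gv g) y : (J → ℂ) →ₗ[ℂ] K → ℂ)) fun u =>
      (mem_blA_on e).trans (and_iff_right (hDA hy))
  · refine key (Submodule.span ℂ {gv g y}) fun u =>
      (mem_blA_off e).trans ((and_iff_right (hDA hy)).trans ?_)
    rw [Submodule.mem_span_singleton]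
    exact ⟨fun ⟨s, a, b⟩ => ⟨b ▸ smul_ne_zero a e, s, b.symm⟩,
      fun ⟨a, s, b⟩ => ⟨s, left_ne_zero_of_smul (b ▸ a), b.symm⟩⟩

end Vale.Agent.P287Q
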