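import Vale.Agent.P287Q.Us.Defs
import Vale.Agent.P287Q.Pv.Slc
import Mathlib.Analysis.Normed.Module.Connected

/-!
# Towers over projective space: lifts of a rational map to the multicones (definitions, statements)
-/

namespace Vale.Agent.P287Q

open Set Function Topology Filter MvPolynomial P269 P269.Holo

theorem mem_Ust_unit {J : Type} {y : J → ℂ} : y ∈ Ust (fun _ : J => ()) ↔ y ≠ 0 :=
  ⟨fun h e => let ⟨_, _, a⟩ := h (); a (congrFun e _),
    fun h _ => let ⟨j, a⟩ := ne_iff.1 h; ⟨j, rfl, a⟩⟩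

theorem conn_ne (J : Type) [Fintype J] [Nonempty J] : IsConnected ({0}ᶜ : Set (J → ℂ)) :=
  isConnected_compl_singleton_of_one_lt_rank (by
    rw [← Module.finrank_eq_rank, Nat.one_lt_cast, Module.finrank_pi_fintype]
    simp only [Complex.finrank_real_complex, Finset.sum_const, Finset.card_univ, smul_eq_mul]
    have := Fintype.card_pos (α := J)
    omega) 0

/-- Projective space. -/
abbrev Pn (n : ℕ) : Var n :=
  { J := Fin (n + 1), R := Unit, π := fun _ => (), A := Ust fun _ => ()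
    pv := by simpa using pv_Ust (π := fun _ : Fin (n + 1) => ())
    conn := (Set.ext fun _ => mem_Ust_unit.symm : {0}ᶜ = Ust fun _ : Fin (n + 1) => ()) ▸ conn_ne _ }

/-- The zero set of `f` contains no germ of a hypersurface of `A`. -/
def NH {W B : Type} [NormedAddCommGroup W] [NormedSpace ℂ W] [Zero B] (A : Set W) (f : W → B) :
    Prop :=
  ∀ y ∈ A, ∀ h : W → ℂ, HolOn A h y → h y = 0 → ¬ ∀ᶠ z in 𝓝 y, z ∈ A → h z = 0 → f z = 0

/-- `F` is an equivariant holomorphic map on the cone without divisors in its zero set, and `G` is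
proportional to `F`. -/
structure Lift {n : ℕ} (Y : Var n) {K : Type} [Fintype K] (G F : (Y.J → ℂ) → K → ℂ) : Prop where
  hol : ∀ y ∈ Y.A, HolOn Y.A F y
  eqv : ∃ d : Y.R → ℤ, ∀ t, IsUnit t → ∀ y ∈ Y.A, F (scl Y.π t y) = (∏ r, t r ^ d r) • F y
  nh : NH Y.A F
  par : ∀ y ∈ Y.A, ∃ c : ℂ, G y = c • F y

/-- Division by the greatest common divisor. -/
def NH0 : Prop := ∀ (n e : ℕ) (K : Type) [Fintype K] (g : K → MvPolynomial (Fin (n + 1)) ℂ),
  (∀ k, (g k).IsHomogeneous e) → (∃ k, g k ≠ 0) → ∃ F, Lift (Pn n) (gv g) F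

/-- Division by the largest power of the equation of the exceptional divisor. -/
def NHS : Prop := ∀ (n : ℕ) (Y : Var n) (K : Type) [Fintype K] (G F : (Y.J → ℂ) → K → ℂ)
  (c : Ctr Y), Lift Y G F → ∃ F', Lift c.bl (fun w => G (w ∘ Sum.inl)) F'

/-- The blow-up and the exceptional divisor are connected. -/
def BLC : Prop := ∀ (J R K : Type) [Fintype J] [Fintype R] [Fintype K] [DecidableEq R] (π : J → R)
  (A C D : Set (J → ℂ)) (δ : R → ℤ) (g : K → MvPolynomial J ℂ) (n m : ℕ), PV π A n → PV π C m →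
    m < n → Cut π A C δ g → D ⊆ A → IsConnected D → IsConnected {w | w ∈ blA A g ∧ w ∘ .inl ∈ D}

end Vale.Agent.P287Q
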