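import Vale.Agent.P287Q.Us.Bir
import Vale.Agent.P287Q.Pv.Bl

/-!
# Sections of coordinate projections; components of smooth multicones
-/

set_option linter.unusedSectionVars false

namespace Vale.Agent.P287Q

open Set Function Topology Filter MvPolynomial P269 P269.Holo

variable {J J₀ J' R R₀ R' S K : Type} [Fintype J] [Fintype J₀] [Fintype J'] [Fintype R]
  [Fintype R₀] [Fintype R'] [Fintype S] [Fintype K] {π₀ : J₀ → R₀} {π : J → R} {π' : J' → R'}
  {A C : Set (J → ℂ)} {A' : Set (J' → ℂ)} {i : J₀ → J} {i' : J → J'} {O Z : Set (J₀ → ℂ)}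
  {O' : Set (J → ℂ)} {s : (J₀ → ℂ) → J → ℂ} {s' : (J → ℂ) → J' → ℂ} {x y z : J → ℂ} {n m : ℕ}

theorem orb_refl (y : J → ℂ) : Orb π y y := ⟨1, isUnit_one, (scl_one y).symm⟩

theorem orb_scl {t : R → ℂ} (ht : IsUnit t) (y : J → ℂ) : Orb π y (scl π t y) := ⟨t, ht, rfl⟩

theorem Orb.symm (h : Orb π x y) : Orb π y x := by
  obtain ⟨t, ht, rfl⟩ := h
  exact ⟨t⁻¹, unit_inv ht, (scl_inv_scl ht x).symm⟩

theorem Orb.trans (h : Orb π x y) (h' : Orb π y z) : Orb π x z := by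
  obtain ⟨t, ht, rfl⟩ := h
  obtain ⟨t', ht', rfl⟩ := h'
  exact ⟨t' * t, ht'.mul ht, (scl_mul _ _ _).symm⟩

theorem Orb.mem (h : Orb π x y) (hA : ∀ t, IsUnit t → ∀ y ∈ A, scl π t y ∈ A) (hx : x ∈ A) :
    y ∈ A := by
  obtain ⟨t, ht, rfl⟩ := h
  exact hA t ht x hx

theorem Orb.zero_iff (h : Orb π x y) (j : J) : y j = 0 ↔ x j = 0 := by
  obtain ⟨t, ht, rfl⟩ := h
  exact mul_eq_zero_iff_left (unit_iff.1 ht _)

theorem scl_comp {ρ : R₀ → R} (hb : ∀ j, π (i j) = ρ (π₀ j)) (t : R → ℂ) (y : J → ℂ) :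
    scl π t y ∘ i = scl π₀ (t ∘ ρ) (y ∘ i) :=
  funext fun j => by simp only [Function.comp, scl, hb]

theorem unit_comp {t : R → ℂ} (ht : IsUnit t) (ρ : R₀ → R) : IsUnit (t ∘ ρ) :=
  unit_iff.2 fun _ => unit_iff.1 ht _

theorem Orb.comp {ρ : R₀ → R} (hb : ∀ j, π (i j) = ρ (π₀ j)) (h : Orb π x y) :
    Orb π₀ (x ∘ i) (y ∘ i) := by
  obtain ⟨t, ht, rfl⟩ := h
  exact ⟨t ∘ ρ, unit_comp ht ρ, scl_comp hb t x⟩

theorem an_comp_crd (i : J₀ → J) (y : J → ℂ) : AnalyticAt ℂ (fun w : J → ℂ => w ∘ i) y :=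
  analyticAt_pi_iff.2 fun j => (ContinuousLinearMap.proj (R := ℂ) (φ := fun _ : J => ℂ) (i j)).analyticAt y

theorem prod_single [DecidableEq R] (t : R → ℂ) (r : R) :
    ∏ b, t b ^ (Pi.single r 1 : R → ℤ) b = t r := by
  rw [Finset.prod_eq_single r (fun b _ hb => by rw [Pi.single_eq_of_ne hb, zpow_zero])
    (fun h => (h (Finset.mem_univ _)).elim), Pi.single_eq_same, zpow_one]

namespace Sct

theorem id (π : J → R) (A O : Set (J → ℂ)) (h : O ⊆ A) : Sct π π A id O fun x => x := by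
  classical
  refine ⟨fun _ _ => .of_an analyticAt_id, h, fun _ _ => rfl, fun w _ _ => orb_refl w,
    fun r => Pi.single r 1, fun t _ x _ => ?_⟩
  exact congrArg (fun a => scl π a x) (funext fun r => (prod_single t r).symm)

theorem orb_scl (h : Sct π₀ π A i O s) {t : R₀ → ℂ} (ht : IsUnit t) {x : J₀ → ℂ} (hx : x ∈ O) :
    Orb π (s x) (s (scl π₀ t x)) := by
  obtain ⟨d, hd⟩ := h.eqv
  exact ⟨_, unit_zmon ht, hd t ht x hx⟩

/-- Restriction to a smaller set, upstairs and downstairs. -/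
theorem mono (h : Sct π₀ π A i O s) (hZ : Z ⊆ O) (hC : C ⊆ A) (hm : ∀ x ∈ Z, s x ∈ C) :
    Sct π₀ π C i Z s :=
  ⟨fun x hx => (h.hol x (hZ hx)).mono (.of_forall fun _ a => hZ a), hm,
    fun x hx => h.inv x (hZ hx), fun w hw a => h.orb w (hC hw) (hZ a),
    h.eqv.imp fun _ hd t ht x hx => hd t ht x (hZ hx)⟩

theorem inter (h : Sct π₀ π A i O s) (Z : Set (J₀ → ℂ)) :
    Sct π₀ π {w | w ∈ A ∧ w ∘ i ∈ Z} i (O ∩ Z) s :=
  h.mono inter_subset_left (fun _ a => a.1) fun x hx =>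
    ⟨h.mem x hx.1, (h.inv x hx.1).symm ▸ hx.2⟩

/-- Composition. -/
theorem comp (h : Sct π₀ π A i O s) (h' : Sct π π' A' i' O' s') (hm : ∀ x ∈ O, s x ∈ O')
    (hi : ∀ t, IsUnit t → ∀ y ∈ O', scl π t y ∈ O')
    (hA : ∀ w ∈ A', w ∘ i' ∘ i ∈ O → w ∘ i' ∈ A) :
    Sct π₀ π' A' (i' ∘ i) O fun x => s' (s x) := by
  refine ⟨fun x hx => (h'.hol _ (hm x hx)).comp (h.hol x hx) hx (.of_forall hm),
    fun x hx => h'.mem _ (hm x hx), fun x hx => ?_, fun w hw hx => ?_, ?_⟩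
  · rw [← Function.comp_assoc, h'.inv _ (hm x hx), h.inv x hx]
  · obtain ⟨t, ht, e⟩ := h.orb _ (hA w hw hx) hx
    have h1 := h'.orb w hw (e ▸ hi t ht _ (hm _ hx))
    rw [e] at h1
    exact (h'.orb_scl ht (hm _ hx)).trans h1
  · obtain ⟨d, hd⟩ := h.eqv
    obtain ⟨d', hd'⟩ := h'.eqv
    refine ⟨fun r' r₀ => ∑ r, d r r₀ * d' r' r, fun t ht x hx => ?_⟩
    rw [hd t ht x hx, hd' _ (unit_zmon ht) _ (hm x hx)]
    refine congrArg (fun a => scl π' a _) (funext fun r' => ?_)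
    simp only [zpow_fsum (unit_iff.1 ht _), zpow_mul, ← Finset.prod_zpow]
    exact Finset.prod_comm

/-- The rescaling is trivial on the old blocks. -/
theorem exists_t (h : Sct π₀ π A i O s) {ρ : R₀ → R} (hb : ∀ j, π (i j) = ρ (π₀ j))
    (hO : O ⊆ Ust π₀) {w : J → ℂ} (hw : w ∈ A) (hx : w ∘ i ∈ O) :
    ∃ t, IsUnit t ∧ t ∘ ρ = 1 ∧ w = scl π t (s (w ∘ i)) := by
  obtain ⟨t, ht, e⟩ := h.orb w hw hx
  refine ⟨t, ht, scl_inj (hO hx) ?_, e⟩
  rw [scl_one]
  conv_rhs => rw [e, scl_comp hb, h.inv _ hx]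

theorem contOn (h : Sct π₀ π A i O s) : ContinuousOn s O := fun x hx => (h.hol x hx).tendsto hx

end Sct

theorem isConnected_unit : IsConnected {t : R → ℂ | IsUnit t} := by
  have : {t : R → ℂ | IsUnit t} = Set.pi univ fun _ => ({0}ᶜ : Set ℂ) :=
    Set.ext fun t => unit_iff.trans (by simp)
  rw [this]
  exact isConnected_univ_pi.2 fun _ => isConnected_compl_singleton_of_one_lt_rank
    (by rw [Complex.rank_real_complex]; exact Nat.one_lt_ofNat) 0

/-- The preimage of a connected invariant set is connected. -/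
theorem Sct.conn (h : Sct π₀ π A i O s) {ρ : R₀ → R} (hb : ∀ j, π (i j) = ρ (π₀ j))
    (hA : ∀ t, IsUnit t → ∀ y ∈ A, scl π t y ∈ A)
    (hO : ∀ t, IsUnit t → ∀ y ∈ O, scl π₀ t y ∈ O) (hc : IsConnected O) :
    IsConnected {w | w ∈ A ∧ w ∘ i ∈ O} := by
  have e : {w | w ∈ A ∧ w ∘ i ∈ O} =
      (fun p : (R → ℂ) × (J₀ → ℂ) => scl π p.1 (s p.2)) '' {t | IsUnit t} ×ˢ O := by
    ext w
    constructor
    · rintro ⟨a, b⟩
      obtain ⟨t, ht, e⟩ := h.orb w a b
      exact ⟨(t, w ∘ i), ⟨ht, b⟩, e.symm⟩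
    · rintro ⟨⟨t, x⟩, ⟨ht, hx⟩, rfl⟩
      refine ⟨hA t ht _ (h.mem x hx), ?_⟩
      rw [scl_comp hb, h.inv x hx]
      exact hO _ (unit_comp ht ρ) x hx
  rw [e]
  exact (isConnected_unit.prod hc).image _ (continuous_scl.comp_continuousOn
    (continuousOn_fst.prodMk (h.contOn.comp continuousOn_snd fun _ a => a.2)))

/-- The preimage of a manifold is a manifold. -/
theorem Sct.mfdAt (h : Sct π₀ π A i O s) {ρ : R₀ → R} (hρ : Injective ρ)
    (hb : ∀ j, π (i j) = ρ (π₀ j)) (hA : MC π A) (hO : O ⊆ Ust π₀) {w : J → ℂ} (hw : w ∈ A)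
    (hm : MfdAt O (n + Fintype.card R₀) (w ∘ i)) :
    MfdAt {w | w ∈ A ∧ w ∘ i ∈ O} (n + Fintype.card R) w := by
  classical
  have hx := hm.mem
  obtain ⟨t, ht, h1, e⟩ := h.exists_t hb hO hw hx
  choose c c1 c2 using hA.sub (h.mem _ hx)
  let R₂ := {r // r ∉ range ρ}
  let ε : (R₂ → ℂ) → R → ℂ := fun a r => if hr : r ∈ range ρ then 1 else a ⟨r, hr⟩
  have ε1 : ∀ a, ε a ∘ ρ = 1 := fun a => funext fun r => dif_pos ⟨r, rfl⟩
  have ε2 : ∀ b : R → ℂ, b ∘ ρ = 1 → ε (fun r => b r.1) = b := fun b hb => funext fun r => by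
    by_cases hr : r ∈ range ρ
    · obtain ⟨r₀, rfl⟩ := hr
      exact (congrFun (ε1 fun r => b r.1) r₀).trans (congrFun hb r₀).symm
    · exact dif_neg hr
  have ε3 : ∀ q : (J₀ → ℂ) × (R₂ → ℂ), AnalyticAt ℂ (fun p : (J₀ → ℂ) × (R₂ → ℂ) => ε p.2) q :=
    fun q => analyticAt_pi_iff.2 fun r => by
      by_cases hr : r ∈ range ρ
      · simp only [ε, dif_pos hr]
        exact analyticAt_const
      · simp only [ε, dif_neg hr]
        exact analyticAt_pi_iff.1 analyticAt_snd _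
  have d : Fintype.card R = Fintype.card R₀ + Fintype.card R₂ := by
    rw [Fintype.card_subtype_compl, Set.card_range_of_injective hρ, Nat.add_sub_cancel'
      (Fintype.card_le_of_injective ρ hρ)]
  let q : (J₀ → ℂ) × (R₂ → ℂ) := (w ∘ i, fun r => t r.1)
  have m1 : MfdAt (O ×ˢ univ) (n + Fintype.card R) q := by
    have := hm.prod (MfdAt.univ q.2)
    rwa [Module.finrank_fintype_fun_eq_card, add_assoc, ← d] at this
  have hs : HolOn (O ×ˢ univ) (fun p : (J₀ → ℂ) × (R₂ → ℂ) => s p.1) q :=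
    (h.hol _ hx).comp (F := Prod.fst) (.of_an analyticAt_fst) m1.mem (.of_forall fun _ a => a.1)
  have e0 : scl π (ε q.2) (s q.1) = w := by
    rw [show ε q.2 = t from ε2 t h1]
    exact e.symm
  have hs' : HolOn {w | w ∈ A ∧ w ∘ i ∈ O} (fun v => s (v ∘ i)) w :=
    (h.hol _ hx).comp (F := fun v : J → ℂ => v ∘ i) (.of_an (an_comp_crd i w)) ⟨hw, hx⟩
      (.of_forall fun _ a => a.2)
  have o : ∀ᶠ y in 𝓝 (s (w ∘ i)), ∀ r, y (c r) ≠ 0 :=
    eventually_all.2 fun r => (continuous_apply (c r)).continuousAt.eventually_ne (c2 r)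
  have := m1.iso' (S' := {w | w ∈ A ∧ w ∘ i ∈ O}) (F := fun p => scl π (ε p.2) (s p.1))
    (G := fun v => (v ∘ i, fun r : R₂ => v (c r.1) / s (v ∘ i) (c r.1)))
    (((HolOn.of_an (ε3 q)).prod hs).comp_an m1.mem
      (an_scl (P := (R → ℂ) × (J → ℂ)) analyticAt_fst analyticAt_snd)) ?_ ?_ ?_
  · rwa [e0] at this
  · rw [e0]
    refine (HolOn.of_an (an_comp_crd i w)).prod (HolOn.pi fun r => ?_)
    exact ((HolOn.of_an analyticAt_id).prod hs').comp_an
      (G := fun p : (J → ℂ) × (J → ℂ) => p.1 (c r.1) / p.2 (c r.1)) ⟨hw, hx⟩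
      ((analyticAt_pi_iff.1 analyticAt_fst _).div (analyticAt_pi_iff.1 analyticAt_snd _) (c2 _))
  · have u : ∀ᶠ p in 𝓝 q, IsUnit (ε p.2) :=
      (ε3 q).continuousAt.eventually (eventually_unit (by
        show IsUnit (ε q.2)
        rw [show ε q.2 = t from ε2 t h1]; exact ht))
    filter_upwards [u, hs.ev m1.mem o] with p a b hp
    have e1 : scl π (ε p.2) (s p.1) ∘ i = p.1 := by
      rw [scl_comp hb, ε1, h.inv _ hp.1, scl_one]
    refine ⟨⟨hA.inv _ a _ (h.mem _ hp.1), e1.symm ▸ hp.1⟩, Prod.ext e1 (funext fun r => ?_)⟩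
    simp only [e1, scl, c1]
    rw [mul_div_cancel_right₀ _ (b hp _)]
    exact dif_neg r.2
  · rw [e0]
    filter_upwards [hs'.ev ⟨hw, hx⟩ o] with v b hv
    refine ⟨⟨hv.2, trivial⟩, ?_⟩
    obtain ⟨t', -, h1', e'⟩ := h.exists_t hb hO hv.1 hv.2
    have : (fun r : R₂ => v (c r.1) / s (v ∘ i) (c r.1)) = fun r => t' r.1 := funext fun r => by
      rw [div_eq_iff (b hv _), congrFun e' (c r.1), scl, c1]
    rw [this, ε2 t' h1']
    exact e'.symm

/-- The section of a blow-up off the centre. -/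
theorem Cut.sct [DecidableEq R] {δ : R → ℤ} {g : K → MvPolynomial J ℂ} (h : Cut π A C δ g) :
    Sct π (blP K π) (blA A g) .inl (A \ C) fun y => Sum.elim y (gv g y) := by
  refine ⟨fun y _ => .of_an (analyticAt_pi_iff.2 ?_), fun y hy => ?_, fun _ _ => rfl,
    fun w hw hy => ?_, fun o => o.elim δ fun r => Pi.single r 1, fun t ht y _ => ?_⟩
  · rintro (j | k)
    · exact analyticAt_pi_iff.1 analyticAt_id j
    · exact an_eval _ _
  · exact ⟨hy.1, fun e => hy.2 ((h.zero y hy.1).2 e), 1, (one_smul _ _).symm,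
      fun e => (one_ne_zero e).elim⟩
  · obtain ⟨a, b, e, h1, -⟩ := hw
    have he : e ≠ 0 := fun e0 => hy.2 ((h.zero _ a).2 (by rw [h1, e0, zero_smul]))
    refine ⟨fun o => o.elim e⁻¹ 1, unit_option.2 ⟨isUnit_one, inv_ne_zero he⟩, ?_⟩
    rw [scl_blP, h1, smul_smul]
    funext j
    rcases j with j | k
    · exact (one_mul _).symm
    · simp [he]
  · rw [scl_blP, gv_scl h.hom ht]
    exact congrArg₂ Sum.elim (congrArg (fun a => scl π a y)
      (funext fun r => (prod_single t r).symm)) rfl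

section cmp

theorem cmp_nhds (h : ∀ y ∈ A, ∃ k, MfdAt A k y) (hy : y ∈ connectedComponentIn A x) :
    ∀ᶠ s in 𝓝 y, s ∈ A ↔ s ∈ connectedComponentIn A x := by
  obtain ⟨k, hk⟩ := h y (connectedComponentIn_subset _ _ hy)
  obtain ⟨ψ, h1, rfl⟩ := hk.prm
  obtain ⟨ε, hε, hb⟩ := Metric.eventually_nhds_iff_ball.1
    (h1.mem.and h1.an.eventually_continuousAt)
  have c : IsPreconnected (ψ '' Metric.ball 0 ε) := (convex_ball _ _).isPreconnected.image _
    fun z hz => (hb z hz).2.continuousWithinAt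
  have c2 : ψ '' Metric.ball 0 ε ⊆ connectedComponentIn A x := by
    rw [connectedComponentIn_eq hy]
    exact c.subset_connectedComponentIn ⟨0, Metric.mem_ball_self hε, rfl⟩
      (image_subset_iff.2 fun z hz => (hb z hz).1)
  filter_upwards [(h1.ev (p := fun s => s ∈ connectedComponentIn A x)).1
    (Filter.mem_of_superset (Metric.ball_mem_nhds 0 hε) fun z hz => c2 ⟨z, hz, rfl⟩)] with s a
  exact ⟨a, fun b => connectedComponentIn_subset _ _ b⟩

theorem cmp_act {G : Type} [TopologicalSpace G] {T : Set G} (hT : IsPreconnected T) {e : G}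
    (he : e ∈ T) {a : G → J → ℂ} (ha : ContinuousOn a T) (h1 : a e = y) (hm : ∀ t ∈ T, a t ∈ A)
    (hy : y ∈ connectedComponentIn A x) {t : G} (ht : t ∈ T) :
    a t ∈ connectedComponentIn A x := by
  rw [connectedComponentIn_eq hy]
  exact (hT.image a ha).subset_connectedComponentIn ⟨e, he, h1⟩ (image_subset_iff.2 hm)
    ⟨t, ht, rfl⟩

/-- The components of a smooth variety are smooth varieties. -/
theorem PV.cmp (h : PV π A n) (x : J → ℂ) : PV π (connectedComponentIn A x) n := by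
  have sub := connectedComponentIn_subset A x
  refine ⟨⟨sub.trans h.sub, fun t ht y hy => ?_, fun y hy hu => ?_⟩, fun y hy =>
    (h.mfd y (sub hy)).congr (cmp_nhds (fun y hy => ⟨_, h.mfd y hy⟩) hy)⟩
  · exact cmp_act (a := fun t => scl π t y) isConnected_unit.isPreconnected isUnit_one
      (continuous_scl.comp (continuous_id.prodMk continuous_const)).continuousOn (scl_one y)
      (fun t ht => h.inv t ht y (sub hy)) hy ht
  · have hA := h.cl y (closure_mono sub hy) hu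
    obtain ⟨z, a, b⟩ := ((mem_closure_iff_frequently.1 hy).and_eventually
      (cmp_nhds (fun y hy => ⟨_, h.mfd y hy⟩) (mem_connectedComponentIn hA))).exists
    rw [connectedComponentIn_eq a, ← connectedComponentIn_eq (b.1 (sub a))]
    exact mem_connectedComponentIn hA

theorem TInv.cmp {wt : J → S → ℤ} (h : TInv wt A) (x : J → ℂ) :
    TInv wt (connectedComponentIn A x) := fun _ hτ y hy =>
  cmp_act (a := fun τ => tw wt τ y) isConnected_unit.isPreconnected isUnit_one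
    (fun _ hτ => (an_tw wt analyticAt_id hτ analyticAt_const).continuousAt.continuousWithinAt)
    (tw_one wt y) (fun τ hτ => h τ hτ y (connectedComponentIn_subset _ _ hy)) hy hτ

end cmp

end Vale.Agent.P287Q
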