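import Vale.Agent.P287Q.Us.WD
import Vale.Agent.P287Q.Us.Bir
import Vale.Agent.P287Q.Pv.Bl
import Vale.Agent.P287Q.Pv.Chow

/-!
# Normalised birational data
-/

namespace Vale.Agent.P287Q

open Set Function Topology Filter MvPolynomial P269 P269.Holo

theorem Frm.nd_prod {J R I : Type} [Fintype J] [Fintype R] {π : J → R} {μ : I → R → ℕ}
    {G : I → (J → ℂ) → ℂ} (S : Finset I) (h : ∀ i, Frm π (μ i) (G i)) :
    Frm π (∑ i ∈ S, μ i) fun x => ∏ i ∈ S, G i x :=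
  ⟨fun x => Finset.analyticAt_fun_prod _ fun i _ => (h i).an x, fun t ht x => by
    simp only [fun i => (h i).hom t ht x, Finset.prod_mul_distrib, Finset.sum_apply,
      ← Finset.prod_pow_eq_pow_sum]
    rw [Finset.prod_comm]⟩

theorem Var.nd_cut {n : ℕ} (V : Var n) : ∃ (k : ℕ) (δ : V.R → ℤ) (g : Fin k → MvPolynomial V.J ℂ),
    Cut V.π (Ust V.π) V.A δ g ∧ ∀ r, 0 < δ r := by
  obtain ⟨k, δ, g, -, h1, h2, -⟩ := chow V.J V.R Empty V.π (fun _ => Empty.elim) V.A n V.pv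
    fun τ _ y hy => by rwa [Subsingleton.elim τ 1, tw_one]
  exact ⟨k, δ, g, h1, h2⟩

variable {n : ℕ} {Y X : Var n} {p : Ext Y X}

theorem Ext.Bir.nd (h : p.Bir) : Nonempty (ND p) := by
  obtain ⟨μ, G, d, s, a1, a2, a3, x₀, a4, a5⟩ := h
  choose o e1 e2 using Y.pv.sub (a3.mem x₀ ⟨a4, a5⟩)
  obtain ⟨kX, δX, QX, cX, pX⟩ := X.nd_cut
  obtain ⟨kY, δY, QY, cY, pY⟩ := Y.nd_cut
  have f1 : ∀ r, Frm X.π (d r) fun x => s x (o r) := fun r => by
    have := a2 (o r)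
    rwa [e1] at this
  have f2 := Frm.nd_prod Finset.univ f1
  let c : (X.J → ℂ) → Y.R → ℂ := fun x r =>
    G x * (∏ r, s x (o r)) * ∏ r' ∈ Finset.univ.erase r, s x (o r')
  have f3 : ∀ x r, c x r * s x (o r) = G x * (∏ r, s x (o r)) * ∏ r, s x (o r) := fun x r => by
    rw [mul_assoc, Finset.prod_erase_mul _ _ (Finset.mem_univ r)]
  have f4 : ∀ x, G x * (∏ r, s x (o r)) * ∏ r, s x (o r) ≠ 0 → IsUnit (c x) := fun x e =>
    unit_iff.2 fun r => left_ne_zero_of_mul (f3 x r ▸ e)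
  have f5 : ∀ x, G x * (∏ r, s x (o r)) * ∏ r, s x (o r) ≠ 0 → G x ≠ 0 := fun x e =>
    left_ne_zero_of_mul (left_ne_zero_of_mul e)
  refine ⟨⟨_, _, fun x => scl Y.π (c x) (s x), ⟨o, e1⟩, (a1.mul f2).mul f2, fun j => ?_,
    fun x r => ?_, fun x e => funext fun j => ?_, fun x hx e => ⟨Y.pv.inv _ (f4 x e) _
      (a3.mem x ⟨hx, f5 x e⟩), c x ∘ p.iR, unit_iff.2 fun r => unit_iff.1 (f4 x e) _,
      funext fun j => ?_⟩, fun y hy e => ?_, ⟨x₀, a4, ?_⟩, kX, δX, QX, cX, pX, kY, δY, QY, cY, pY⟩⟩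
  · have := ((a1.mul f2).mul (Frm.nd_prod (Finset.univ.erase (Y.π j)) f1)).mul (a2 j)
    rwa [add_assoc, Finset.sum_erase_add _ _ (Finset.mem_univ _)] at this
  · exact (congrArg (c x · * _) (e1 r)).trans (f3 x r)
  · refine mul_eq_zero_of_left (mul_eq_zero_of_left ?_ _) _
    exact (mul_eq_zero.1 e).elim id fun a => mul_eq_zero_of_right _ a
  · exact congrArg₂ (· * ·) (congrArg (c x) (p.blk j)) (congrFun (a3.inv x ⟨hx, f5 x e⟩) j)
  · obtain ⟨t, ht, b⟩ := a3.orb y hy ⟨p.map y hy, f5 _ e⟩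
    exact ⟨t * (c _)⁻¹, ht.mul (unit_inv (f4 _ e)), by rw [scl_mul, scl_inv_scl (f4 _ e), ← b]⟩
  · have := Finset.prod_ne_zero_iff.2 fun r (_ : r ∈ Finset.univ) => e2 r
    exact mul_ne_zero (mul_ne_zero a5 this) this

end Vale.Agent.P287Q
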