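import Vale.Agent.P287Q.Us.WD
import Vale.Agent.P287Q.Us.Bir
import Vale.Agent.P287Q.Pv.Bl

/-!
# The equations of the singular model of the master space are weight vectors
-/

namespace Vale.Agent.P287Q

open Set Function Topology Filter MvPolynomial P269 P269.Holo

section frm

variable {J R J' R' : Type} [Fintype J] [Fintype R] [Fintype J'] [Fintype R'] [DecidableEq R']
  {π : J → R} {π' : J' → R'} {μ ν : R → ℕ} {G G' : (J → ℂ) → ℂ}

theorem wf_sub (h : Frm π μ G) (h' : Frm π ν G') (e : ν = μ) : Frm π μ fun x => G x - G' x :=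
  ⟨fun x => (h.an x).sub (h'.an x), fun t ht x => by rw [h.hom t ht, h'.hom t ht, e, mul_sub]⟩

theorem wf_emb (i : J → J') (ρ : R → R') (hb : ∀ j, π' (i j) = ρ (π j)) (h : Frm π μ G) :
    Frm π' (fun r' => ∑ r, (Pi.single (ρ r) 1 : R' → ℕ) r' * μ r) fun s => G (s ∘ i) :=
  h.comp (d := fun r => Pi.single (ρ r) 1) (s := fun s => s ∘ i) fun j => hb j ▸ frm_crd (i j)

theorem wf_mon (α : Sel π) (μ : R → ℕ) : Frm π μ fun x => ∏ r, x (α.1 r) ^ μ r :=
  ⟨fun _ => Finset.analyticAt_fun_prod _ fun r _ => (analyticAt_pi_iff.1 analyticAt_id _).pow _,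
    fun t _ x => by simp only [scl, α.2, mul_pow, Finset.prod_mul_distrib]⟩

end frm

variable {n : ℕ} {Y X : Var n} {p : Ext Y X}

theorem ND.wf_frm (D : ND p) (k : D.K) : ∃ μ, Frm (wπ Y X) μ (D.F k) := by
  have c := frm_crd (π := wπ Y X)
  have ex := fun {μ G} => wf_emb (π' := wπ Y X) (μ := μ) (G := G) .x .x fun _ => rfl
  have h := fun α => ex (wf_mon α D.M)
  cases k with
  | qx k => exact ⟨_, ex (frm_eval (D.cutX.hom k) fun r => (D.posX r).le)⟩
  | zz α β => exact ⟨_, wf_sub ((c _).mul (h β)) ((c _).mul (h α)) rfl⟩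
  | tb α => exact ⟨_, wf_sub (((c _).mul (c _)).mul (h α)) (((c _).mul (ex D.fG)).mul (c _))
      (add_right_comm _ _ _)⟩
  | zy α j => exact ⟨_, wf_sub (((c _).mul (ex (D.fg j))).mul (c _)) (((c _).mul (h α)).mul (c _))
      rfl⟩
  | wb r => exact ⟨_, wf_sub ((c _).mul (c _)) ((c _).mul (c _)) (by simp only [wπ, D.o.2])⟩
  | qy k => exact ⟨_, wf_emb (π' := wπ Y X) .y .y (fun _ => rfl)
      (frm_eval (D.cutY.hom k) fun r => (D.posY r).le)⟩
  | xy j j' =>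
    by_cases e : X.π j = X.π j'
    · have := wf_sub ((c (.x j)).mul (c (.y (p.iJ j')))) ((c (.x j')).mul (c (.y (p.iJ j))))
        (by simp only [wπ, p.blk, e])
      exact ⟨_, (funext fun s => (if_pos e).symm : _ = D.F (.xy j j')) ▸ this⟩
    · exact ⟨0, fun s => (funext fun s => (if_neg e).symm : (fun _ => 0) = D.F (.xy j j')) ▸
        analyticAt_const, fun t _ s => by simp [ND.F, e]⟩

theorem ND.wf_tw (D : ND p) (k : D.K) : ∃ ω : Unit → ℤ, ∀ τ, IsUnit τ → ∀ s,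
    D.F k (tw (wW Y X) τ s) = (∏ i, τ i ^ ω i) * D.F k s := by
  have ex : ∀ τ s, tw (wW Y X) τ s ∘ .x = s ∘ .x := fun τ s => funext fun j => by simp [tw, wW]
  have ey : ∀ τ s, tw (wW Y X) τ s ∘ .y = s ∘ .y := fun τ s => funext fun j => by simp [tw, wW]
  cases k with
  | qx k => exact ⟨0, fun τ _ s => by simp [ND.F, ex]⟩
  | zz α β => exact ⟨0, fun τ _ s => by simp [ND.F, ex, tw, wW]⟩
  | tb α => exact ⟨1, fun τ _ s => by simp [ND.F, ex, tw, wW]; ring⟩
  | zy α j => exact ⟨1, fun τ _ s => by simp [ND.F, ex, tw, wW]; ring⟩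
  | wb r => exact ⟨1, fun τ _ s => by simp [ND.F, tw, wW]; ring⟩
  | qy k => exact ⟨0, fun τ _ s => by simp [ND.F, ey]⟩
  | xy j j' => exact ⟨0, fun τ _ s => by simp [ND.F, tw, wW]⟩

theorem ND.stF (D : ND p) : D.StF := by
  choose μ hμ using D.wf_frm
  choose ω hω using D.wf_tw
  have hO : ∀ t, IsUnit t → ∀ s ∈ ND.O Y X, scl (wπ Y X) t s ∈ ND.O Y X := fun t ht s hs =>
    ⟨fun r => (hs.1 r).imp fun j h => ⟨h.1, mul_ne_zero (unit_iff.1 ht _) h.2⟩,
      hs.2.imp (mul_ne_zero (unit_iff.1 ht _)) (mul_ne_zero (unit_iff.1 ht _))⟩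
  refine ⟨⟨μ, hμ⟩, ⟨ω, hω⟩, ?_, ?_, fun t ht => ⟨hO t ht, fun s hs => ⟨hO t ht s hs.1, fun k => by
    rw [(hμ k).hom t ht, hs.2 k, mul_zero]⟩⟩⟩
  · obtain ⟨x, hx⟩ := X.conn.1
    choose α h1 _ using X.pv.sub hx
    exact ⟨.tb ⟨α, h1⟩, D.P1 1 0 1 1 1 + Pi.single .b 1, by
      simp [ND.F, ND.P1, ND.h]⟩
  · exact isOpen_Ust.inter ((isOpen_ne_fun (continuous_apply _) continuous_const).union
      (isOpen_ne_fun (continuous_apply _) continuous_const))

end Vale.Agent.P287Q
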