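import Vale.Agent.P287Q.Us.WM0

/-!
# The chart `τ ≠ 0` of the master model is smooth and reduced
-/

namespace Vale.Agent.P287Q

open Set Function Topology Filter MvPolynomial P269 P269.Holo

variable {n : ℕ} {Y X : Var n} {p : Ext Y X}

namespace WM1

open WM0

/-- The parameter space. -/
abbrev T (Y X : Var n) : Type := (X.J → ℂ) × ℂ × ℂ × ℂ × (Y.R → ℂ)

/-- The parametrisation. -/
noncomputable def P (D : ND p) (q : T Y X) : wJ Y X → ℂ :=
  D.P1 q.1 q.2.1 q.2.2.1 q.2.2.2.1 q.2.2.2.2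

/-- The coordinates. -/
noncomputable def Q (D : ND p) (α : Sel X.π) (s : wJ Y X → ℂ) : T Y X :=
  (s ∘ .x, s (.z α) / D.h α (s ∘ .x), s .τ, s .a, s ∘ .w)

theorem an_P (D : ND p) {q : T Y X} (h : q.2.2.1 ≠ 0) : AnalyticAt ℂ (P D) q := by
  have a1 : AnalyticAt ℂ (fun q : T Y X => q.1) q := analyticAt_fst
  have b1 : AnalyticAt ℂ (fun q : T Y X => q.2) q := analyticAt_snd
  have a2 : AnalyticAt ℂ (fun q : T Y X => q.2.1) q := analyticAt_fst.comp b1
  have b2 : AnalyticAt ℂ (fun q : T Y X => q.2.2) q := analyticAt_snd.comp b1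
  have a3 : AnalyticAt ℂ (fun q : T Y X => q.2.2.1) q := analyticAt_fst.comp b2
  have b3 : AnalyticAt ℂ (fun q : T Y X => q.2.2.2) q := analyticAt_snd.comp b2
  have a4 : AnalyticAt ℂ (fun q : T Y X => q.2.2.2.1) q := analyticAt_fst.comp b3
  have a5 : AnalyticAt ℂ (fun q : T Y X => q.2.2.2.2) q := analyticAt_snd.comp b3
  refine analyticAt_pi_iff.2 fun j => ?_
  cases j with
  | x j => exact analyticAt_pi_iff.1 a1 j
  | z β => exact a2.mul ((an_h D β _).comp a1)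
  | τ => exact a3
  | a => exact a4
  | b => exact ((a2.mul ((D.fG.an _).comp a1)).mul a4).div a3 h
  | y j =>
    exact ((a2.mul (((D.fg j).an _).comp a1)).mul (analyticAt_pi_iff.1 a5 (Y.π j))).div a3 h
  | w r => exact analyticAt_pi_iff.1 a5 r

theorem an_Q2 (D : ND p) {α : Sel X.π} {s : wJ Y X → ℂ} (h : D.h α (s ∘ .x) ≠ 0) :
    AnalyticAt ℂ (fun s => (Q D α s).2) s :=
  ((an_crd _ s).div (an_hx D α s) h).prod
    ((an_crd _ s).prod ((an_crd _ s).prod (an_comp _ s)))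

theorem an_Q (D : ND p) {α : Sel X.π} {s : wJ Y X → ℂ} (h : D.h α (s ∘ .x) ≠ 0) :
    AnalyticAt ℂ (Q D α) s := (an_comp _ s).prod (an_Q2 D h)

theorem QP (D : ND p) {α : Sel X.π} {q : T Y X} (h : D.h α q.1 ≠ 0) : Q D α (P D q) = q :=
  Prod.ext rfl (Prod.ext (mul_div_cancel_right₀ q.2.1 h) rfl)

theorem dim (Y X : Var n) : n + Fintype.card X.R + Module.finrank ℂ (ℂ × ℂ × ℂ × (Y.R → ℂ)) =
    n + 1 + Fintype.card (wR Y X) := by
  rw [card, Module.finrank_prod, Module.finrank_prod, Module.finrank_prod, Module.finrank_self,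
    Module.finrank_fintype_fun_eq_card]
  omega

end WM1

open WM0 WM1 in
theorem ND.stM1 (D : ND p) (hP : D.StP) : ∀ s ∈ D.U, s .τ ≠ 0 →
    MfdAt D.U (n + 1 + Fintype.card (wR Y X)) s ∧
      ∀ v, (∀ k, fderiv ℂ (D.F k) s v = 0) → v ∈ tn D.U s := by
  intro s hs hτ
  have hx : s ∘ .x ∈ X.A := hP.mapX s (U_V D hs)
  obtain ⟨α, hα⟩ := hP.hx _ (X.pv.sub hx)
  obtain ⟨ha, hw, he⟩ := hP.eq1 s (U_V D hs) hτ
  have hm := X.pv.mfd _ hx
  have eτ : ∀ᶠ y in 𝓝 s, y .τ ≠ 0 := (an_crd _ s).continuousAt.eventually_ne hτ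
  have eα : ∀ᶠ y : wJ Y X → ℂ in 𝓝 s, D.h α (y ∘ .x) ≠ 0 :=
    (an_hx D α s).continuousAt.eventually_ne hα
  have aP : AnalyticAt ℂ (P D) (Q D α s) := an_P D hτ
  have aQ := an_Q D hα
  have h1 : ∀ᶠ q in 𝓝 (Q D α s), q ∈ X.A ×ˢ (univ : Set (ℂ × ℂ × ℂ × (Y.R → ℂ))) →
      P D q ∈ D.U ∧ Q D α (P D q) = q := by
    have c1 : ∀ᶠ q : T Y X in 𝓝 (Q D α s), q.2.2.1 ≠ 0 :=
      (continuous_fst.comp (continuous_snd.comp continuous_snd)).continuousAt.eventually_ne hτ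
    have c2 : ∀ᶠ q : T Y X in 𝓝 (Q D α s), q.2.2.2.1 ≠ 0 :=
      (continuous_fst.comp (continuous_snd.comp (continuous_snd.comp
        continuous_snd))).continuousAt.eventually_ne ha
    have c3 : ∀ᶠ q : T Y X in 𝓝 (Q D α s), IsUnit q.2.2.2.2 :=
      (continuous_snd.comp (continuous_snd.comp (continuous_snd.comp
        continuous_snd))).continuousAt.eventually (eventually_unit hw)
    have c4 : ∀ᶠ q : T Y X in 𝓝 (Q D α s), D.h α q.1 ≠ 0 :=
      ((an_h D α _).continuousAt.comp continuousAt_fst).eventually_ne hα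
    filter_upwards [c1, c2, c3, c4] with q b1 b2 b3 b4 b5
    exact ⟨hP.mem1 _ b5.1 _ _ _ _ b1 b2 b3, QP D b4⟩
  have h2 : ∀ᶠ y in 𝓝 s, y ∈ D.U →
      Q D α y ∈ X.A ×ˢ (univ : Set (ℂ × ℂ × ℂ × (Y.R → ℂ))) ∧ P D (Q D α y) = y := by
    filter_upwards [eτ, eα] with y b1 b2 b3
    exact ⟨⟨hP.mapX y (U_V D b3), trivial⟩, ((hP.eq1 y (U_V D b3) b1).2.2 α b2).symm⟩
  obtain ⟨c1, c2⟩ := chart (P := P D) (Q := Q D α) (s := s) (mfd_prod hm (Q D α s).2) aP aQ
    (he α hα).symm h1 h2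
  refine ⟨dim Y X ▸ c1, fun v hv => c2 v ?_ ?_⟩
  · refine tn_prod hm (Q D α s).2 ?_
    have e : (fderiv ℂ (Q D α) s v).1 = v ∘ .x :=
      (fd_fst (an_comp WJ.x s) (an_Q2 D hα) v).trans (fd_crd _ s v)
    rw [e]
    exact tn_X D hx hv
  · have ai : AnalyticAt ℂ (fun y : wJ Y X → ℂ => (y .τ * D.h α (y ∘ .x))⁻¹) s :=
      ((an_crd _ s).mul (an_hx D α s)).inv (mul_ne_zero hτ hα)
    refine fd_pi (analyticAt_id.sub (aP.comp aQ)) fun j => ?_
    cases j with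
    | x j => exact fd_zero' (.of_forall fun y => sub_self _)
    | τ => exact fd_zero' (.of_forall fun y => sub_self _)
    | a => exact fd_zero' (.of_forall fun y => sub_self _)
    | w r => exact fd_zero' (.of_forall fun y => sub_self _)
    | z β =>
      refine fd_zero ((an_hx D α s).inv hα) (an_F D (.zz β α) s) (eα.mono fun y b => ?_)
        (hs.2 _) (hv _)
      show y (.z β) - y (.z α) / D.h α (y ∘ .x) * D.h β (y ∘ .x) = (D.h α (y ∘ .x))⁻¹ *
        (y (.z β) * D.h α (y ∘ .x) - y (.z α) * D.h β (y ∘ .x))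
      field_simp
    | b =>
      refine fd_zero ai (an_F D (.tb α) s) ((eτ.and eα).mono fun y b => ?_) (hs.2 _) (hv _)
      obtain ⟨b1, b2⟩ := b
      show y .b - y (.z α) / D.h α (y ∘ .x) * D.G (y ∘ .x) * y .a / y .τ =
        (y .τ * D.h α (y ∘ .x))⁻¹ *
          (y .τ * y .b * D.h α (y ∘ .x) - y (.z α) * D.G (y ∘ .x) * y .a)
      field_simp
    | y j =>
      refine fd_zero ai.neg (an_F D (.zy α j) s) ((eτ.and eα).mono fun y b => ?_) (hs.2 _) (hv _)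
      obtain ⟨b1, b2⟩ := b
      show y (.y j) - y (.z α) / D.h α (y ∘ .x) * D.g (y ∘ .x) j * y (.w (Y.π j)) / y .τ =
        -(y .τ * D.h α (y ∘ .x))⁻¹ *
          (y (.z α) * D.g (y ∘ .x) j * y (.w (Y.π j)) - y .τ * D.h α (y ∘ .x) * y (.y j))
      field_simp
      ring

end Vale.Agent.P287Q
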