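import Vale.Agent.P287Q.Us.WM0

/-!
# The chart `b ≠ 0` of the master model is smooth and reduced
-/

set_option linter.unusedSectionVars false

namespace Vale.Agent.P287Q

open Set Function Topology Filter MvPolynomial P269 P269.Holo

section gen

variable {W E : Type*} [NormedAddCommGroup W] [NormedSpace ℂ W] [FiniteDimensional ℂ W]
  [NormedAddCommGroup E] [NormedSpace ℂ E] [FiniteDimensional ℂ E]

/-- A linear projection that is a local isomorphism of `U` with a manifold. -/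
theorem WM2_chart {K : Type*} {U : Set W} {A : Set E} {m : ℕ} {s : W} {P : E → W}
    (c : W →L[ℂ] E) {F : K → W → ℂ} (hA : MfdAt A m (c s)) (hP : AnalyticAt ℂ P (c s))
    (h0 : s ∈ U) (h1 : ∀ᶠ q in 𝓝 (c s), q ∈ A → P q ∈ U ∧ c (P q) = q)
    (h2 : ∀ᶠ w in 𝓝 s, w ∈ U → c w ∈ A ∧ P (c w) = w)
    (hF : ∀ k, AnalyticAt ℂ (F k) s) (hU : ∀ w ∈ U, ∀ k, F k w = 0)
    (h3 : ∀ v, (∀ k, fderiv ℂ (F k) s v = 0) → c v ∈ tn A (c s))
    (h4 : ∀ v, (∀ k, fderiv ℂ (F k) s v = 0) → c v = 0 → v = 0) :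
    MfdAt U m s ∧ ∀ v, (∀ k, fderiv ℂ (F k) s v = 0) → v ∈ tn U s := by
  have := FiniteDimensional.complete ℂ W
  have := FiniteDimensional.complete ℂ E
  have e : P (c s) = s := (h2.self_of_nhds h0).2
  have hm : MfdAt U m s := e ▸ hA.iso (G := c) hP (c.analyticAt _) h1 (e.symm ▸ h2)
  refine ⟨hm, fun v hv => ?_⟩
  have a1 := fderiv_map_tn hA hP (h1.mono fun _ a b => (a b).1) (h3 v hv)
  rw [e] at a1
  have a2 : c (fderiv ℂ P (c s) (c v)) = c v := by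
    have := fderiv_eq_zero (Φ := fun q => c (P q) - q) hA
      (((c.analyticAt _).comp hP).sub analyticAt_id)
      (h1.mono fun _ a b => sub_eq_zero.2 (a b).2) (h3 v hv)
    exact sub_eq_zero.1 ((DFunLike.congr_fun ((c.hasFDerivAt.comp _
      hP.differentiableAt.hasFDerivAt).sub (hasFDerivAt_id _)).fderiv _).symm.trans this)
  have a3 := h4 (v - fderiv ℂ P (c s) (c v)) (fun k => by
    rw [map_sub, hv, fderiv_eq_zero hm (hF k) (.of_forall fun w a => hU w a k) a1, sub_zero])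
    (by rw [map_sub, a2, sub_self])
  rwa [sub_eq_zero.1 a3]

/-- The differential along a line on which the function is affine. -/
theorem WM2_line {f : W → ℂ} {s v : W} {d : ℂ} (hf : AnalyticAt ℂ f s)
    (h0 : fderiv ℂ f s v = 0) (h : ∀ ε : ℂ, f (s + ε • v) = f s + ε * d) : d = 0 := by
  have a1 : HasDerivAt (fun ε : ℂ => s + ε • v) v 0 := by
    simpa using ((hasDerivAt_id (0 : ℂ)).smul_const v).const_add s
  have a2 := HasFDerivAt.comp_hasDerivAt_of_eq 0 hf.differentiableAt.hasFDerivAt a1 (by simp)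
  have a3 : HasDerivAt (fun ε : ℂ => f s + ε * d) d 0 := by
    simpa using ((hasDerivAt_id (0 : ℂ)).mul_const d).const_add (f s)
  exact (a3.unique (funext h ▸ a2)).trans h0

end gen

variable {n : ℕ} {Y X : Var n} {p : Ext Y X}

/-- The space of the coordinates. -/
abbrev WM2E (Y X : Var n) : Type := (Y.J → ℂ) × (X.R → ℂ) × ℂ × ℂ × ℂ

/-- The coordinates. -/
noncomputable def WM2c (α β : Sel X.π) : (wJ Y X → ℂ) →L[ℂ] WM2E Y X :=
  (ContinuousLinearMap.pi fun j => .proj (.y j)).prod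
    ((ContinuousLinearMap.pi fun r => .proj (.x (β.1 r))).prod
      ((ContinuousLinearMap.proj (.z α)).prod
        ((ContinuousLinearMap.proj .a).prod (ContinuousLinearMap.proj .b))))

theorem WM2c_apply (α β : Sel X.π) (w : wJ Y X → ℂ) :
    WM2c α β w = (w ∘ .y, fun r => w (.x (β.1 r)), w (.z α), w .a, w .b) := rfl

/-- The scaling of the blocks of `X`. -/
noncomputable def WM2t (p : Ext Y X) (β : Sel X.π) (q : WM2E Y X) (r : X.R) : ℂ :=
  q.2.1 r / q.1 (p.iJ (β.1 r))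

/-- The point of `X`. -/
noncomputable def WM2x (p : Ext Y X) (β : Sel X.π) (q : WM2E Y X) : X.J → ℂ :=
  scl X.π (WM2t p β q) (q.1 ∘ p.iJ)

theorem WM2x_an {β : Sel X.π} {q : WM2E Y X} (h : ∀ r, q.1 (p.iJ (β.1 r)) ≠ 0) :
    AnalyticAt ℂ (WM2x p β) q :=
  an_scl (analyticAt_pi_iff.2 fun r =>
    (analyticAt_pi_iff.1 (analyticAt_fst.comp analyticAt_snd) r).fun_div
      (analyticAt_pi_iff.1 analyticAt_fst _) (h r)) ((an_pre _ _).comp analyticAt_fst)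

theorem WM2x_eq {α β : Sel X.π} {w : wJ Y X → ℂ} (h : ∀ r, w (.y (p.iJ (β.1 r))) ≠ 0)
    {t : X.R → ℂ} (e : w ∘ .x = scl X.π t (w ∘ .y ∘ p.iJ)) :
    WM2t p β (WM2c α β w) = t ∧ WM2x p β (WM2c α β w) = w ∘ .x := by
  have a : WM2t p β (WM2c α β w) = t := funext fun r =>
    (div_eq_iff (h r)).2 ((congrFun e (β.1 r)).trans (congrArg (t · * _) (β.2 r)))
  exact ⟨a, by rw [WM2x, a, e]; rfl⟩

namespace ND

variable (D : ND p)

/-- The parametrisation. -/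
noncomputable def WM2P (α β : Sel X.π) (q : WM2E Y X) : wJ Y X → ℂ :=
  D.P2 q.1 (WM2t p β q) (q.2.2.1 / D.h α (WM2x p β q)) q.2.2.2.1 q.2.2.2.2

theorem WM2P_an {α β : Sel X.π} {q : WM2E Y X} (h : ∀ r, q.1 (p.iJ (β.1 r)) ≠ 0)
    (h' : D.h α (WM2x p β q) ≠ 0) (hb : q.2.2.2.2 ≠ 0) : AnalyticAt ℂ (D.WM2P α β) q := by
  have x := WM2x_an h
  have y : ∀ j, AnalyticAt ℂ (fun q : WM2E Y X => q.1 j) q := analyticAt_pi_iff.1 analyticAt_fst
  have u : AnalyticAt ℂ (fun q : WM2E Y X => q.2.2) q := analyticAt_snd.comp analyticAt_snd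
  have a : AnalyticAt ℂ (fun q : WM2E Y X => q.2.2.2.1) q :=
    analyticAt_fst.comp (analyticAt_snd.comp u)
  have b : AnalyticAt ℂ (fun q : WM2E Y X => q.2.2.2.2) q :=
    analyticAt_snd.comp (analyticAt_snd.comp u)
  have σ : AnalyticAt ℂ (fun q : WM2E Y X => q.2.2.1 / D.h α (WM2x p β q)) q :=
    (analyticAt_fst.comp u).fun_div ((WM0.an_h D α _).comp x) h'
  refine analyticAt_pi_iff.2 fun j => ?_
  rcases j with j | γ | _ | _ | _ | j | r
  · exact analyticAt_pi_iff.1 x j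
  · exact σ.mul ((WM0.an_h D γ _).comp x)
  · exact ((σ.mul ((D.fG.an _).comp x)).mul a).fun_div b hb
  · exact a
  · exact b
  · exact y j
  · exact ((y _).mul a).fun_div b hb

theorem WM2_inj {α β : Sel X.π} {s v : wJ Y X → ℂ} (h : ∀ r, s (.y (p.iJ (β.1 r))) ≠ 0)
    (h' : D.h α (s ∘ .x) ≠ 0) (hb : s .b ≠ 0) (hv : ∀ k, fderiv ℂ (D.F k) s v = 0)
    (e : WM2c α β v = 0) : v = 0 := by
  have vy : ∀ j, v (.y j) = 0 := congrFun (congrArg (·.1) e)
  have vβ : ∀ r, v (.x (β.1 r)) = 0 := congrFun (congrArg (·.2.1) e)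
  have vα : v (.z α) = 0 := congrArg (·.2.2.1) e
  have va : v .a = 0 := congrArg (·.2.2.2.1) e
  have vb : v .b = 0 := congrArg (·.2.2.2.2) e
  have vx : ∀ j, v (.x j) = 0 := fun j =>
    (mul_eq_zero_iff_right (h (X.π j))).1 (WM2_line (WM0.an_F D (.xy j (β.1 (X.π j))) s) (hv _)
      fun ε => by
        simp only [F, β.2, if_true, Pi.add_apply, Pi.smul_apply, smul_eq_mul, vy, vβ]
        ring)
  have ex : ∀ ε : ℂ, (s + ε • v) ∘ WJ.x = s ∘ .x := fun ε => funext fun j => by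
    simp only [comp_apply, Pi.add_apply, Pi.smul_apply, vx, smul_zero, add_zero]
  funext j
  rcases j with j | γ | _ | _ | _ | j | r
  · exact vx j
  · exact (mul_eq_zero_iff_right h').1 (WM2_line (WM0.an_F D (.zz γ α) s) (hv _) fun ε => by
      simp only [F, ex, Pi.add_apply, Pi.smul_apply, smul_eq_mul, vα]
      ring)
  · exact (mul_eq_zero_iff_right (mul_ne_zero hb h')).1
      (WM2_line (WM0.an_F D (.tb α) s) (hv _) fun ε => by
        simp only [F, ex, Pi.add_apply, Pi.smul_apply, smul_eq_mul, vα, va, vb]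
        ring)
  · exact va
  · exact vb
  · exact vy j
  · exact (mul_eq_zero_iff_right hb).1 (WM2_line (WM0.an_F D (.wb r) s) (hv _) fun ε => by
      simp only [F, Pi.add_apply, Pi.smul_apply, smul_eq_mul, vy, va, vb]
      ring)

end ND

theorem ND.stM2 (D : ND p) (hP : D.StP) : ∀ s ∈ D.U, s .b ≠ 0 →
    MfdAt D.U (n + 1 + Fintype.card (wR Y X)) s ∧
      ∀ v, (∀ k, fderiv ℂ (D.F k) s v = 0) → v ∈ tn D.U s := by
  intro s hs hb
  obtain ⟨hy, ⟨t, ht, et⟩, e2⟩ := hP.eq2 s (WM0.U_V D hs) hb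
  obtain ⟨α, hα⟩ := hP.hx _ (X.pv.sub (hP.mapX s (WM0.U_V D hs)))
  choose β b1 b2 using X.pv.sub (p.map _ hy)
  obtain ⟨x1, x2⟩ := WM2x_eq (α := α) (β := ⟨β, b1⟩) b2 et
  have hα' : D.h α (WM2x p ⟨β, b1⟩ (WM2c α ⟨β, b1⟩ s)) ≠ 0 := x2 ▸ hα
  have cr : ∀ {j}, s j ≠ 0 → ∀ᶠ w in 𝓝 s, w j ≠ 0 := fun h =>
    (continuous_apply _).continuousAt.eventually_ne h
  refine WM2_chart (A := Y.A ×ˢ univ) (P := D.WM2P α ⟨β, b1⟩) (WM2c α ⟨β, b1⟩) ?_
    (D.WM2P_an b2 hα' hb) hs ?_ ?_ (fun k => WM0.an_F D k s) (fun _ a => a.2)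
    (fun v hv => WM0.tn_prod (Y.pv.mfd _ hy) _ (WM0.tn_Y D hy hv))
    fun v hv => D.WM2_inj b2 hα hb hv
  · have := WM0.mfd_prod (Y.pv.mfd _ hy) (WM2c α ⟨β, b1⟩ s).2
    simp only [Module.finrank_prod, Module.finrank_fintype_fun_eq_card, Module.finrank_self] at this
    rw [WM0.card, show n + 1 + (Fintype.card X.R + 2 + Fintype.card Y.R) =
      n + Fintype.card Y.R + (Fintype.card X.R + (1 + (1 + 1))) by omega]
    exact this
  · have c1 : ∀ᶠ q in 𝓝 (WM2c α ⟨β, b1⟩ s), ∀ r, q.1 (p.iJ (β r)) ≠ 0 :=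
      eventually_all.2 fun r => ContinuousAt.eventually_ne (by fun_prop) (b2 r)
    have c2 : ∀ᶠ q in 𝓝 (WM2c α ⟨β, b1⟩ s), ∀ r, q.2.1 r ≠ 0 :=
      eventually_all.2 fun r => ContinuousAt.eventually_ne (by fun_prop)
        fun e => unit_iff.1 ht r (x1 ▸ div_eq_zero_iff.2 (.inl e))
    have c3 : ∀ᶠ q in 𝓝 (WM2c α ⟨β, b1⟩ s), q.2.2.1 ≠ 0 :=
      ContinuousAt.eventually_ne (by fun_prop) (e2 t α et hα).1
    have c4 : ∀ᶠ q in 𝓝 (WM2c α ⟨β, b1⟩ s), q.2.2.2.2 ≠ 0 :=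
      ContinuousAt.eventually_ne (by fun_prop) hb
    filter_upwards [c1, c2, c3, c4,
      ((WM0.an_h D α _).comp (WM2x_an b2)).continuousAt.eventually_ne hα'] with q a b c d e f
    refine ⟨hP.mem2 _ f.1 _ _ _ _ (unit_iff.2 fun r => div_ne_zero (b r) (a r)) (div_ne_zero c e) d,
      Prod.ext rfl (Prod.ext (funext fun r => ?_) (Prod.ext (div_mul_cancel₀ _ e) rfl))⟩
    exact (congrArg (WM2t p ⟨β, b1⟩ q · * _) (b1 r)).trans (div_mul_cancel₀ _ (a r))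
  · filter_upwards [cr hb, eventually_all.2 fun r => cr (j := .y (p.iJ (β r))) (b2 r),
      (WM0.an_hx D α s).continuousAt.eventually_ne hα] with w a b c d
    obtain ⟨y, ⟨u, -, eu⟩, e⟩ := hP.eq2 w (WM0.U_V D d) a
    obtain ⟨z1, z2⟩ := WM2x_eq (α := α) (β := ⟨β, b1⟩) b eu
    refine ⟨⟨y, trivial⟩, ?_⟩
    rw [ND.WM2P, z1, z2]
    exact (e u α eu c).2.symm

end Vale.Agent.P287Q
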