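import Vale.Agent.P287Q.Us.WD
import Vale.Agent.P287Q.Us.Bir
import Vale.Agent.P287Q.Pv.Bl

/-!
# The two charts of the singular model of the master space
-/

namespace Vale.Agent.P287Q

open Set Function Topology Filter MvPolynomial P269 P269.Holo

variable {n : ℕ} {Y X : Var n} {p : Ext Y X}

theorem WP_ust {s : wJ Y X → ℂ} : s ∈ Ust (wπ Y X) ↔ s ∘ .x ∈ Ust X.π ∧
    ((∃ α, s (.z α) ≠ 0) ∨ s .τ ≠ 0) ∧ (s .a ≠ 0 ∨ s .b ≠ 0) ∧
    ∀ r, (∃ j, Y.π j = r ∧ s (.y j) ≠ 0) ∨ s (.w r) ≠ 0 := by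
  constructor
  · intro h
    refine ⟨fun r => ?_, ?_, ?_, fun r => ?_⟩
    · obtain ⟨j, h1, h2⟩ := h (.x r)
      cases j <;> simp only [wπ, reduceCtorEq, WR.x.injEq] at h1
      exact ⟨_, h1, h2⟩
    · obtain ⟨j, h1, h2⟩ := h .z
      cases j <;> simp only [wπ, reduceCtorEq] at h1
      exacts [.inl ⟨_, h2⟩, .inr h2]
    · obtain ⟨j, h1, h2⟩ := h .a
      cases j <;> simp only [wπ, reduceCtorEq] at h1
      exacts [.inl h2, .inr h2]
    · obtain ⟨j, h1, h2⟩ := h (.y r)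
      cases j <;> simp only [wπ, reduceCtorEq, WR.y.injEq] at h1
      exacts [.inl ⟨_, h1, h2⟩, .inr (h1 ▸ h2)]
  · rintro ⟨h1, h2, h3, h4⟩ (r | _ | _ | r)
    · obtain ⟨j, a, b⟩ := h1 r
      exact ⟨.x j, congrArg WR.x a, b⟩
    · rcases h2 with ⟨α, h⟩ | h
      exacts [⟨.z α, rfl, h⟩, ⟨.τ, rfl, h⟩]
    · rcases h3 with h | h
      exacts [⟨.a, rfl, h⟩, ⟨.b, rfl, h⟩]
    · rcases h4 r with ⟨j, a, b⟩ | h
      exacts [⟨.y j, congrArg WR.y a, b⟩, ⟨.w r, rfl, h⟩]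

theorem WP_star : IsConnected ({0}ᶜ : Set ℂ) :=
  isConnected_compl_singleton_of_one_lt_rank (by simp) 0

theorem WP_units (R : Type) : IsConnected {t : R → ℂ | IsUnit t} := by
  have e : {t : R → ℂ | IsUnit t} = univ.pi fun _ => ({0}ᶜ : Set ℂ) := by
    ext t
    simp [Pi.isUnit_iff]
  exact e ▸ isConnected_univ_pi.2 fun _ => WP_star

theorem WP_congr {α : Type*} [TopologicalSpace α] {s t : Set α} (h : IsConnected s) (h1 : s ⊆ t)
    (h2 : t ⊆ s) : IsConnected t := Subset.antisymm h1 h2 ▸ h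

namespace ND

variable (D : ND p)

theorem WP_hx {x : X.J → ℂ} (hx : x ∈ Ust X.π) : ∃ α, D.h α x ≠ 0 := by
  choose α h1 h2 using hx
  exact ⟨⟨α, h1⟩, Finset.prod_ne_zero_iff.2 fun r _ => pow_ne_zero _ (h2 r)⟩

theorem WP_qx {x : X.J → ℂ} (hx : x ∈ X.A) (k : Fin D.kX) : eval x (D.QX k) = 0 :=
  congrFun ((D.cutX.zero x (X.pv.sub hx)).1 hx) k

theorem WP_qy {y : Y.J → ℂ} (hy : y ∈ Y.A) (k : Fin D.kY) : eval y (D.QY k) = 0 :=
  congrFun ((D.cutY.zero y (Y.pv.sub hy)).1 hy) k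

theorem WP_qy0 (k : Fin D.kY) : eval 0 (D.QY k) = 0 := by
  obtain ⟨y, hy⟩ := Y.conn.1
  have h1 : Continuous fun ε : ℂ => eval (scl Y.π (fun _ => ε) y) (D.QY k) :=
    (D.QY k).continuous_eval.comp (continuous_pi fun _ => continuous_id.mul continuous_const)
  have h2 : scl Y.π (fun _ => (0 : ℂ)) y = 0 := funext fun _ => zero_mul _
  have h3 := (h1.tendsto 0).mono_left (nhdsWithin_le_nhds (s := {0}ᶜ))
  rw [h2] at h3
  refine tendsto_nhds_unique h3 (tendsto_const_nhds.congr' ?_)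
  filter_upwards [self_mem_nhdsWithin] with ε hε
  exact (D.WP_qy (Y.pv.inv _ (unit_iff.2 fun _ => hε) y hy) k).symm

theorem WP_mapX {s : wJ Y X → ℂ} (hs : s ∈ D.V) : s ∘ .x ∈ X.A :=
  (D.cutX.zero _ (WP_ust.1 hs.1).1).2 (funext fun k => hs.2 (.qx k))

theorem WP_sub : D.U ⊆ D.V := fun _ h => ⟨h.1.1, h.2⟩

theorem WP_mem1 {x : X.J → ℂ} (hx : x ∈ X.A) (σ : ℂ) {τ a : ℂ} {w : Y.R → ℂ} (hτ : τ ≠ 0)
    (ha : a ≠ 0) (hw : IsUnit w) : D.P1 x σ τ a w ∈ D.U := by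
  refine ⟨⟨WP_ust.2 ⟨X.pv.sub hx, .inr hτ, .inl ha, fun r => .inr (unit_iff.1 hw r)⟩, .inl hτ⟩, ?_⟩
  rintro (k | ⟨α, β⟩ | α | ⟨α, j⟩ | r | k | ⟨j, j'⟩)
  · exact D.WP_qx hx k
  · change σ * D.h α x * D.h β x - σ * D.h β x * D.h α x = 0
    ring
  · change τ * (σ * D.G x * a / τ) * D.h α x - σ * D.h α x * D.G x * a = 0
    field_simp
    ring
  · change σ * D.h α x * D.g x j * w (Y.π j) - τ * D.h α x * (σ * D.g x j * w (Y.π j) / τ) = 0
    field_simp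
    ring
  · change w r * (σ * D.G x * a / τ) - σ * D.g x (D.o.1 r) * w (Y.π (D.o.1 r)) / τ * a = 0
    rw [D.go, D.o.2]
    ring
  · change eval (fun j => σ * D.g x j * w (Y.π j) / τ) (D.QY k) = 0
    by_cases h0 : σ = 0 ∨ D.G x = 0
    · have e : (fun j => σ * D.g x j * w (Y.π j) / τ) = 0 := funext fun j => by
        rcases h0 with h | h
        · simp [h]
        · simp [D.zero x h]
      rw [e]
      exact D.WP_qy0 k
    · rw [not_or] at h0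
      have e : (fun j => σ * D.g x j * w (Y.π j) / τ) = scl Y.π (fun r => σ * w r / τ) (D.g x) :=
        funext fun j => by
          simp only [scl]
          ring
      rw [e]
      exact D.WP_qy (Y.pv.inv _ (unit_iff.2 fun r =>
        div_ne_zero (mul_ne_zero h0.1 (unit_iff.1 hw r)) hτ) _ (D.mem x hx h0.2).1) k
  · change (if X.π j = X.π j' then x j * (σ * D.g x (p.iJ j') * w (Y.π (p.iJ j')) / τ) -
      x j' * (σ * D.g x (p.iJ j) * w (Y.π (p.iJ j)) / τ) else 0) = 0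
    split_ifs with h
    · by_cases h0 : D.G x = 0
      · simp [D.zero x h0]
      · obtain ⟨t, -, ht⟩ := (D.mem x hx h0).2
        have e : ∀ j, D.g x (p.iJ j) = t (X.π j) * x j := congrFun ht
        rw [e, e, p.blk, p.blk, h]
        ring
    · rfl

theorem WP_eq1 {s : wJ Y X → ℂ} (hs : s ∈ D.V) (hτ : s .τ ≠ 0) : s .a ≠ 0 ∧ IsUnit (s ∘ .w) ∧
    ∀ α, D.h α (s ∘ .x) ≠ 0 →
      s = D.P1 (s ∘ .x) (s (.z α) / D.h α (s ∘ .x)) (s .τ) (s .a) (s ∘ .w) := by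
  obtain ⟨h1, -, h3, h4⟩ := WP_ust.1 hs.1
  obtain ⟨α₀, h0⟩ := D.WP_hx h1
  have zz := fun α β => sub_eq_zero.1 (hs.2 (.zz α β))
  have tb := fun α => sub_eq_zero.1 (hs.2 (.tb α))
  have zy := fun α j => sub_eq_zero.1 (hs.2 (.zy α j))
  refine ⟨fun ha => ?_, unit_iff.2 fun r hr => ?_, fun α hα => funext ?_⟩
  · have h5 := tb α₀
    rw [ha, mul_zero] at h5
    exact mul_ne_zero (mul_ne_zero hτ (h3.resolve_left (not_not.2 ha))) h0 h5
  · obtain ⟨j, rfl, h5⟩ := (h4 r).resolve_right (not_not.2 hr)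
    have h6 := zy α₀ j
    rw [show s (.w (Y.π j)) = 0 from hr, mul_zero] at h6
    exact mul_ne_zero (mul_ne_zero hτ h0) h5 h6.symm
  · rintro (j | β | _ | _ | _ | j | r)
    · rfl
    · change s (.z β) = s (.z α) / D.h α (s ∘ .x) * D.h β (s ∘ .x)
      field_simp
      linear_combination -zz α β
    · rfl
    · rfl
    · change s .b = s (.z α) / D.h α (s ∘ .x) * D.G (s ∘ .x) * s .a / s .τ
      field_simp
      linear_combination tb α
    · change s (.y j) = s (.z α) / D.h α (s ∘ .x) * D.g (s ∘ .x) j * s (.w (Y.π j)) / s .τ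
      field_simp
      linear_combination -zy α j
    · rfl

theorem WP_gy {y : Y.J → ℂ} (hy : y ∈ Y.A) {t : X.R → ℂ} (ht : IsUnit t) (j : Y.J) :
    D.g (scl X.π t (y ∘ p.iJ)) j * y (D.o.1 (Y.π j)) = D.G (scl X.π t (y ∘ p.iJ)) * y j := by
  by_cases h0 : D.G (scl X.π t (y ∘ p.iJ)) = 0
  · rw [D.zero _ h0, h0, Pi.zero_apply, zero_mul, zero_mul]
  · obtain ⟨u, -, hu⟩ := D.orb y hy ((D.fG.ne_iff ht).1 h0)
    have e : ∀ j, y j = u (Y.π j) * D.g (y ∘ p.iJ) j := congrFun hu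
    rw [(D.fg j).hom t ht, D.fG.hom t ht, e j, e (D.o.1 _), D.go, D.o.2]
    ring

theorem WP_mem2 {y : Y.J → ℂ} (hy : y ∈ Y.A) {t : X.R → ℂ} {σ : ℂ} (a : ℂ) {b : ℂ} (ht : IsUnit t)
    (hσ : σ ≠ 0) (hb : b ≠ 0) : D.P2 y t σ a b ∈ D.U := by
  have hx : scl X.π t (y ∘ p.iJ) ∈ X.A := X.pv.inv t ht _ (p.map y hy)
  obtain ⟨α₀, h0⟩ := D.WP_hx (X.pv.sub hx)
  refine ⟨⟨WP_ust.2 ⟨X.pv.sub hx, .inl ⟨α₀, mul_ne_zero hσ h0⟩, .inr hb,
    fun r => .inl (Y.pv.sub hy r)⟩, .inr hb⟩, ?_⟩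
  have gy := D.WP_gy hy ht
  have ex : ∀ j, scl X.π t (y ∘ p.iJ) j = t (X.π j) * y (p.iJ j) := fun _ => rfl
  have e0 : D.P2 y t σ a b ∘ .x = scl X.π t (y ∘ p.iJ) := rfl
  rintro (k | ⟨α, β⟩ | α | ⟨α, j⟩ | r | k | ⟨j, j'⟩)
  · exact D.WP_qx hx k
  · simp only [F, e0, P2]
    ring
  · simp only [F, e0, P2]
    field_simp
    ring
  · simp only [F, e0, P2]
    linear_combination σ * D.h α (scl X.π t (y ∘ p.iJ)) * a / b * gy j
  · simp only [F, P2]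
    field_simp
    ring
  · exact D.WP_qy hy k
  · simp only [F, P2, ex]
    split_ifs with h
    · rw [h]
      ring
    · rfl

theorem WP_eq2 {s : wJ Y X → ℂ} (hs : s ∈ D.V) (hb : s .b ≠ 0) : s ∘ .y ∈ Y.A ∧
    (∃ t, IsUnit t ∧ s ∘ .x = scl X.π t (s ∘ .y ∘ p.iJ)) ∧
    ∀ t α, s ∘ .x = scl X.π t (s ∘ .y ∘ p.iJ) → D.h α (s ∘ .x) ≠ 0 → s (.z α) ≠ 0 ∧
      s = D.P2 (s ∘ .y) t (s (.z α) / D.h α (s ∘ .x)) (s .a) (s .b) := by
  obtain ⟨h1, h2, -, h4⟩ := WP_ust.1 hs.1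
  have zz := fun α β => sub_eq_zero.1 (hs.2 (.zz α β))
  have tb := fun α => sub_eq_zero.1 (hs.2 (.tb α))
  have wb := fun r => sub_eq_zero.1 (hs.2 (.wb r))
  have hy : s ∘ .y ∈ Y.A := by
    refine (D.cutY.zero _ fun r => (h4 r).elim id fun hr => ⟨D.o.1 r, D.o.2 r, ?_⟩).2
      (funext fun k => hs.2 (.qy k))
    exact left_ne_zero_of_mul (wb r ▸ mul_ne_zero hr hb)
  refine ⟨hy, ?_, fun t α ht hα => ⟨fun hz => ?_, funext ?_⟩⟩
  · choose ρ k1 k2 using X.pv.sub (p.map _ hy)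
    have e : s ∘ .x = scl X.π (fun r => s (.x (ρ r)) / s (.y (p.iJ (ρ r)))) (s ∘ .y ∘ p.iJ) :=
      funext fun j => by
        have h5 : s (.x j) * s (.y (p.iJ (ρ (X.π j)))) - s (.x (ρ (X.π j))) * s (.y (p.iJ j)) = 0 :=
          (if_pos (k1 _).symm).symm.trans (hs.2 (.xy j (ρ (X.π j))))
        have h6 : s (.y (p.iJ (ρ (X.π j)))) ≠ 0 := k2 _
        change s (.x j) = s (.x (ρ (X.π j))) / s (.y (p.iJ (ρ (X.π j)))) * s (.y (p.iJ j))
        field_simp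
        linear_combination h5
    exact ⟨_, unit_of_mem (e ▸ h1), e⟩
  · rcases h2 with ⟨β, h5⟩ | h5
    · have h6 := zz α β
      rw [hz, zero_mul] at h6
      exact mul_ne_zero h5 hα h6.symm
    · have h6 := tb α
      rw [hz, zero_mul, zero_mul] at h6
      exact mul_ne_zero (mul_ne_zero h5 hb) hα h6
  · have e : scl X.π t ((s ∘ .y) ∘ p.iJ) = s ∘ .x := ht.symm
    rintro (j | β | _ | _ | _ | j | r) <;> simp only [P2, e, comp_apply]
    · field_simp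
      linear_combination -zz α β
    · field_simp
      linear_combination tb α
    · field_simp
      linear_combination wb r

theorem WP_cont_h (α : Sel X.π) : Continuous (D.h α) :=
  continuous_finsetProd _ fun _ _ => (continuous_apply _).pow _

theorem WP_cont_G : Continuous D.G := continuous_iff_continuousAt.2 fun x => (D.fG.an x).continuousAt

theorem WP_cont_g (j : Y.J) : Continuous fun x => D.g x j :=
  continuous_iff_continuousAt.2 fun x => ((D.fg j).an x).continuousAt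

theorem WP_conn1 : IsConnected {s | s ∈ D.U ∧ s .τ ≠ 0} := by
  have h1 := X.conn.prod ((isConnected_univ (α := ℂ)).prod
    (WP_star.prod (WP_star.prod (WP_units Y.R))))
  have h2 := h1.image (fun q => D.P1 q.1 q.2.1 q.2.2.1 q.2.2.2.1 q.2.2.2.2) (by
    have c1 := D.WP_cont_h
    have c2 := D.WP_cont_G
    have c3 := D.WP_cont_g
    refine continuousOn_pi.2 ?_
    rintro (j | β | _ | _ | _ | j | r) <;> simp only [P1]
    · fun_prop
    · exact (continuous_snd.fst.mul ((c1 β).comp continuous_fst)).continuousOn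
    · fun_prop
    · fun_prop
    · exact ContinuousOn.div (by fun_prop) (by fun_prop) fun q hq => hq.2.2.1
    · exact ContinuousOn.div ((continuous_snd.fst.mul ((c3 j).comp continuous_fst)).mul
        (by fun_prop)).continuousOn (by fun_prop) fun q hq => hq.2.2.1
    · fun_prop)
  refine WP_congr h2 ?_ ?_
  · rintro _ ⟨q, hq, rfl⟩
    exact ⟨D.WP_mem1 hq.1 _ hq.2.2.1 hq.2.2.2.1 hq.2.2.2.2, hq.2.2.1⟩
  · rintro s ⟨hs, hτ⟩
    obtain ⟨a1, a2, a3⟩ := D.WP_eq1 (D.WP_sub hs) hτ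
    have hx := D.WP_mapX (D.WP_sub hs)
    obtain ⟨α, hα⟩ := D.WP_hx (X.pv.sub hx)
    exact ⟨(_, _, _, _, _), ⟨hx, trivial, hτ, a1, a2⟩, (a3 α hα).symm⟩

theorem WP_conn2 : IsConnected {s | s ∈ D.U ∧ s .b ≠ 0} := by
  have h1 := Y.conn.prod ((WP_units X.R).prod
    (WP_star.prod ((isConnected_univ (α := ℂ)).prod WP_star)))
  have h2 := h1.image (fun q => D.P2 q.1 q.2.1 q.2.2.1 q.2.2.2.1 q.2.2.2.2) (by
    have c0 : Continuous fun q : (Y.J → ℂ) × (X.R → ℂ) × ℂ × ℂ × ℂ =>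
        scl X.π q.2.1 (q.1 ∘ p.iJ) := continuous_pi fun j => by
      simp only [scl, comp_apply]
      fun_prop
    refine continuousOn_pi.2 ?_
    rintro (j | β | _ | _ | _ | j | r) <;> simp only [P2]
    · exact ((continuous_apply j).comp c0).continuousOn
    · exact (continuous_snd.snd.fst.mul ((D.WP_cont_h β).comp c0)).continuousOn
    · exact ContinuousOn.div ((continuous_snd.snd.fst.mul (D.WP_cont_G.comp c0)).mul
        (by fun_prop)).continuousOn (by fun_prop) fun q hq => hq.2.2.2.2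
    · fun_prop
    · fun_prop
    · fun_prop
    · exact ContinuousOn.div (by fun_prop) (by fun_prop) fun q hq => hq.2.2.2.2)
  refine WP_congr h2 ?_ ?_
  · rintro _ ⟨q, hq, rfl⟩
    exact ⟨D.WP_mem2 hq.1 _ hq.2.1 hq.2.2.1 hq.2.2.2.2, hq.2.2.2.2⟩
  · rintro s ⟨hs, hb⟩
    obtain ⟨a1, ⟨t, a2, a3⟩, a4⟩ := D.WP_eq2 (D.WP_sub hs) hb
    obtain ⟨α, hα⟩ := D.WP_hx (X.pv.sub (D.WP_mapX (D.WP_sub hs)))
    exact ⟨(_, _, _, _, _), ⟨a1, a2, div_ne_zero (a4 t α a3 hα).1 hα, trivial, hb⟩,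
      (a4 t α a3 hα).2.symm⟩

theorem WP_conn : IsConnected D.U := by
  obtain ⟨x, hx, hG⟩ := D.ne
  have h0 := D.WP_mem1 hx 1 one_ne_zero one_ne_zero isUnit_one
  have h1 : ({s | s ∈ D.U ∧ s .τ ≠ 0} ∩ {s | s ∈ D.U ∧ s .b ≠ 0}).Nonempty :=
    ⟨D.P1 x 1 1 1 1, ⟨h0, one_ne_zero⟩, h0, by simpa [P1] using hG⟩
  refine WP_congr (D.WP_conn1.union h1 D.WP_conn2) (union_subset (fun _ h => h.1) fun _ h => h.1) ?_
  exact fun s hs => hs.1.2.imp (fun h => ⟨hs, h⟩) fun h => ⟨hs, h⟩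

end ND

theorem ND.stP (D : ND p) : D.StP :=
  ⟨fun _ => D.WP_hx, fun _ => D.WP_mapX, fun _ hx σ _ _ _ => D.WP_mem1 hx σ, fun _ => D.WP_eq1,
    fun _ hy _ _ a _ => D.WP_mem2 hy a, fun _ => D.WP_eq2, D.WP_conn⟩

end Vale.Agent.P287Q
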