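import Vale.Agent.P287Q.Us.WD
import Vale.Agent.P287Q.Us.Bir
import Vale.Agent.P287Q.Pv.Bl

/-!
# The three sections of the singular model of the master space
-/

namespace Vale.Agent.P287Q

open Set Function Topology Filter MvPolynomial P269 P269.Holo

namespace WS

section mon

variable {J R : Type} [Fintype J] [Fintype R]

/-- `f` is a monomial on the torus. -/
def Mon (f : (R → ℂ) → ℂ) : Prop := ∃ d : R → ℤ, ∀ t, IsUnit t → ∏ r, t r ^ d r = f t

theorem mon_one : Mon fun _ : R → ℂ => 1 := ⟨0, fun _ _ => by simp⟩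

theorem mon_crd (r : R) : Mon fun t => t r := by
  classical
  exact ⟨Pi.single r 1, fun t _ => by
    rw [Finset.prod_eq_single r (fun r' _ e => by simp [e]) (by simp)]
    simp⟩

theorem Mon.mul {f g : (R → ℂ) → ℂ} (h : Mon f) (h' : Mon g) : Mon fun t => f t * g t :=
  let ⟨d, a⟩ := h
  let ⟨d', b⟩ := h'
  ⟨d + d', fun t ht => by
    change _ = f t * g t
    rw [← a t ht, ← b t ht, ← Finset.prod_mul_distrib]
    exact Finset.prod_congr rfl fun r _ => zpow_add₀ (unit_iff.1 ht r) _ _⟩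

theorem Mon.pow {f : (R → ℂ) → ℂ} (h : Mon f) (m : ℕ) : Mon fun t => f t ^ m := by
  induction m with
  | zero => simpa using mon_one
  | succ m ih => simpa only [pow_succ] using ih.mul h

theorem mon_prod {I : Type} (s : Finset I) {f : I → (R → ℂ) → ℂ} (h : ∀ i, Mon (f i)) :
    Mon fun t => ∏ i ∈ s, f i t := by
  classical
  induction s using Finset.induction_on with
  | empty => simpa using mon_one
  | insert i s hi ih => simpa only [Finset.prod_insert hi] using (h i).mul ih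

theorem sct {J' R' : Type} [Fintype J'] {π : J → R} {π' : J' → R'} {A : Set (J' → ℂ)} {i : J → J'}
    {O : Set (J → ℂ)} {s : (J → ℂ) → J' → ℂ} (hol : ∀ x ∈ O, ∀ j, AnalyticAt ℂ (s · j) x)
    (mem : ∀ x ∈ O, s x ∈ A) (inv : ∀ x ∈ O, ∀ j, s x (i j) = x j)
    (orb : ∀ w ∈ A, w ∘ i ∈ O → Orb π' (s (w ∘ i)) w) (c : R' → (R → ℂ) → ℂ) (hc : ∀ r, Mon (c r))
    (h : ∀ t, IsUnit t → ∀ x ∈ O, ∀ j, s (scl π t x) j = c (π' j) t * s x j) :
    Sct π π' A i O s := by
  choose d hd using hc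
  exact ⟨fun x hx => .of_an (analyticAt_pi_iff.2 (hol x hx)), mem, fun x hx => funext (inv x hx),
    orb, d, fun t ht x hx => funext fun j => by rw [h t ht x hx, scl, hd _ t ht]⟩

theorem frm_blP {π : J → R} {M : R → ℕ} {G : (J → ℂ) → ℂ} (h : Frm π M G) (c : Bool) :
    Frm (blP Bool π) (fun o => o.elim 1 M) fun q => q (.inr c) * G (q ∘ .inl) :=
  ⟨fun q => (analyticAt_pi_iff.1 analyticAt_id _).mul ((h.an _).comp (an_pre _ q)), fun t ht q => by
    rw [show scl (blP Bool π) t q ∘ .inl = scl π (t ∘ some) (q ∘ .inl) from rfl,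
      h.hom (t ∘ some) (unit_iff.2 fun r => unit_iff.1 ht _), Fintype.prod_option]
    simp only [scl, blP, Sum.elim_inr, Option.elim, comp_apply]
    ring⟩

end mon

variable {n : ℕ} {Y X : Var n} {p : Ext Y X} (D : ND p) {s : wJ Y X → ℂ}

theorem frm_h (α : Sel X.π) : Frm X.π D.M (D.h α) :=
  ⟨fun _ => Finset.analyticAt_fun_prod _ fun _ _ => (analyticAt_pi_iff.1 analyticAt_id _).fun_pow _,
    fun t _ x => by simp only [ND.h, scl, α.2, mul_pow, Finset.prod_mul_distrib]⟩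

theorem blk_z (h : s ∈ Ust (wπ Y X)) (e : ∀ α, s (.z α) = 0) : s .τ ≠ 0 := by
  obtain ⟨j, h1, h2⟩ := h .z
  cases j <;> first | exact h2 | exact (h2 (e _)).elim | cases h1

theorem blk_a (h : s ∈ Ust (wπ Y X)) (e : s .a = 0) : s .b ≠ 0 := by
  obtain ⟨j, h1, h2⟩ := h .a
  cases j <;> first | exact h2 | exact (h2 e).elim | cases h1

theorem unit (x : X.R → ℂ) (z a : ℂ) (y : Y.R → ℂ) (hx : IsUnit x) (hz : z ≠ 0) (ha : a ≠ 0)
    (hy : IsUnit y) {s' : wJ Y X → ℂ} (h1 : ∀ j, s' (.x j) = x (X.π j) * s (.x j))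
    (h2 : ∀ α, s' (.z α) = z * s (.z α)) (h3 : s' .τ = z * s .τ) (h4 : s' .a = a * s .a)
    (h5 : s' .b = a * s .b) (h6 : ∀ j, s' (.y j) = y (Y.π j) * s (.y j))
    (h7 : ∀ r, s' (.w r) = y r * s (.w r)) : Orb (wπ Y X) s s' :=
  ⟨fun r => WR.casesOn r x z a y, unit_iff.2 fun r => by
    cases r
    exacts [unit_iff.1 hx _, hz, ha, unit_iff.1 hy _], funext fun j => by
    cases j
    exacts [h1 _, h2 _, h3, h4, h5, h6 _, h7 _]⟩

theorem scl_iJ (t : Y.R → ℂ) (y : Y.J → ℂ) :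
    scl Y.π t y ∘ p.iJ = scl X.π (t ∘ p.iR) (y ∘ p.iJ) :=
  funext fun j => congrArg (fun r => t r * y (p.iJ j)) (p.blk j)

variable {D} (hP : D.StP)
include hP

theorem exists_h (h : s ∈ D.V) : ∃ α, D.h α (s ∘ .x) ≠ 0 := hP.hx _ (X.pv.sub (hP.mapX s h))

theorem tau (h : s ∈ D.V) (hG : D.G (s ∘ .x) ≠ 0) :
    (s .τ = 0 ↔ s .a = 0) ∧ ((∀ α, s (.z α) = 0) ↔ s .b = 0) := by
  obtain ⟨β, hβ⟩ := exists_h hP h
  have k : ∀ α, s .τ * s .b * D.h α (s ∘ .x) = s (.z α) * D.G (s ∘ .x) * s .a :=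
    fun α => sub_eq_zero.1 (h.2 (.tb α))
  refine ⟨⟨fun e => by_contra fun a => blk_z h.1 (fun α => ?_) e, fun e => ?_⟩,
    fun e => ?_, fun e α => ?_⟩
  · simpa [e, a, hG] using k α
  · simpa [e, hβ, blk_a h.1 e] using k β
  · simpa [e, hβ, blk_z h.1 e] using k β
  · simpa [e, hG, show s .a ≠ 0 from fun a => blk_a h.1 a e] using k α

theorem genU (q : X.J ⊕ Bool → ℂ) (h1 : q ∘ .inl ∈ X.A) (h2 : D.G (q ∘ .inl) ≠ 0)
    (h3 : q ∘ .inr ≠ 0) : D.P0 q ∈ D.U := by
  by_cases a : q (.inr true) = 0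
  · have b : q (.inr false) ≠ 0 := fun b => h3 (funext fun c => by cases c; exacts [b, a])
    obtain ⟨h4, t, ht, e⟩ := D.mem _ h1 h2
    have hb : IsUnit fun _ : Y.R => q (.inr false) := unit_iff.2 fun _ => b
    have hu : IsUnit (((fun _ : Y.R => q (.inr false)) ∘ p.iR) * t) :=
      (unit_iff.2 fun _ => b).mul ht
    have e' : scl X.π (((fun _ : Y.R => q (.inr false)) ∘ p.iR) * t)⁻¹
        (scl Y.π (fun _ => q (.inr false)) (D.g (q ∘ .inl)) ∘ p.iJ) = q ∘ .inl := by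
      rw [scl_iJ, e, ← scl_mul _ t, scl_inv_scl hu]
    refine mem_of_eq_of_mem (funext fun j => ?_) (hP.mem2 _ (Y.pv.inv _ hb _ h4) _
      (q (.inr false)) (q (.inr true)) _ (unit_inv hu) b b)
    cases j <;> simp only [ND.P0, ND.P2, e', a, zero_mul, mul_zero, zero_div] <;> rfl
  · refine mem_of_eq_of_mem (funext fun j => ?_) (hP.mem1 _ h1 (q (.inr false)) _ _
      (fun _ => q (.inr true) * D.G (q ∘ .inl)) (mul_ne_zero a h2) a
      (unit_iff.2 fun _ => mul_ne_zero a h2))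
    cases j <;> simp only [ND.P0, ND.P1] <;> first | rfl | field_simp

theorem gen_orb (h : s ∈ D.V) (hG : D.G (s ∘ .x) ≠ 0) :
    Orb (wπ Y X) (D.P0 (s ∘ Sum.elim .x (wab Y X))) s := by
  obtain ⟨α, hα⟩ := exists_h hP h
  by_cases b : s .b = 0
  · have a : s .a ≠ 0 := fun a => blk_a h.1 a b
    have τ : s .τ ≠ 0 := fun e => a ((tau hP h hG).1.1 e)
    obtain ⟨-, h1, h2⟩ := hP.eq1 s h τ
    have e := congrFun (h2 α hα)
    refine unit 1 (s .τ / (s .a * D.G (s ∘ .x))) 1 (fun r => s (.w r) / (s .a * D.G (s ∘ .x)))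
      isUnit_one (div_ne_zero τ (mul_ne_zero a hG)) one_ne_zero
      (unit_iff.2 fun r => div_ne_zero (unit_iff.1 h1 r) (mul_ne_zero a hG))
      (fun _ => (one_mul _).symm) (fun β => ?_) (div_mul_cancel₀ _ (mul_ne_zero a hG)).symm
      (one_mul _).symm (one_mul _).symm (fun j => ?_)
      fun r => (div_mul_cancel₀ _ (mul_ne_zero a hG)).symm
    · change _ = _ * (s .b * _)
      rw [(tau hP h hG).2.2 b, b, zero_mul, mul_zero]
    · change _ = _ * (s .b * _)
      rw [e, b, zero_mul, mul_zero, (tau hP h hG).2.2 b]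
      simp [ND.P1]
  · obtain ⟨h1, ⟨t, ht, h2⟩, h3⟩ := hP.eq2 s h b
    obtain ⟨h4, h5⟩ := h3 t α h2 hα
    have e := congrFun h5
    have c : ∏ r, t r ^ D.M r ≠ 0 :=
      Finset.prod_ne_zero_iff.2 fun r _ => pow_ne_zero _ (unit_iff.1 ht r)
    obtain ⟨u, hu, h6⟩ := D.orb _ h1 ((D.fG.ne_iff ht).1 (mt (congrArg D.G h2).trans hG))
    have k : ∀ j, s (.y j) = u (Y.π j) / ((∏ r, t r ^ D.M r) * s .b) *
        (s .b * D.g (s ∘ .x) j) := fun j => by
      rw [h2, (D.fg j).hom t ht, show s (.y j) = u (Y.π j) * D.g (s ∘ .y ∘ p.iJ) j from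
        congrFun h6 j]
      field_simp
    refine unit 1 (s (.z α) / D.h α (s ∘ .x) / s .b) 1
      (fun r => u r / ((∏ r, t r ^ D.M r) * s .b)) isUnit_one (div_ne_zero (div_ne_zero h4 hα) b)
      one_ne_zero (unit_iff.2 fun r => div_ne_zero (unit_iff.1 hu r) (mul_ne_zero c b))
      (fun _ => (one_mul _).symm) (fun β => (e _).trans ?_) ((e _).trans ?_)
      (one_mul _).symm (one_mul _).symm k fun r => (e _).trans ?_
    · change _ * D.h β (scl X.π t (s ∘ .y ∘ p.iJ)) = _ * (s .b * D.h β (s ∘ .x))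
      rw [← h2]
      field_simp
    · change _ * D.G (scl X.π t (s ∘ .y ∘ p.iJ)) * s .a / s .b = _ * (s .a * D.G (s ∘ .x))
      rw [← h2]
      field_simp
    · change s (.y (D.o.1 r)) * s .a / s .b = _ * (s .a * D.G (s ∘ .x))
      rw [k, D.go, D.o.2]
      field_simp

theorem gen : Sct (blP Bool X.π) (wπ Y X) D.V (Sum.elim .x (wab Y X))
    {q | q ∘ .inl ∈ X.A ∧ D.G (q ∘ .inl) ≠ 0 ∧ q ∘ .inr ≠ 0} D.P0 := by
  refine Sct.of_frm (d := fun r => WR.casesOn r (fun r => Pi.single (some r) 1)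
    (fun o => o.elim 1 D.M) (Pi.single none 1) fun _ o => o.elim 1 D.M) (fun j => ?_)
    (fun q h => ⟨(genU hP q h.1 h.2.1 h.2.2).1.1, (genU hP q h.1 h.2.1 h.2.2).2⟩)
    (fun q _ => funext ?_) fun w hw h => gen_orb hP hw h.2.1
  · cases j
    exacts [frm_crd (π := blP Bool X.π) (.inl _), frm_blP (frm_h D _) _, frm_blP D.fG _,
      frm_crd (π := blP Bool X.π) (.inr _), frm_crd (π := blP Bool X.π) (.inr _),
      frm_blP (D.fg _) _, frm_blP D.fG _]
  · rintro (_ | _ | _) <;> rfl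

theorem snk : Sct (blP Bool Y.π) (wπ Y X) D.V (Sum.elim .y (wab Y X))
    {q | q ∘ .inl ∈ Y.A ∧ q (.inr false) ≠ 0}
    fun q => D.P2 (q ∘ .inl) 1 (q (.inr false)) (q (.inr true)) (q (.inr false)) := by
  refine sct (fun q h j => ?_) (fun q h => ?_) (fun q _ => ?_) (fun s hs h => ?_)
    (fun r t => WR.casesOn r (fun r => t (some (p.iR r)))
      (t none * ∏ r, t (some (p.iR r)) ^ D.M r) (t none) fun r => t (some r)) (fun r => ?_)
      fun t ht q h j => ?_
  · have c : ∀ i, AnalyticAt ℂ (fun q : Y.J ⊕ Bool → ℂ => q i) q :=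
      analyticAt_pi_iff.1 analyticAt_id
    have a : AnalyticAt ℂ (fun q : Y.J ⊕ Bool → ℂ => scl X.π 1 ((q ∘ .inl) ∘ p.iJ)) q :=
      analyticAt_pi_iff.2 fun i => analyticAt_const.mul (c _)
    cases j
    exacts [analyticAt_pi_iff.1 a _, (c _).mul (((frm_h D _).an _).comp a),
      (((c _).mul ((D.fG.an _).comp a)).mul (c _)).fun_div (c _) h.2, c _, c _, c _,
      ((c _).mul (c _)).fun_div (c _) h.2]
  · have := hP.mem2 _ h.1 1 _ (q (.inr true)) _ isUnit_one h.2 h.2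
    exact ⟨this.1.1, this.2⟩
  · rintro (_ | _ | _) <;> rfl
  · obtain ⟨α, hα⟩ := exists_h hP hs
    have b : s .b ≠ 0 := h.2
    obtain ⟨-, ⟨t, ht, h2⟩, h3⟩ := hP.eq2 s hs b
    obtain ⟨h4, h5⟩ := h3 t α h2 hα
    have e := congrFun h5
    refine unit t (s (.z α) / D.h α (s ∘ .x) * (∏ r, t r ^ D.M r) / s .b) 1 1 ht
      (div_ne_zero (mul_ne_zero (div_ne_zero h4 hα) (Finset.prod_ne_zero_iff.2 fun r _ =>
        pow_ne_zero _ (unit_iff.1 ht r))) b) one_ne_zero isUnit_one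
      (fun j => (e _).trans (congrArg (_ * ·) (one_mul _).symm)) (fun β => (e _).trans ?_)
      ((e _).trans ?_) (one_mul _).symm (one_mul _).symm (fun _ => (one_mul _).symm)
      fun r => (e _).trans (one_mul _).symm
    · change _ * D.h β (scl X.π t (s ∘ .y ∘ p.iJ)) =
        _ * (s .b * D.h β (scl X.π 1 (s ∘ .y ∘ p.iJ)))
      rw [scl_one, (frm_h D β).hom t ht]
      field_simp
    · change _ * D.G (scl X.π t (s ∘ .y ∘ p.iJ)) * s .a / s .b =
        _ * (s .b * D.G (scl X.π 1 (s ∘ .y ∘ p.iJ)) * s .a / s .b)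
      rw [scl_one, D.fG.hom t ht]
      field_simp
  · have := (mon_crd none).mul (mon_prod Finset.univ fun r =>
      (mon_crd (some (p.iR r))).pow (D.M r))
    cases r
    exacts [mon_crd _, this, mon_crd _, mon_crd _]
  · have e : (scl (blP Bool Y.π) t q ∘ .inl) ∘ p.iJ =
        scl X.π (fun r => t (some (p.iR r))) ((q ∘ .inl) ∘ p.iJ) := scl_iJ (t ∘ some) _
    have u : IsUnit fun r => t (some (p.iR r)) := unit_iff.2 fun _ => unit_iff.1 ht _
    have c : ∀ c, scl (blP Bool Y.π) t q (.inr c) = t none * q (.inr c) := fun _ => rfl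
    have z := unit_iff.1 ht none
    have b := h.2
    cases j <;> simp only [ND.P2, scl_one, e, c, wπ, (frm_h D _).hom _ u, D.fG.hom _ u]
    · rfl
    · ring
    · field_simp
    · rfl
    · rw [show (scl (blP Bool Y.π) t q ∘ .inl) (D.o.1 _) = t (some (Y.π _)) * _ from rfl, D.o.2,
        comp_apply]
      field_simp

theorem src : Sct X.π (wπ Y X) {s | s ∈ D.V ∧ ∀ α, s (.z α) = 0} .x X.A
    fun x => D.P1 x 0 1 1 1 := by
  refine sct (fun x _ j => ?_) (fun x h => ?_) (fun _ _ _ => rfl) (fun s hs _ => ?_)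
    (fun r t => WR.casesOn r t 1 1 fun _ => 1) (fun r => ?_) fun t _ x _ j => ?_
  · cases j <;> simp only [ND.P1, zero_mul] <;>
      first | exact analyticAt_const | exact analyticAt_pi_iff.1 analyticAt_id _
  · have := hP.mem1 x h 0 1 1 1 one_ne_zero one_ne_zero isUnit_one
    exact ⟨⟨this.1.1, this.2⟩, fun _ => zero_mul _⟩
  · obtain ⟨α, hα⟩ := exists_h hP hs.1
    have τ := blk_z hs.1.1 hs.2
    obtain ⟨a, h1, h2⟩ := hP.eq1 s hs.1 τ
    have e := congrFun (h2 α hα)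
    rw [hs.2 α, zero_div] at e
    exact unit 1 _ _ _ isUnit_one τ a h1 (fun _ => (one_mul _).symm)
      (fun β => (e _).trans (by simp [ND.P1])) (mul_one _).symm (mul_one _).symm
      ((e _).trans (by simp [ND.P1])) (fun j => (e _).trans (by simp [ND.P1]))
      fun _ => (mul_one _).symm
  · cases r
    exacts [mon_crd _, mon_one, mon_one, mon_one]
  · cases j <;> simp only [ND.P1, zero_mul, wπ, one_mul]
    rfl

end WS

variable {n : ℕ} {Y X : Var n} {p : Ext Y X}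

theorem ND.stS (D : ND p) (hP : D.StP) : D.StS :=
  ⟨WS.gen hP, WS.genU hP, WS.snk hP, WS.src hP, fun _ => WS.tau hP⟩

end Vale.Agent.P287Q
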