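import Vale.Agent.P287Q.Us.Mas0
import Vale.Agent.P287Q.Us.ND
import Vale.Agent.P287Q.Us.WF
import Vale.Agent.P287Q.Us.WP
import Vale.Agent.P287Q.Us.WM1
import Vale.Agent.P287Q.Us.WM2
import Vale.Agent.P287Q.Us.WS

/-!
# Existence of master spaces
-/

namespace Vale.Agent.P287Q

theorem master_of (h : RES) : MASTER := fun _ _ _ _ hp => hp.nd.elim fun D =>
  D.master h D.stF D.stP
    (fun s hs => hs.1.2.elim (D.stM1 D.stP s hs) (D.stM2 D.stP s hs)) (D.stS D.stP)

end Vale.Agent.P287Q
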