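import Vale.Agent.P287Q.Us.Res
import Vale.Agent.P287Q.Us.Mas

/-!
# Every birational projection has a master space
-/

namespace Vale.Agent.P287Q

/-- **Master spaces exist.** -/
theorem master : MASTER := master_of res

end Vale.Agent.P287Q
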