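import Vale.Agent.P287Q.Us.Gau

/-!
# The master space with trivialised determinant; labels of fixed points
-/

set_option linter.unusedSectionVars false

namespace Vale.Agent.P287Q

open Set Function Topology Filter Module P269 P269.Holo P269.Vir

section lbl

variable {J J₀ R R₀ S : Type} [Fintype J] [Fintype J₀] [Fintype R] [Fintype R₀] [Fintype S]
  {π : J → R} {wt : J → S → ℤ} {ρ ρ' : S → R → ℤ} {w : J → ℂ} {Z : Set (J → ℂ)}

/-- The point `w` is fixed, with label `ρ`. -/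
def Lbl (π : J → R) (wt : J → S → ℤ) (ρ : S → R → ℤ) (w : J → ℂ) : Prop :=
  ∀ j, (fun i => wt j i - ρ i (π j)) ≠ 0 → w j = 0

theorem Lbl.val (h : Lbl π wt ρ w) {j : J} (hj : w j ≠ 0) (i : S) : ρ i (π j) = wt j i :=
  (sub_eq_zero.1 (congrFun (by_contra fun e => hj (h j e)) i)).symm

theorem Lbl.zero (h : Lbl π wt ρ w) {j : J} {i : S} (hj : ρ i (π j) ≠ wt j i) : w j = 0 :=
  by_contra fun e => hj (h.val e i)

theorem lbl_of (h : ∀ j, w j ≠ 0 → ∀ i, ρ i (π j) = wt j i) : Lbl π wt ρ w := fun j e =>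
  by_contra fun a => e (funext fun i => sub_eq_zero.2 (h j a i).symm)

theorem Lbl.uniq (h : Lbl π wt ρ w) (h' : Lbl π wt ρ' w) (hw : w ∈ Ust π) : ρ = ρ' :=
  funext fun i => funext fun r => by
    obtain ⟨j, rfl, hj⟩ := hw r
    exact (h.val hj i).trans (h'.val hj i).symm

theorem lbl_of_fix (hw : w ∈ Ust π) (h : ∀ τ, IsUnit τ → Orb π w (tw wt τ w)) :
    ∃ ρ, Lbl π wt ρ w := by
  classical
  choose c c1 c2 using hw
  refine ⟨fun i r => wt (c r) i, lbl_of fun j hj i => congrFun (gau_char fun τ hτ => ?_) i⟩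
  obtain ⟨t, -, e⟩ := h τ hτ
  refine (mul_right_cancel₀ (c2 _) (congrFun e (c (π j)))).trans ?_
  rw [c1]
  exact (mul_right_cancel₀ hj (congrFun e j)).symm

theorem Lbl.fix (h : Lbl π wt ρ w) {τ : S → ℂ} (hτ : IsUnit τ) : Orb π w (tw wt τ w) :=
  ⟨fun r => ∏ i, τ i ^ ρ i r, unit_zmon (d := fun r i => ρ i r) hτ, funext fun j => by
    by_cases hj : w j = 0
    · simp [tw, scl, hj]
    · simp only [tw, scl, h.val hj]⟩

theorem lbl_const (hc : IsConnected Z) (hZ : Z ⊆ Ust π) (h : ∀ w ∈ Z, ∃ ρ, Lbl π wt ρ w) :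
    ∃ ρ, ∀ w ∈ Z, Lbl π wt ρ w := by
  obtain ⟨x, hx⟩ := hc.1
  obtain ⟨ρ, hρ⟩ := h x hx
  refine ⟨ρ, fun w hw => hc.2.induction₂' (fun a b => Lbl π wt ρ a → Lbl π wt ρ b) (fun a ha => ?_)
    (fun _ _ _ _ _ _ f g => g ∘ f) hx hw hρ⟩
  choose c c1 c2 using hZ ha
  obtain ⟨σ, hσ⟩ := h a ha
  filter_upwards [self_mem_nhdsWithin, nhdsWithin_le_nhds (eventually_all.2 fun r =>
    (continuous_apply (c r)).continuousAt.eventually_ne (c2 r))] with b hb e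
  obtain ⟨σ', hσ'⟩ := h b hb
  obtain rfl : σ = σ' := funext fun i => funext fun r => by
    rw [← c1 r, hσ.val (c2 r), hσ'.val (e r)]
  exact ⟨fun f => f.uniq hσ (hZ ha) ▸ hσ', fun f => f.uniq hσ' (hZ hb) ▸ hσ⟩

variable {π₀ : J₀ → R₀} {A : Set (J → ℂ)} {O : Set (J₀ → ℂ)} {i : J₀ → J}
  {s : (J₀ → ℂ) → J → ℂ} {m : ℕ}

/-- The projection is a submersion over the domain of a section. -/
theorem Sct.tn_surj (h : Sct π₀ π A i O s) {β : R₀ → R} (hb : ∀ j, π (i j) = β (π₀ j))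
    (hA : MC π A) (hO : O ⊆ Ust π₀) (hw : w ∈ A) (hm : MfdAt O m (w ∘ i)) {v : J₀ → ℂ}
    (hv : v ∈ tn O (w ∘ i)) : ∃ η ∈ tn A w, η ∘ i = v := by
  obtain ⟨t, ht, t1, e⟩ := h.exists_t hb hO hw hm.mem
  obtain ⟨Ψ, a, b⟩ := h.hol _ hm.mem
  have a' : AnalyticAt ℂ (fun x => scl π t (Ψ x)) (w ∘ i) := an_scl analyticAt_const a
  refine ⟨fderiv ℂ (fun x => scl π t (Ψ x)) (w ∘ i) v, ?_, ?_⟩
  · have := fderiv_map_tn (A' := A) hm a'
      (b.mono fun x c d => c d ▸ hA.inv t ht _ (h.mem x d)) hv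
    rwa [← b.self_of_nhds hm.mem, ← e] at this
  · have a2 : AnalyticAt ℂ (fun x => scl π t (Ψ x) ∘ i) (w ∘ i) := (an_pre i _).comp a'
    have := hv _ (a2.fun_sub analyticAt_id) (b.mono fun x c d => by
      rw [← c d, scl_comp hb, t1, scl_one, h.inv x d]; exact sub_self _)
    rwa [fderiv_fun_sub a2.differentiableAt differentiableAt_id, fderiv_id,
      fderiv_comp_an (an_pre i _) a', _root_.sub_apply, sub_eq_zero,
      ContinuousLinearMap.comp_apply, fderiv_pre] at this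

end lbl

variable {n : ℕ} {Y X : Var n}

/-- A master space whose determinant line bundle is given by a character, with the labels of its
fixed points. -/
structure MasD (p : Ext Y X) where
  /-- the space -/
  B : Var (n + 1)
  /-- the weights -/
  wt : B.J → Unit → ℤ
  tinv : TInv wt B.A
  /-- the weight of the determinant -/
  γ : B.R → ℤ
  det : Det B.π B.A (n + 1 + Fintype.card B.R) γ
  /-- the projection to `X` -/
  pX : Ext B X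
  wtX : ∀ j, wt (pX.iJ j) = 0
  /-- the fields `a = ab true` and `b = ab false` -/
  ab : Bool → B.J
  ab_inj : Injective ab
  ab_blk : ∀ j, B.π j = B.π (ab true) ↔ j ∈ range ab
  ab_X : B.π (ab true) ∉ range pX.iR
  wta : wt (ab true) = 1
  wtb : wt (ab false) = 0
  /-- the degree of `G` -/
  μ : X.R → ℕ
  /-- the form -/
  G : (X.J → ℂ) → ℂ
  frm : Frm X.π μ G
  ne : ∃ x ∈ X.A, G x ≠ 0
  /-- the section over `{G ≠ 0} × ℙ¹` -/
  φ : (X.J ⊕ Bool → ℂ) → B.J → ℂ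
  gen : Sct (blP Bool X.π) B.π B.A (Sum.elim pX.iJ ab)
    {q | q ∘ .inl ∈ X.A ∧ G (q ∘ .inl) ≠ 0 ∧ q ∘ .inr ≠ 0} φ
  /-- the fields of `Y` -/
  iy : Y.J → B.J
  /-- the blocks of `Y` -/
  ry : Y.R → B.R
  iy_inj : Injective iy
  ry_inj : Injective ry
  iy_blk : ∀ j, B.π (iy j) = ry (Y.π j)
  /-- the section over `Y` -/
  Φ : (Y.J → ℂ) → B.J → ℂ
  snk : Sct Y.π B.π {w | w ∈ B.A ∧ w (ab true) = 0} iy Y.A Φ
  snk_map : ∀ w ∈ B.A, w (ab true) = 0 → w ∘ iy ∈ Y.A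
  snk_X : ∀ y ∈ Y.A, Orb X.π (y ∘ p.iJ) (Φ y ∘ pX.iJ)
  tr : ∀ w ∈ B.A, w (ab true) = 0 → ∃ v ∈ tn B.A w, v (ab true) ≠ 0
  /-- the label of the sink -/
  ρk : Unit → B.R → ℤ
  snk_iff : ∀ w ∈ B.A, Lbl B.π wt ρk w ↔ w (ab true) = 0
  snk_a : ρk () (B.π (ab true)) = 0
  /-- the field `τ` -/
  jτ : B.J
  wtτ : wt jτ = 1
  wtz : ∀ j, B.π j = B.π jτ → j ≠ jτ → wt j = 0
  gen_τ : ∀ w ∈ B.A, G (w ∘ pX.iJ) ≠ 0 → (w jτ = 0 ↔ w (ab true) = 0) ∧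
    ((∀ j, B.π j = B.π jτ → j ≠ jτ → w j = 0) ↔ w (ab false) = 0)
  /-- the label of the source -/
  ρs : Unit → B.R → ℤ
  src_iff : ∀ w ∈ B.A, Lbl B.π wt ρs w ↔ ∀ j, B.π j = B.π jτ → j ≠ jτ → w j = 0
  src_loc : ∀ x ∈ X.A, ∃ s : (X.J → ℂ) → B.J → ℂ, AnalyticAt ℂ s x ∧
    ∀ᶠ y in 𝓝 x, y ∈ X.A → (s y ∈ B.A ∧ Lbl B.π wt ρs (s y)) ∧ s y ∘ pX.iJ = y
  src_orb : ∀ w ∈ B.A, Lbl B.π wt ρs w → ∀ w' ∈ B.A, Lbl B.π wt ρs w' →
    w ∘ pX.iJ = w' ∘ pX.iJ → Orb B.π w w'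
  src_b : ∀ w ∈ B.A, Lbl B.π wt ρs w → w (ab false) = 0
  src_τ : ρs () (B.π jτ) = 1
  src_ne : ρs ≠ ρk
  oth_τ : ∀ ρ, ∀ w ∈ B.A, Lbl B.π wt ρ w → ρ ≠ ρs → ρ () (B.π jτ) = 0
  oth : ∀ ρ, ∀ w ∈ B.A, Lbl B.π wt ρ w → ρ = ρs ∨ ρ = ρk ∨ G (w ∘ pX.iJ) = 0

namespace Master

variable {p : Ext Y X} (M : Master p)

theorem ab_π (c : Bool) : M.B.π (M.ab c) = M.B.π (M.ab true) := (M.ab_blk _).2 ⟨c, rfl⟩

theorem ab_ne {w : M.B.J → ℂ} (hw : w ∈ M.B.A) : w (M.ab true) ≠ 0 ∨ w (M.ab false) ≠ 0 := by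
  obtain ⟨j, h1, h2⟩ := M.B.pv.sub hw (M.B.π (M.ab true))
  obtain ⟨c, rfl⟩ := (M.ab_blk j).1 h1
  cases c
  exacts [.inr h2, .inl h2]

theorem blkX (j : X.J ⊕ Bool) : M.B.π (Sum.elim M.pX.iJ M.ab j) =
    (fun o => Option.elim o (M.B.π (M.ab true)) M.pX.iR) (blP Bool X.π j) := by
  rcases j with j | c
  exacts [M.pX.blk j, M.ab_π c]

theorem blkY (j : Y.J ⊕ Bool) : M.B.π (Sum.elim M.iy M.ab j) =
    (fun o => Option.elim o (M.B.π (M.ab true)) M.ry) (blP Bool Y.π j) := by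
  rcases j with j | c
  exacts [M.iy_blk j, M.ab_π c]

end Master

theorem masD_inj {R R' : Type} {f : R → R'} {a : R'} (hf : Injective f) (ha : a ∉ range f) :
    Injective fun o => Option.elim o a f := by
  rintro (_ | x) (_ | y) e
  exacts [rfl, (ha ⟨y, e.symm⟩).elim, (ha ⟨x, e⟩).elim, congrArg some (hf e)]

theorem masD_pt (Y : Var n) : Sct Y.π (blP Bool Y.π)
    ({q | q ∘ .inl ∈ Y.A ∧ q (.inr false) ≠ 0} ∩ {q | q (.inr true) = 0}) .inl Y.A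
    fun y => Sum.elim y fun c => cond c 0 1 := by
  refine ⟨fun y _ => .of_an (analyticAt_pi_iff.2 ?_), fun y hy => ⟨⟨hy, one_ne_zero⟩, rfl⟩,
    fun _ _ => rfl, fun q hq _ => ⟨fun o => o.elim (q (.inr false)) 1,
      unit_option.2 ⟨isUnit_one, hq.1.2⟩, funext ?_⟩,
    fun o => o.elim 0 fun r => Pi.single r 1, fun t _ y _ => funext ?_⟩
  · rintro (j | c)
    exacts [analyticAt_pi_iff.1 analyticAt_id j, analyticAt_const]
  · rintro (j | _ | _)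
    exacts [(one_mul _).symm, (mul_one _).symm, hq.2.trans (mul_zero _).symm]
  · rintro (j | c)
    · exact congrArg (· * y j) (prod_single t _).symm
    · simp [scl, blP]

theorem Master.masD {p : Ext Y X} (M : Master p) {γX : X.R → ℤ} {γY : Y.R → ℤ}
    (hX : Det X.π X.A (n + Fintype.card X.R) γX) (hY : Det Y.π Y.A (n + Fintype.card Y.R) γY) :
    Nonempty (MasD p) := by
  have hB := M.B.pv
  have L := ln_gsP hB.toMC hB.mfd
  have iG : ∀ t, IsUnit t → ∀ q ∈ {q : X.J ⊕ Bool → ℂ | q ∘ .inl ∈ X.A ∧ M.G (q ∘ .inl) ≠ 0 ∧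
      q ∘ .inr ≠ 0}, scl (blP Bool X.π) t q ∈ {q : X.J ⊕ Bool → ℂ | q ∘ .inl ∈ X.A ∧
        M.G (q ∘ .inl) ≠ 0 ∧ q ∘ .inr ≠ 0} := fun t ht q hq =>
    ⟨X.pv.inv _ (unit_comp ht some) _ hq.1, (M.frm.ne_iff (unit_comp ht some)).2 hq.2.1,
      smul_ne_zero (unit_iff.1 ht none) hq.2.2⟩
  have iS : ∀ t, IsUnit t → ∀ q ∈ {q : Y.J ⊕ Bool → ℂ | q ∘ .inl ∈ Y.A ∧ q (.inr false) ≠ 0},
      scl (blP Bool Y.π) t q ∈ {q : Y.J ⊕ Bool → ℂ | q ∘ .inl ∈ Y.A ∧ q (.inr false) ≠ 0} :=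
    fun t ht q hq => ⟨Y.pv.inv _ (unit_comp ht some) _ hq.1, mul_ne_zero (unit_iff.1 ht _) hq.2⟩
  have uS : {q : Y.J ⊕ Bool → ℂ | q ∘ .inl ∈ Y.A ∧ q (.inr false) ≠ 0} ⊆ Ust (blP Bool Y.π) :=
    fun q hq => mem_Ust_blP.2 ⟨Y.pv.sub hq.1, fun e => hq.2 (congrFun e false)⟩
  have oS : ∀ q ∈ {q : Y.J ⊕ Bool → ℂ | q ∘ .inl ∈ Y.A ∧ q (.inr false) ≠ 0}, ∀ᶠ s in 𝓝 q,
      s ∘ .inl ∈ Y.A ↔ s ∈ {q : Y.J ⊕ Bool → ℂ | q ∘ .inl ∈ Y.A ∧ q (.inr false) ≠ 0} :=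
    fun q hq => ((continuous_apply _).continuousAt.eventually_ne hq.2).mono fun s a =>
      (and_iff_left a).symm
  obtain ⟨m1, d1⟩ := det_opnP X.pv hX (fun q hq => (((M.frm.an _).comp
    (an_comp_crd _ q)).continuousAt.eventually_ne hq.2.1).mp
      (((an_comp_crd _ q).continuousAt.eventually_ne hq.2.2).mono fun s a b =>
        (and_iff_left ⟨b, a⟩).symm)) iG (N := n + 1 + Fintype.card (Option X.R)) (by simp; ring)
  obtain ⟨m2, d2⟩ := det_opnP Y.pv hY oS iS (N := n + 1 + Fintype.card (Option Y.R))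
    (by simp; ring)
  obtain ⟨x₀, x1, x2⟩ := M.ne
  obtain ⟨y₀, y1⟩ := Y.conn.1
  obtain ⟨φ, f1, -⟩ := M.gen.gauss hB (masD_inj M.pX.injR M.ab_X) M.blkX
    (fun q hq => mem_Ust_blP.2 ⟨X.pv.sub hq.1, hq.2.2⟩) iG ⟨Sum.elim x₀ 1, x1, x2, one_ne_zero⟩ m1 d1
  obtain ⟨ψ, g1, -⟩ := M.snk.gauss hB (masD_inj M.ry_inj M.ab_Y) M.blkY uS iS
    ⟨Sum.elim y₀ 1, y1, one_ne_zero⟩ m2 d2
  let B : Var (n + 1) :=
    { J := _, R := _, π := blP _ M.B.π, A := grA M.B.A (gsP M.B.π M.B.A (n + 1 + Fintype.card M.B.R))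
      pv := L.pv hB
      conn := (Set.ext fun w => and_iff_left_of_imp fun a => a.1 :
        {w | w ∈ grA M.B.A _ ∧ w ∘ .inl ∈ M.B.A} = _) ▸ L.conn hB.toMC subset_rfl M.B.conn }
  let wt : B.J → Unit → ℤ := Sum.elim M.wt (gsW M.B.π _ M.wt)
  have T : TInv wt B.A := tinv_gsP M.tinv
  have hb : ∀ w ∈ B.A, w (.inl (M.ab true)) = 0 → w (.inl (M.ab false)) ≠ 0 := fun w hw h =>
    (M.ab_ne hw.1).resolve_left (not_not.2 h)
  have k1 : Sct Y.π B.π {w | w ∈ B.A ∧ w (.inl (M.ab true)) = 0} (.inl ∘ M.iy) Y.A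
      fun y => ψ (Sum.elim y fun c => cond c 0 1) :=
    (masD_pt Y).comp (g1.inter {q | q (.inr true) = 0}) (masD_pt Y).mem
      (fun t ht q hq => ⟨iS t ht q hq.1, mul_eq_zero_of_right _ hq.2⟩)
      fun w hw h => ⟨⟨h, hb w hw.1 hw.2⟩, hw.2⟩
  have k2 : ∀ w ∈ B.A, w (.inl (M.ab true)) = 0 → w ∘ .inl ∘ M.iy ∈ Y.A := fun w hw h =>
    (M.mapY _ hw.1 (hb w hw h)).1
  have bY : ∀ j, B.π ((Sum.inl ∘ M.iy) j) = (some ∘ M.ry) (Y.π j) := fun j =>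
    congrArg some (M.iy_blk j)
  obtain ⟨ρk, k3⟩ := lbl_const (π := B.π) (wt := wt) (k1.conn bY (fun t ht w hw =>
    ⟨B.pv.inv t ht w hw.1, mul_eq_zero_of_right _ hw.2⟩) Y.pv.inv Y.conn)
    (fun w hw => B.pv.sub hw.1.1) fun w hw => lbl_of_fix (B.pv.sub hw.1.1) fun τ hτ => by
      have e : tw wt τ w ∘ .inl ∘ M.iy = w ∘ .inl ∘ M.iy := funext fun j => by
        simp [tw, wt, M.wtY]
      have := k1.orb (tw wt τ w) ⟨T τ hτ w hw.1.1, mul_eq_zero_of_right _ hw.1.2⟩ (e ▸ hw.2)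
      rw [e] at this
      exact (k1.orb w hw.1 hw.2).symm.trans this
  have k4 : ρk () (some (M.B.π (M.ab true))) = 0 := by
    have a := k1.mem y₀ y1
    have := (k3 _ ⟨a, k2 _ a.1 a.2⟩).val (hb _ a.1 a.2) ()
    exact ((congrArg (ρk () ∘ some) (M.ab_π false)).symm.trans this).trans (congrFun M.wtb ())
  have k5 : ∀ w ∈ B.A, Lbl B.π wt ρk w ↔ w (.inl (M.ab true)) = 0 := fun w hw =>
    ⟨fun h => h.zero (i := ()) fun e => zero_ne_one ((k4.symm.trans e).trans (congrFun M.wta ())),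
      fun h => k3 w ⟨⟨hw, h⟩, k2 w hw h⟩⟩
  have hz : ∀ w : B.J → ℂ, (∀ j, B.π j = B.π (.inl M.jτ) → j ≠ .inl M.jτ → w j = 0) ↔
      ∀ j, M.B.π j = M.B.π M.jτ → j ≠ M.jτ → w (.inl j) = 0 := fun w =>
    ⟨fun h j a b => h _ (congrArg some a) (Sum.inl_injective.ne b), fun h j a b => by
      rcases j with j | k
      exacts [h j (Option.some.inj a) fun e => b (congrArg _ e), by cases a]⟩
  have s0 : ∀ w ∈ M.B.A, ∀ w' ∈ M.B.A, (∀ j, M.B.π j = M.B.π M.jτ → j ≠ M.jτ → w j = 0) →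
      (∀ j, M.B.π j = M.B.π M.jτ → j ≠ M.jτ → w' j = 0) → w ∘ M.pX.iJ = w' ∘ M.pX.iJ →
      Orb M.B.π w w' := fun w hw w' hw' a b e =>
    (M.src.orb w ⟨hw, a⟩ (M.pX.map w hw)).symm.trans (e ▸ M.src.orb w' ⟨hw', b⟩ (M.pX.map w' hw'))
  obtain ⟨ρs, s1⟩ := lbl_const (π := B.π) (wt := wt) (L.conn hB.toMC (fun _ a => a.1.1)
    (M.src.conn M.pX.blk (fun t ht w hw => ⟨hB.inv t ht w hw.1, fun j a b =>
      mul_eq_zero_of_right _ (hw.2 j a b)⟩) X.pv.inv X.conn)) (fun w hw => B.pv.sub hw.1)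
    fun w hw => lbl_of_fix (B.pv.sub hw.1) fun τ hτ => L.orb hB.toMC hw.1 (T τ hτ w hw.1)
      (s0 _ hw.1.1 _ (T τ hτ w hw.1).1 hw.2.1.2
        (fun j a b => mul_eq_zero_of_right _ (hw.2.1.2 j a b))
        (funext fun j => by simp [tw, wt, M.wtX]))
  have s2 : ∀ w ∈ B.A, (∀ j, M.B.π j = M.B.π M.jτ → j ≠ M.jτ → w (.inl j) = 0) →
      Lbl B.π wt ρs w := fun w hw h => s1 w ⟨hw, ⟨hw.1, h⟩, M.pX.map _ hw.1⟩
  have s3 : ∀ ρ, ∀ w ∈ B.A, Lbl B.π wt ρ w → ρ () (some (M.B.π M.jτ)) = 0 ∨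
      ρ () (some (M.B.π M.jτ)) = 1 ∧ ∀ j, M.B.π j = M.B.π M.jτ → j ≠ M.jτ → w (.inl j) = 0 :=
    fun ρ w hw h => by
      by_cases e : ∀ j, M.B.π j = M.B.π M.jτ → j ≠ M.jτ → w (.inl j) = 0
      · obtain ⟨j, a, b⟩ := hB.sub hw.1 (M.B.π M.jτ)
        obtain rfl : j = M.jτ := by_contra fun c => b (e j a c)
        exact .inr ⟨(h.val (j := .inl _) b ()).trans (congrFun M.wtτ ()), e⟩
      · simp only [not_forall] at e
        obtain ⟨j, a, b, c⟩ := e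
        exact .inl (((congrArg (ρ () ∘ some) a).symm.trans (h.val (j := .inl j) c ())).trans
          (congrFun (M.wtz j a b) ()))
  have s4 : ∀ x ∈ X.A, ∃ s : (X.J → ℂ) → B.J → ℂ, AnalyticAt ℂ s x ∧ ∀ᶠ y in 𝓝 x, y ∈ X.A →
      (s y ∈ B.A ∧ s y ∘ .inl = M.χ y) := fun x hx => by
    obtain ⟨Ψ, a, b⟩ := M.src.hol x hx
    have c := (M.src.mem x hx).1
    obtain ⟨u, hu⟩ := L.nonempty c
    obtain ⟨f, f1, -, f3⟩ := L.frame c hu
    rw [b.self_of_nhds hx] at f1 f3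
    refine ⟨fun y => Sum.elim (Ψ y) (f (Ψ y)), analyticAt_pi_iff.2 ?_, ?_⟩
    · rintro (j | k)
      exacts [analyticAt_pi_iff.1 a j, analyticAt_pi_iff.1 (f1.comp a) k]
    · filter_upwards [b, a.continuousAt.eventually f3] with y e g hy
      have := e hy ▸ (M.src.mem y hy).1
      exact ⟨⟨this, g this⟩, (e hy).symm⟩
  have s5 : ρs () (some (M.B.π M.jτ)) = 1 ∧ ρs () (some (M.B.π (M.ab true))) = 1 := by
    obtain ⟨s, -, a⟩ := s4 x₀ x1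
    obtain ⟨b, c⟩ := a.self_of_nhds x1
    have z : ∀ j, M.B.π j = M.B.π M.jτ → j ≠ M.jτ → s x₀ (.inl j) = 0 := fun j u v =>
      (congrFun c j).trans ((M.src.mem x₀ x1).2 j u v)
    obtain ⟨j, u, v⟩ := hB.sub b.1 (M.B.π M.jτ)
    obtain rfl : j = M.jτ := by_contra fun e => v (z j u e)
    exact ⟨((s2 _ b z).val (j := .inl _) v ()).trans (congrFun M.wtτ ()),
      ((s2 _ b z).val (j := .inl _) ((M.ab_ne b.1).resolve_right
        (not_not.2 ((congrFun c _).trans (M.src_b x₀ x1)))) ()).trans (congrFun M.wta ())⟩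
  have s6 : ∀ w ∈ B.A, Lbl B.π wt ρs w →
      ∀ j, M.B.π j = M.B.π M.jτ → j ≠ M.jτ → w (.inl j) = 0 := fun w hw h =>
    ((s3 _ w hw h).resolve_left (by rw [s5.1]; exact one_ne_zero)).2
  have el : ∀ {I : Type} (u : I → M.B.J), (Sum.elim (.inl ∘ u) (.inl ∘ M.ab) : _ → B.J) =
      .inl ∘ Sum.elim u M.ab := fun u => funext fun j => by cases j <;> rfl
  refine ⟨{
    B := B
    wt := wt
    tinv := T
    γ := _
    det := det_gsP hB
    pX := ⟨.inl ∘ M.pX.iJ, some ∘ M.pX.iR, Sum.inl_injective.comp M.pX.injJ,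
      (Option.some_injective _).comp M.pX.injR, fun j => congrArg some (M.pX.blk j),
      fun w hw => M.pX.map _ hw.1⟩
    wtX := M.wtX
    ab := .inl ∘ M.ab
    ab_inj := Sum.inl_injective.comp M.ab_inj
    ab_blk := ?_
    ab_X := fun ⟨r, e⟩ => M.ab_X ⟨r, Option.some.inj e⟩
    wta := M.wta
    wtb := M.wtb
    μ := M.μ
    G := M.G
    frm := M.frm
    ne := M.ne
    φ := φ
    gen := ?_
    iy := .inl ∘ M.iy
    ry := some ∘ M.ry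
    iy_inj := Sum.inl_injective.comp M.iy_inj
    ry_inj := (Option.some_injective _).comp M.ry_inj
    iy_blk := bY
    Φ := _
    snk := k1
    snk_map := k2
    snk_X := fun y hy => ?_
    tr := fun w hw h => ?_
    ρk := ρk
    snk_iff := k5
    snk_a := k4
    jτ := .inl M.jτ
    wtτ := M.wtτ
    wtz := ?_
    gen_τ := fun w hw h => ?_
    ρs := ρs
    src_iff := fun w hw => ⟨fun h => (hz w).2 (s6 w hw h), fun h => s2 w hw ((hz w).1 h)⟩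
    src_loc := fun x hx => (s4 x hx).imp fun s a => ⟨a.1, a.2.mono fun y b hy => ⟨⟨(b hy).1,
      s2 _ (b hy).1 fun j u v => (congrFun (b hy).2 j).trans ((M.src.mem y hy).2 j u v)⟩,
      (congrArg (· ∘ M.pX.iJ) (b hy).2).trans (M.src.inv y hy)⟩⟩
    src_orb := fun w hw h w' hw' h' e =>
      L.orb hB.toMC hw hw' (s0 _ hw.1 _ hw'.1 (s6 w hw h) (s6 w' hw' h') e)
    src_b := fun w hw h => h.zero (i := ()) fun e => one_ne_zero ((s5.2.symm.trans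
      ((congrArg (ρs () ∘ some) (M.ab_π false)).symm.trans e)).trans (congrFun M.wtb ()))
    src_τ := s5.1
    src_ne := fun e => one_ne_zero (s5.2.symm.trans (e ▸ k4))
    oth_τ := fun ρ w hw h e => (s3 ρ w hw h).resolve_right fun a =>
      e (h.uniq (s2 w hw a.2) (B.pv.sub hw))
    oth := fun ρ w hw h => ?_ }⟩
  · rintro (j | k)
    · exact ⟨fun e => ((M.ab_blk j).1 (Option.some.inj e)).imp fun _ a => congrArg _ a,
        fun ⟨c, e⟩ => Sum.inl.inj e ▸ congrArg some (M.ab_π c)⟩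
    · exact ⟨fun e => (by cases e), fun ⟨c, e⟩ => by cases e⟩
  · exact el M.pX.iJ ▸ f1
  · have a := k1.mem y hy
    have := (M.mapY _ a.1.1 (hb _ a.1 a.2)).2
    rwa [show _ ∘ M.iy ∘ p.iJ = y ∘ p.iJ from congrArg (· ∘ p.iJ) (k1.inv y hy)] at this
  · have a : w ∘ .inl ∘ Sum.elim M.iy M.ab ∈
        {q : Y.J ⊕ Bool → ℂ | q ∘ .inl ∈ Y.A ∧ q (.inr false) ≠ 0} := ⟨k2 w hw h, hb w hw h⟩
    obtain ⟨η, b, c⟩ := g1.tn_surj
      (β := some ∘ fun o => Option.elim o (M.B.π (M.ab true)) M.ry) (fun j => congrArg some (M.blkY j)) B.pv.toMC uS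
      hw (m2 _ a) (v := Sum.elim 0 1) (by
        rw [← tn_congr ((oS _ a).mono fun s b => (and_iff_left trivial).trans b :
          ∀ᶠ s in 𝓝 _, s ∈ Wg.prd Y.A univ ↔ _),
          Wg.mem_tn_prd (Y.pv.mfd _ a.1) (MfdAt.univ _), tn_of_nhds univ_mem]
        exact ⟨zero_mem _, trivial⟩)
    exact ⟨η, b, (congrFun c (.inr true)).trans_ne one_ne_zero⟩
  · rintro (j | k) a b
    exacts [M.wtz j (Option.some.inj a) fun e => b (congrArg _ e), by cases a]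
  · rw [hz]
    exact M.gen_τ _ hw.1 h
  · by_cases a : w (.inl (M.ab true)) = 0
    · exact .inr (.inl (h.uniq ((k5 w hw).2 a) (B.pv.sub hw)))
    · refine or_iff_not_imp_right.2 fun e => h.uniq (s2 w hw
        ((M.gen_τ _ hw.1 fun f => e (.inr f)).2.2 (h.zero (j := .inl _) (i := ()) fun f => ?_)))
        (B.pv.sub hw)
      exact one_ne_zero (((congrFun M.wta ()).symm.trans ((h.val a ()).symm.trans
        ((congrArg (ρ () ∘ some) (M.ab_π false)).symm.trans f))).trans (congrFun M.wtb ()))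

end Vale.Agent.P287Q
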