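import Vale.Agent.P287Q.H1.Bas
import Vale.Agent.P287Q.H1.PrDefs

/-!
# Blow-ups of disconnected centres and of hypersurfaces
-/

open Filter Topology Set Function

namespace Vale.Agent.P287Q.H1

variable {n : ℕ}

theorem card_le {θ : W n → W n} {a : W n} {A B : Finset (Fin n)} (h : IsCo θ a) (ha : a ∈ Zs A)
    (e : ∀ᶠ z in 𝓝 a, z ∈ Zs A → θ z ∈ Zs B) : B.card ≤ A.card := by
  let ex : ({l // l ∉ A} → ℂ) →ₗ[ℂ] W n := LinearMap.pi fun l =>
    if hl : l ∈ A then 0 else LinearMap.proj (⟨l, hl⟩ : {l // l ∉ A})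
  have e1 : ∀ v, ∀ l ∈ B, fderiv ℂ θ a (ex v) l = 0 := fun v l hl => by
    have t := tend_line a (ex v) 0
    have d0 : HasDerivAt (fun s : ℂ => a + s • ex v) (ex v) 0 := by
      simpa using ((hasDerivAt_id (0 : ℂ)).smul_const (ex v)).const_add a
    have d := HasFDerivAt.comp_hasDerivAt_of_eq (0 : ℂ) h.1.differentiableAt.hasFDerivAt d0 (by simp)
    rw [zero_smul, add_zero] at t
    refine (hasDerivAt_pi.1 d l).unique ((hasDerivAt_const 0 0).congr_of_eventuallyEq ?_)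
    filter_upwards [t.eventually e] with s hs
    exact hs (fun k hk => by simp [ex, hk, ha k hk]) l hl
  have := LinearMap.finrank_le_finrank_of_injective (f := (LinearMap.funLeft ℂ ℂ
    (Subtype.val : {l // l ∉ B} → _)) ∘ₗ (fderiv ℂ θ a : W n →ₗ[ℂ] W n) ∘ₗ ex)
    ((injective_iff_map_eq_zero _).2 fun v hv => by
      have : ex v = 0 := h.2.1 ((funext fun l => if hl : l ∈ B then e1 v l hl
        else congrFun hv ⟨l, hl⟩).trans (map_zero _).symm)
      exact funext fun l => by simpa [ex, l.2] using congrFun this l.1)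
  simp only [Module.finrank_fintype_fun_eq_card, Fintype.card_subtype_compl, Fintype.card_fin,
    Fintype.card_coe] at this
  have := A.card_le_univ
  have := B.card_le_univ
  simp only [Fintype.card_fin] at *
  omega

namespace Mf

variable {X X₁ X₂ : Mf n} {C C' : Set X.M} {β : X₁.M → X.M} {β' : X₂.M → X₁.M}

theorem card_eq {p : X.M} {φ φ' : X.M → W n} {A B : Finset (Fin n)} (h : X.Co p φ) (h' : X.Co p φ')
    (hp : p ∈ C) (e : ∀ᶠ z in 𝓝 p, z ∈ C ↔ φ z ∈ Zs A) (e' : ∀ᶠ z in 𝓝 p, z ∈ C ↔ φ' z ∈ Zs B) :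
    B.card ≤ A.card := by
  obtain ⟨θ, h1, h2⟩ := X.tr p φ φ' h h'
  refine card_le h1 (e.self_of_nhds.1 hp) ((co_ev h).1 ?_)
  filter_upwards [e, e', h2] with z a b c d
  exact (c ▸ b.1 (a.2 d) : (θ ∘ φ) z ∈ _)

theorem isBl_empty (X : Mf n) : IsBl (X' := X) id ∅ :=
  ⟨continuous_id, fun _ _ _ h => h, fun _ h => h.elim, fun γ h => ⟨γ, h, fun _ a => ⟨a, rfl⟩⟩,
    Subset.rfl⟩

/-- The blow-up of a hypersurface is the identity. -/
theorem isBl_one (h : X.Ctr C 1) : IsBl (X' := X) id C := by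
  refine ⟨continuous_id, fun _ _ _ h => h, fun b hb φ A h1 h2 => ?_,
    fun γ h => ⟨γ, h, fun _ a => ⟨a, rfl⟩⟩, Subset.rfl⟩
  obtain ⟨φ', A', a1, a2, a3⟩ := h.sub b hb
  obtain ⟨i, rfl⟩ := Finset.card_eq_one.1
    (le_antisymm (a2 ▸ card_eq a1 h1 hb a3 h2) (a2 ▸ card_eq h1 a1 hb h2 a3))
  exact ⟨i, Finset.mem_singleton_self i, φ, h1, .of_forall fun z => funext fun l =>
    (if_neg fun k => k.2 (Finset.mem_singleton.1 k.1)).symm⟩

/-- Disjoint centres can be blown up one after the other. -/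
theorem IsBl.union (h : IsBl β C) (h' : IsBl β' (β ⁻¹' C')) (hC : IsClosed C) (hC' : IsClosed C')
    (hd : Disjoint C C') : IsBl (β ∘ β') (C ∪ C') := by
  refine ⟨h.cont.comp h'.cont, fun b hb φ a => h'.off b (fun k => hb (.inr k)) _
    (h.off _ (fun k => hb (.inl k)) φ a), fun b hb φ A h1 h2 => ?_, fun γ hγ => ?_,
    fun b hb => h'.reg (h.reg hb)⟩
  · rcases hb with hb | hb
    · have k : β (β' b) ∉ C' := disjoint_left.1 hd hb
      obtain ⟨i, hi, φ', a1, a2⟩ := h.ovr _ hb φ A h1 (by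
        filter_upwards [h2, hC'.isOpen_compl.mem_nhds k] with z a c
        exact (or_iff_left c).symm.trans a)
      exact ⟨i, hi, _, h'.off b k _ a1, h'.cont.continuousAt.eventually a2⟩
    · have k : β (β' b) ∉ C := disjoint_right.1 hd hb
      exact h'.ovr b hb _ A (h.off _ k φ h1) (h.cont.continuousAt.eventually (by
        filter_upwards [h2, hC.isOpen_compl.mem_nhds k] with z a c
        exact (or_iff_right c).symm.trans a))
  · obtain ⟨γ₁, a1, a2⟩ := h'.cov γ hγ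
    obtain ⟨γ₀, b1, b2⟩ := h.cov γ₁ a1
    exact ⟨γ₀, b1, fun b hb => ⟨(b2 _ (a2 b hb).1).1,
      (congrArg β (a2 b hb).2).trans (b2 _ (a2 b hb).1).2⟩⟩

end Mf

end Vale.Agent.P287Q.H1
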