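import Mathlib.Analysis.Complex.AbsMax
import Mathlib.Analysis.Analytic.IsolatedZeros
import Mathlib.Analysis.Analytic.Constructions

/-!
# Zeros of an analytic function persist in a family (Hurwitz)
-/

namespace Vale.Agent.P287Q

open Set Filter Topology Metric

/-- **Hurwitz** -/
theorem hur {E : Type*} [NormedAddCommGroup E] [NormedSpace ℂ E] {h : ℂ × E → ℂ} {t₀ : ℂ} {v₀ : E}
    (ha : AnalyticAt ℂ h (t₀, v₀)) (h0 : h (t₀, v₀) = 0) (hn : ¬∀ᶠ t in 𝓝 t₀, h (t, v₀) = 0) :
    ∀ U ∈ 𝓝 t₀, ∀ᶠ v in 𝓝 v₀, ∃ t ∈ U, h (t, v) = 0 := by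
  intro U hU
  have sl : ∀ {t v}, AnalyticAt ℂ h (t, v) → AnalyticAt ℂ (fun s => h (s, v)) t := fun a =>
    a.comp_of_eq (analyticAt_id.prod analyticAt_const) rfl
  have a1 := (sl ha).eventually_eq_zero_or_eventually_ne_zero.resolve_left hn
  have a2 : ∀ᶠ t in 𝓝 t₀, AnalyticAt ℂ h (t, v₀) :=
    (continuousAt_id.prodMk continuousAt_const).eventually ha.eventually_analyticAt
  obtain ⟨r, hr, b⟩ := nhds_basis_closedBall.eventually_iff.1
    ((eventually_nhdsWithin_iff.1 a1).and (a2.and hU))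
  obtain ⟨s, s1, s2⟩ := (isCompact_sphere t₀ r).exists_isMinOn (NormedSpace.sphere_nonempty.2 hr.le)
    (f := fun t => ‖h (t, v₀)‖) fun t ht =>
      (sl (b (sphere_subset_closedBall ht)).2.1).continuousAt.norm.continuousWithinAt
  have e0 : 0 < ‖h (s, v₀)‖ / 2 := half_pos (norm_pos_iff.2
    ((b (sphere_subset_closedBall s1)).1 (ne_of_mem_sphere s1 hr.ne')))
  have sw : ∀ {t}, AnalyticAt ℂ h (t, v₀) →
      Tendsto (fun p : E × ℂ => (p.2, p.1)) (𝓝 (v₀, t)) (𝓝 (t, v₀)) := fun _ =>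
    continuous_swap.continuousAt
  have c1 := (isCompact_closedBall t₀ r).eventually_forall_of_forall_eventually (x₀ := v₀)
    (P := fun v t => AnalyticAt ℂ h (t, v)) fun t ht =>
      (sw (b ht).2.1).eventually (b ht).2.1.eventually_analyticAt
  have c2 := (isCompact_sphere t₀ r).eventually_forall_of_forall_eventually (x₀ := v₀)
    (P := fun v t => ‖h (s, v₀)‖ / 2 < ‖h (t, v)‖) fun t ht =>
      (sw (b (sphere_subset_closedBall ht)).2.1).eventually
        ((b (sphere_subset_closedBall ht)).2.1.continuousAt.norm.eventually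
          (lt_mem_nhds ((half_lt_self (by linarith)).trans_le (s2 ht))))
  have c3 : ∀ᶠ v in 𝓝 v₀, ‖h (t₀, v)‖ < ‖h (s, v₀)‖ / 2 :=
    (continuousAt_const.prodMk continuousAt_id).eventually (ha.continuousAt.norm.eventually
      (gt_mem_nhds (by simpa only [h0, norm_zero] using e0)))
  filter_upwards [c1, c2, c3] with v d1 d2 d3
  by_contra! k
  have k' : ∀ t ∈ closedBall t₀ r, h (t, v) ≠ 0 := fun t ht => k t (b ht).2.2
  have m := Complex.norm_le_of_forall_mem_frontier_norm_le (f := fun t => (h (t, v))⁻¹)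
    (U := ball t₀ r) isBounded_ball (DifferentiableOn.diffContOnCl (by
      rw [closure_ball _ hr.ne']
      exact fun t ht => ((sl (d1 t ht)).differentiableAt.inv (k' t ht)).differentiableWithinAt))
    (C := (‖h (s, v₀)‖ / 2)⁻¹) (fun t ht => by
      rw [frontier_ball _ hr.ne'] at ht
      exact (norm_inv _).trans_le (inv_anti₀ e0 (d2 t ht).le))
    (subset_closure (mem_ball_self hr))
  rw [norm_inv, inv_le_inv₀ (norm_pos_iff.2 (k' _ (mem_closedBall_self hr.le))) e0] at m
  exact d3.not_ge m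

end Vale.Agent.P287Q
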