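import Vale.Agent.P287Q.Us.TwDefs
import Vale.Agent.P287Q.Us.Hur
import Vale.Agent.P287Q.Pv.BlL
import Vale.Agent.P287Q.Cub.Rat0
import Vale.Agent.P287.Theta.PencilAlg
import Mathlib.RingTheory.Polynomial.GaussLemma
import Mathlib.RingTheory.Localization.Algebra

/-!
# Forms without common divisor: the zero set contains no germ of a hypersurface
-/

namespace Vale.Agent.P287Q

open Set Function Topology Filter P269 P269.Holo

namespace Nh0

attribute [local instance] Polynomial.algebra in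
open Polynomial in
/-- Polynomials without common divisor generate an ideal containing a nonzero constant. -/
theorem res {R K : Type} [CommRing R] [IsDomain R] [IsGCDMonoid R] (P : K → R[X])
    (h : ∀ D, (∀ k, D ∣ P k) → IsUnit D) : ∃ r : R, r ≠ 0 ∧ C r ∈ Ideal.span (range P) := by
  obtain ⟨_⟩ : Nonempty (NormalizedGCDMonoid R) := inferInstance
  let L := FractionRing R
  have := Polynomial.isLocalization (nonZeroDivisors R) L
  set I := (Ideal.span (range P)).map (algebraMap R[X] L[X]) with hI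
  obtain ⟨D', hD⟩ := (IsPrincipalIdealRing.principal I).principal
  obtain ⟨⟨D, m⟩, e⟩ := IsLocalization.surj ((nonZeroDivisors R).map C) D'
  have um := IsLocalization.map_units L[X] m
  have dv : ∀ k, algebraMap R[X] L[X] D ∣ algebraMap R[X] L[X] (P k) := fun k => by
    rw [← e, um.mul_right_dvd, ← Ideal.mem_span_singleton]
    exact hD.le (Ideal.mem_map_of_mem _ (Ideal.subset_span ⟨k, rfl⟩))
  have u1 : IsUnit D.primPart := h _ fun k =>
    D.isPrimitive_primPart.dvd_of_fraction_map_dvd_fraction_map (K := L)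
      ((_root_.map_dvd (algebraMap R[X] L[X]) D.primPart_dvd).trans (dv k))
  have c0 : D.content ≠ 0 := fun a => not_isUnit_zero (h 0 fun k => by
    have := dv k
    rw [content_eq_zero_iff.1 a, map_zero, zero_dvd_iff] at this
    exact zero_dvd_iff.2 (map_injective _ (FaithfulSMul.algebraMap_injective R L)
      (this.trans (Polynomial.map_zero _).symm)))
  have u2 : IsUnit D' := isUnit_of_mul_isUnit_left (by
    rw [e, D.eq_C_content_mul_primPart, map_mul]
    exact (IsLocalization.map_units L[X] (⟨_, _, mem_nonZeroDivisors_of_ne_zero c0, rfl⟩ :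
      (nonZeroDivisors R).map C)).mul (u1.map _))
  have h1 : algebraMap R[X] L[X] 1 ∈ I := by
    rw [hD, map_one]
    exact (Ideal.span_singleton_eq_top.2 u2).ge trivial
  obtain ⟨_, ⟨r, hr, rfl⟩, a⟩ := (IsLocalization.algebraMap_mem_map_algebraMap_iff
    ((nonZeroDivisors R).map C) L[X] _ _).1 h1
  exact ⟨r, nonZeroDivisors.ne_zero hr, by simpa using a⟩

variable {J K : Type} [Fintype J]

open MvPolynomial

/-- The substitution `x ↦ x + t ξ`. -/
noncomputable def sh (ξ : J → ℂ) : Polynomial (MvPolynomial J ℂ) →+* Polynomial (MvPolynomial J ℂ) :=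
  Polynomial.eval₂RingHom (eval₂Hom (Polynomial.C.comp C) fun j =>
    Polynomial.C (X j) + Polynomial.C (C (ξ j)) * Polynomial.X) Polynomial.X

omit [Fintype J] in
theorem sh_sh (ξ : J → ℂ) : (sh (-ξ)).comp (sh ξ) = RingHom.id _ :=
  Polynomial.ringHom_ext' (MvPolynomial.ringHom_ext (fun r => by simp [sh]) fun j => by
    simp [sh, add_assoc, ← add_mul]) (by simp [sh])

omit [Fintype J] in
theorem ev_sh (ξ v : J → ℂ) (t : ℂ) (p : MvPolynomial J ℂ) :
    Polynomial.eval₂RingHom (eval v) t (sh ξ (Polynomial.C p)) = eval (v + t • ξ) p := by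
  have : (Polynomial.eval₂RingHom (eval v) t).comp ((sh ξ).comp Polynomial.C) =
      MvPolynomial.eval (v + t • ξ) :=
    MvPolynomial.ringHom_ext (fun r => by simp [sh]) fun j => by simp [sh, mul_comm t]
  exact RingHom.congr_fun this p

theorem an_ev (p : MvPolynomial J ℂ) (y : J → ℂ) : AnalyticAt ℂ (fun z => eval z p) y :=
  analyticAt_pi_iff.1 (an_gv (fun _ : Unit => p) y) ()

theorem eq_zero {p : MvPolynomial J ℂ} {y : J → ℂ} (h : ∀ᶠ z in 𝓝 y, eval z p = 0) : p = 0 :=
  MvPolynomial.funext fun x => by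
    rw [map_zero]
    exact AnalyticOnNhd.eqOn_zero_of_preconnected_of_eventuallyEq_zero (fun z _ => an_ev p z)
      isPreconnected_univ (mem_univ y) h (mem_univ x)

theorem exists_dir {E : Type} [NormedAddCommGroup E] [NormedSpace ℂ E] {h : E → ℂ} {y : E}
    (ha : AnalyticAt ℂ h y) (hn : ¬∀ᶠ z in 𝓝 y, h z = 0) :
    ∃ ξ : E, ¬∀ᶠ t in 𝓝 (0 : ℂ), h (y + t • ξ) = 0 := by
  by_contra! k
  obtain ⟨ε, hε, b⟩ := Metric.nhds_basis_ball.eventually_iff.1 ha.eventually_analyticAt
  refine hn (mem_of_superset (Metric.ball_mem_nhds y hε) fun z hz => ?_)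
  have cv : Convex ℝ {t : ℂ | y + t • (z - y) ∈ Metric.ball y ε} := by
    have := ((convex_ball y ε).translate_preimage_right y).linear_preimage
      ((LinearMap.toSpanSingleton ℂ E (z - y)).restrictScalars ℝ)
    exact this
  have := AnalyticOnNhd.eqOn_zero_of_preconnected_of_eventuallyEq_zero
    (f := fun t : ℂ => h (y + t • (z - y)))
    (fun t ht => (b ht).comp_of_eq (by fun_prop) rfl) cv.isPreconnected (z₀ := 0)
    (show y + (0 : ℂ) • (z - y) ∈ Metric.ball y ε by simpa using hε) (k _) (x := 1)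
    (show y + (1 : ℂ) • (z - y) ∈ Metric.ball y ε by simpa using hz)
  simpa using this

/-- The common zeros of polynomials without common divisor contain no hypersurface germ. -/
theorem key [Nonempty J] {f : K → MvPolynomial J ℂ} (hf : ∀ d, (∀ k, d ∣ f k) → IsUnit d)
    {y : J → ℂ} {h : (J → ℂ) → ℂ} (ha : AnalyticAt ℂ h y) (h0 : h y = 0) :
    ¬∀ᶠ z in 𝓝 y, h z = 0 → ∀ k, eval z (f k) = 0 := by
  intro a
  have ne : ¬∀ k, f k = 0 := fun b => not_isUnit_zero (hf 0 fun k => by rw [b k])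
  obtain ⟨ξ, hξ⟩ := exists_dir ha fun b =>
    ne fun k => eq_zero ((a.and b).mono fun z c => c.1 c.2 k)
  obtain ⟨r, r0, hr⟩ := res (fun k => sh ξ (Polynomial.C (f k))) fun D hD => by
    have dv : ∀ k, sh (-ξ) D ∣ Polynomial.C (f k) := fun k =>
      (_root_.map_dvd (sh (-ξ)) (hD k)).trans (RingHom.congr_fun (sh_sh ξ) _).dvd
    obtain ⟨k, hk⟩ := not_forall.1 ne
    have e := Polynomial.eq_C_of_natDegree_eq_zero (Nat.le_zero.1
      ((Polynomial.natDegree_le_of_dvd (dv k) (Polynomial.C_ne_zero.2 hk)).trans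
        (Polynomial.natDegree_C _).le))
    have u : IsUnit (sh (-ξ) D) := e ▸ (hf _ fun k => Polynomial.coeff_C_zero (a := f k) ▸
      (Polynomial.C_dvd_iff_dvd_coeff _ _).1 (e ▸ dv k) 0).map Polynomial.C
    have := u.map (sh ξ)
    rwa [← RingHom.comp_apply, ← neg_neg ξ, neg_neg (-ξ), sh_sh] at this
  have ct : ContinuousAt (fun p : ℂ × (J → ℂ) => p.2 + p.1 • ξ) (0, y) := by fun_prop
  have a' : ∀ᶠ p : ℂ × (J → ℂ) in 𝓝 (0, y), h (p.2 + p.1 • ξ) = 0 →
      ∀ k, eval (p.2 + p.1 • ξ) (f k) = 0 := ct.eventually (by simpa using a)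
  obtain ⟨U, hU, V, hV, b⟩ := mem_nhds_prod_iff.1 a'
  have := hur (h := fun p : ℂ × (J → ℂ) => h (p.2 + p.1 • ξ)) (t₀ := 0) (v₀ := y)
    (ha.comp_of_eq (analyticAt_snd.add (analyticAt_fst.smul analyticAt_const)) (by simp)) (by simpa using h0) hξ U hU
  refine r0 (eq_zero (y := y) ?_)
  filter_upwards [this, hV] with v ⟨t, ht, c⟩ hv
  have := Ideal.span_le.2 (range_subset_iff.2 fun k => (RingHom.mem_ker
    (f := Polynomial.eval₂RingHom (eval v) t)).2
      ((ev_sh ξ v t (f k)).trans (b (mk_mem_prod ht hv) c k))) hr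
  simpa [RingHom.mem_ker] using this

end Nh0

open MvPolynomial in
theorem nh0 : NH0 := by
  intro n e K _ g hg ⟨k₀, h₀⟩
  classical
  have : IsGCDMonoid (MvPolynomial (Fin (n + 1)) ℂ) := ⟨UniqueFactorizationMonoid.toGCDMonoid _⟩
  obtain ⟨_⟩ : Nonempty (NormalizedGCDMonoid (MvPolynomial (Fin (n + 1)) ℂ)) := inferInstance
  obtain ⟨f, e1, e2⟩ := Finset.univ.extract_gcd g ⟨k₀, Finset.mem_univ _⟩
  set c := Finset.univ.gcd g
  replace e1 := fun k => e1 k (Finset.mem_univ k)
  obtain ⟨m, hm⟩ := P287.Theta.homog_of_mul (e1 k₀ ▸ hg k₀) (e1 k₀ ▸ h₀)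
  have hom : ∀ k, (f k).IsHomogeneous (e - m) := fun k => by
    by_cases a : c * f k = 0
    · rw [(mul_eq_zero.1 a).resolve_left (left_ne_zero_of_mul (e1 k₀ ▸ h₀))]
      exact isHomogeneous_zero _ _ _
    · obtain ⟨l, rfl, b⟩ := P287.Theta.degree_le_of_mul hm (e1 k ▸ hg k) a
      rwa [Nat.add_sub_cancel_left]
  refine ⟨gv f, fun y _ => .of_an (an_gv f y), ⟨fun _ => (e - m : ℕ), fun t _ y _ => ?_⟩,
    fun y hy h ⟨Φ, a, b⟩ h0 k => ?_, fun y _ => ⟨eval y c, funext fun k => ?_⟩⟩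
  · funext k
    rw [Fintype.prod_unique, zpow_natCast]
    exact Cub.Rat.eval_smul (hom k) (t ()) y
  · have o : ∀ᶠ z in 𝓝 y, z ∈ (Pn n).A :=
      mem_of_superset (isOpen_ne.mem_nhds (mem_Ust_unit.1 hy)) fun z => mem_Ust_unit.2
    refine Nh0.key (f := f) (fun d hd => isUnit_of_dvd_one (e2 ▸ Finset.dvd_gcd fun k _ => hd k)) a
      ((b.self_of_nhds hy).symm.trans h0) ?_
    filter_upwards [o, b, k] with z z1 z2 z3 z4
    exact congrFun (z3 z1 ((z2 z1).trans z4))
  · simp only [gv, Pi.smul_apply, smul_eq_mul, ← map_mul, ← e1]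

end Vale.Agent.P287Q
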