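import Vale.Agent.P287Q.Us.TwDefs
import Vale.Agent.P287Q.Us.Hur
import Vale.Agent.P287Q.Pv.Bl
import Vale.Agent.P287Q.H1.An1

/-!
# Division of a holomorphic lift by the equation of the exceptional divisor
-/

set_option linter.unusedSectionVars false

namespace Vale.Agent.P287Q

open Set Function Topology Filter P269 P269.Holo Asymptotics

section abs

variable {W P K : Type} [NormedAddCommGroup W] [NormedSpace ℂ W] [NormedAddCommGroup P]
  [NormedSpace ℂ P] [FiniteDimensional ℂ W] [FiniteDimensional ℂ P] [Fintype K]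
  {B : Set W} {e : W → ℂ} {w : W} {H H' : W → K → ℂ}

theorem nhs_id {V : Type} [NormedAddCommGroup V] [NormedSpace ℂ V] {f : P → V} {x : P}
    [CompleteSpace V] (hf : AnalyticAt ℂ f x) :
    (∀ᶠ z in 𝓝 x, f z = 0) ∨ ∀ᶠ z in 𝓝 x, ¬ ∀ᶠ z' in 𝓝 z, f z' = 0 := by
  obtain ⟨r, hr, h⟩ := Metric.eventually_nhds_iff_ball.1 hf.eventually_analyticAt
  refine or_iff_not_imp_right.2 fun k => ?_
  obtain ⟨z, z1, z2⟩ := ((not_eventually.1 k).and_eventually (Metric.ball_mem_nhds x hr)).exists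
  exact eventually_of_mem (Metric.ball_mem_nhds x hr)
    (AnalyticOnNhd.eqOn_zero_of_preconnected_of_eventuallyEq_zero h
      (convex_ball x r).isPreconnected z2 (not_not.1 z1))

theorem holOn_ev {V : Type} [NormedAddCommGroup V] [NormedSpace ℂ V] [CompleteSpace V]
    {f : W → V} (h : HolOn B f w) : ∀ᶠ s in 𝓝 w, HolOn B f s :=
  let ⟨Φ, h1, h2⟩ := h
  (h1.eventually_analyticAt.and h2.eventually_nhds).mono fun _ a => ⟨Φ, a.1, a.2⟩

theorem holOn_smul {f : W → ℂ} (hf : HolOn B f w) (h : HolOn B H w) :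
    HolOn B (fun s => f s • H s) w :=
  let ⟨Φ, h1, h2⟩ := hf
  let ⟨Ψ, h3, h4⟩ := h
  ⟨fun s => Φ s • Ψ s, h1.smul h3, by
    filter_upwards [h2, h4] with s a b c
    rw [a c, b c]⟩

variable (P) in
/-- `e` is a reduced equation of a connected smooth hypersurface of `B` -/
structure Hy (B : Set W) (e : W → ℂ) : Prop where
  hol : ∀ w ∈ B, HolOn B e w
  par : ∀ w ∈ B, e w = 0 → ∃ (Ψ : ℂ × P → W) (x : P), Prm B Ψ (0, x) ∧ Ψ (0, x) = w ∧
    ∀ᶠ q in 𝓝 (0, x), e (Ψ q) = q.1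
  conn : IsPreconnected {w | w ∈ B ∧ e w = 0}

namespace Hy

variable (h : Hy P B e)
include h

theorem freq (hw : w ∈ B) : ∃ᶠ s in 𝓝 w, s ∈ B ∧ e s ≠ 0 := by
  intro k
  have k' : ∀ᶠ s in 𝓝 w, s ∈ B → e s = 0 := k.mono fun s a b => not_not.1 fun c => a ⟨b, c⟩
  obtain ⟨Ψ, x, a, rfl, b⟩ := h.par w hw (k'.self_of_nhds hw)
  have c : ∀ᶠ t : ℂ in 𝓝 0, t = 0 :=
    ((continuousAt_id.prodMk continuousAt_const).eventually
      (((a.ev (p := fun s => e s = 0)).2 k').and b)).mono fun t d => d.2.symm.trans d.1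
  exact (eventually_nhdsWithin_of_eventually_nhds (s := {0}ᶜ) c).and self_mem_nhdsWithin
    |>.exists.elim fun t d => d.2 d.1

theorem ext (hw : w ∈ B) (h1 : HolOn B H w) (h2 : HolOn B H' w)
    (k : ∀ᶠ s in 𝓝 w, s ∈ B → e s ≠ 0 → H s = H' s) : H w = H' w := by
  have : (𝓝 w ⊓ 𝓟 {s | s ∈ B ∧ e s ≠ 0}).NeBot := frequently_iff_neBot.1 (h.freq hw)
  have l : 𝓝 w ⊓ 𝓟 {s | s ∈ B ∧ e s ≠ 0} ≤ 𝓝 w ⊓ 𝓟 B :=
    inf_le_inf_left _ (principal_mono.2 fun _ a => a.1)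
  exact tendsto_nhds_unique_of_eventuallyEq ((h1.tendsto hw).mono_left l)
    ((h2.tendsto hw).mono_left l) (eventually_inf_principal.2 (k.mono fun _ a b => a b.1 b.2))

theorem div (h1 : ∀ w ∈ B, HolOn B H w) (h2 : ∀ w ∈ B, e w = 0 → H w = 0) :
    ∃ H' : W → K → ℂ, (∀ w ∈ B, HolOn B H' w) ∧ ∀ w ∈ B, H w = e w • H' w := by
  have k : ∀ w ∈ B, ∃ G : W → K → ℂ, HolOn B G w ∧ ∀ᶠ s in 𝓝 w, s ∈ B → H s = e s • G s := by
    intro w hw
    by_cases h0 : e w = 0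
    · obtain ⟨Ψ, x, a, rfl, b⟩ := h.par w hw h0
      obtain ⟨g, g1, g2⟩ := exists_div (a.holOn_iff.1 (h1 _ hw))
      obtain ⟨ω, w1, w2, w3, -⟩ := a.exists_inv
      refine ⟨fun s => g (ω s), .of_an (AnalyticAt.comp (by rwa [w2]) w1),
        (a.ev (p := fun s => H s = e s • g (ω s))).1 ?_⟩
      filter_upwards [w3, b, ((tendsto_inr 0 x).comp (continuousAt_snd
        (p := ((0 : ℂ), x)))).eventually (a.mem.and b)] with q c1 c2 c3
      rw [c1, c2, g2 q, show H (Ψ (0, q.2)) = 0 from h2 _ c3.1 c3.2, zero_add]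
    · refine ⟨fun s => (e s)⁻¹ • H s, holOn_smul ((h.hol w hw).comp_an hw (analyticAt_inv h0))
        (h1 w hw), ((h.hol w hw).ev hw (p := fun t => t ≠ 0) (isOpen_ne.mem_nhds h0)).mono
          fun s a b => (smul_inv_smul₀ (a b) _).symm⟩
  choose! G g1 g2 using k
  refine ⟨fun w => G w w, fun w hw => (g1 w hw).congr ?_, fun w hw => (g2 w hw).self_of_nhds hw⟩
  filter_upwards [holOn_ev (g1 w hw), (g2 w hw).eventually_nhds] with s a b hs
  refine h.ext hs (g1 s hs) a ?_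
  filter_upwards [b, g2 s hs] with z c d z1 z2
  exact smul_right_injective _ z2 ((d z1).symm.trans (c z1))

theorem ident (h1 : ∀ w ∈ B, HolOn B H w) (hw : w ∈ B) (h0 : e w = 0)
    (k : ∀ᶠ s in 𝓝 w, s ∈ B → e s = 0 → H s = 0) : ∀ w ∈ B, e w = 0 → H w = 0 := by
  intro w' hw' h0'
  let U : Set W := {w | ∀ᶠ s in 𝓝 w, s ∈ B → e s = 0 → H s = 0}
  let U' : Set W := {w | ∀ᶠ s in 𝓝 w, s ∈ B → e s = 0 → s ∉ U}
  have c : ∀ s ∈ B, e s = 0 → s ∈ U ∪ U' := by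
    intro s hs s0
    obtain ⟨Ψ, x, a, rfl, b⟩ := h.par s hs s0
    have t := continuousAt_snd (p := ((0 : ℂ), x))
    rcases nhs_id ((a.holOn_iff.1 (h1 _ hs)).comp (f := fun z => (0, z))
      (analyticAt_const.prod analyticAt_id)) with d | d
    · refine .inl ((a.ev (p := fun s => e s = 0 → H s = 0)).1 ?_)
      filter_upwards [b, t.eventually d] with q c1 c2 c3
      rw [show q = (0, q.2) from Prod.ext (c1.symm.trans c3) rfl]
      exact c2
    · refine .inr ((a.ev (p := fun s => e s = 0 → s ∉ U)).1 ?_)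
      filter_upwards [b, t.eventually d, a.an.eventually_analyticAt,
        (a.mem.and b).eventually_nhds] with q c1 c2 c3 c4 c5 c6
      rw [show q = (0, q.2) from Prod.ext (c1.symm.trans c5) rfl] at c3 c4 c6
      refine c2 ?_
      filter_upwards [(tendsto_inr 0 q.2).eventually (c4.and (c3.continuousAt.eventually c6))]
        with z d1 using d1.2 d1.1.1 d1.1.2
  rcases c w' hw' h0' with d | d
  · exact Eventually.self_of_nhds (p := fun s => s ∈ B → e s = 0 → H s = 0) d hw' h0'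
  · obtain ⟨s, s1, s2, s3⟩ := h.conn U U' isOpen_setOfPred_eventually_nhds
      isOpen_setOfPred_eventually_nhds
      (fun s a => c s a.1 a.2) ⟨w, ⟨hw, h0⟩, k⟩ ⟨w', ⟨hw', h0'⟩, d⟩
    exact (Eventually.self_of_nhds (p := fun s => s ∈ B → e s = 0 → s ∉ U) s3 s1.1 s1.2 s2).elim

theorem max (h1 : ∀ w ∈ B, HolOn B H w) (h2 : ∀ w ∈ B, ¬ ∀ᶠ s in 𝓝 w, s ∈ B → H s = 0) :
    ∃ (m : ℕ) (H' : W → K → ℂ), (∀ w ∈ B, HolOn B H' w) ∧ (∀ w ∈ B, H w = e w ^ m • H' w) ∧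
      ∀ w ∈ B, e w = 0 → ¬ ∀ᶠ s in 𝓝 w, s ∈ B → e s = 0 → H' s = 0 := by
  by_contra! k
  have k1 : ∀ m : ℕ, ∃ H' : W → K → ℂ, (∀ w ∈ B, HolOn B H' w) ∧
      ∀ w ∈ B, H w = e w ^ m • H' w := by
    intro m
    induction m with
    | zero => exact ⟨H, h1, fun w _ => by rw [pow_zero, one_smul]⟩
    | succ m ih =>
      obtain ⟨G, g1, g2⟩ := ih
      obtain ⟨w, w1, w2, w3⟩ := k m G g1 g2
      obtain ⟨G', g3, g4⟩ := h.div g1 (h.ident g1 w1 w2 w3)
      exact ⟨G', g3, fun w hw => by rw [g2 w hw, g4 w hw, smul_smul, pow_succ]⟩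
  obtain ⟨w, hw, h0, -⟩ := k 0 H h1 fun w _ => by rw [pow_zero, one_smul]
  obtain ⟨Ψ, x, a, rfl, b⟩ := h.par w hw h0
  refine h2 _ hw ((a.ev (p := fun s => H s = 0)).1 ?_)
  refine (eventually_all.2 fun i => H1.zero_of_ord
    (analyticAt_pi_iff.1 (a.holOn_iff.1 (h1 _ hw)) i) fun m => ?_).mono fun q c => funext c
  obtain ⟨G, g1, g2⟩ := k1 m
  have c1 : (fun q : ℂ × P => q.1 ^ m) =O[𝓝 (0, x)] fun q => ‖q - (0, x)‖ ^ m :=
    (IsBigO.of_bound 1 (.of_forall fun q => by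
      simpa using norm_fst_le (q - ((0 : ℂ), x)))).pow m
  refine (c1.mul ((analyticAt_pi_iff.1 (a.holOn_iff.1 (g1 _ hw)) i).continuousAt.tendsto.isBigO_one
    ℝ)).congr' ?_ (.of_forall fun q => mul_one _)
  filter_upwards [a.mem, b] with q c2 c3
  rw [g2 _ c2, c3]
  rfl

/-- a hypersurface contained in `e = 0` is equal to it -/
theorem hyp {f : W → ℂ} (hw : w ∈ B) (h1 : HolOn B f w) (h0 : f w = 0)
    (k : ∀ᶠ s in 𝓝 w, s ∈ B → f s = 0 → e s = 0) : ∀ᶠ s in 𝓝 w, s ∈ B → e s = 0 → f s = 0 := by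
  obtain ⟨Ψ, x, a, rfl, b⟩ := h.par w hw (k.self_of_nhds hw h0)
  have k1 : ∀ᶠ q in 𝓝 ((0 : ℂ), x), f (Ψ q) = 0 → q.1 = 0 := by
    filter_upwards [(a.ev (p := fun s => f s = 0 → e s = 0)).2 k, b] with q c d f0
    exact d.symm.trans (c f0)
  have k2 := k1
  rw [nhds_prod_eq, eventually_prod_iff] at k2
  obtain ⟨U, u1, V, v1, k2⟩ := k2
  have k3 := hur (a.holOn_iff.1 h1) h0 (fun c => by
    have c' : ∀ᶠ t : ℂ in 𝓝 0, t = 0 := (c.and u1).mono fun t d => k2 d.2 v1.self_of_nhds d.1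
    exact (eventually_nhdsWithin_of_eventually_nhds (s := {0}ᶜ) c').and self_mem_nhdsWithin
      |>.exists.elim fun t d => d.2 d.1) _ u1
  refine (a.ev (p := fun s => e s = 0 → f s = 0)).1 ?_
  filter_upwards [b, (continuousAt_snd (p := ((0 : ℂ), x))).eventually (k3.and v1)] with q c d e0
  obtain ⟨⟨t, t1, t2⟩, d⟩ := d
  rw [show q = (t, q.2) from Prod.ext ((c.symm.trans e0).trans (k2 t1 d t2).symm) rfl]
  exact t2

end Hy

end abs

variable {n : ℕ} {Y : Var n} (c : Ctr Y)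

theorem Ctr.hy (h : BLC) :
    Hy ((Fin (n - c.m) → ℂ) × (Fin (c.m + Fintype.card Y.R) → ℂ)) c.bl.A (blE c.g) := by
  refine ⟨fun w => holOn_blE, fun w hw h0 => ?_, ?_⟩
  · obtain ⟨Ψ, a, b, rfl, -, d⟩ := c.cut.exists_par Y.pv c.pv hw h0
    have s : ∀ q, AnalyticAt ℂ (fun p : ℂ × (Fin (n - c.m) → ℂ) ×
        (Fin (c.m + Fintype.card Y.R) → ℂ) => (p.2.1, p.1, p.2.2)) q := fun _ =>
      (analyticAt_fst.comp analyticAt_snd).prod
        (analyticAt_fst.prod (analyticAt_snd.comp analyticAt_snd))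
    exact ⟨fun p => Ψ (p.2.1, p.1, p.2.2), (a, 0), Prm.comp_inv (ψ := Ψ) (z := (0, a, 0))
      (v := fun p => (p.2.1, p.1, p.2.2)) b (s _) ((analyticAt_fst.comp analyticAt_snd).prod
        (analyticAt_fst.prod (analyticAt_snd.comp analyticAt_snd)))
      (.of_forall fun _ => rfl) (.of_forall fun _ => rfl), rfl,
      (s (0, a, 0)).continuousAt.eventually d⟩
  · have := (h _ _ _ Y.π Y.A c.C c.C c.δ c.g n c.m Y.pv c.pv (by have := c.cod; omega) c.cut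
      c.cut.sub c.conn).isPreconnected
    rwa [show {w | w ∈ blA Y.A c.g ∧ w ∘ Sum.inl ∈ c.C} = {w | w ∈ blA Y.A c.g ∧ blE c.g w = 0}
      from Set.ext fun w => and_congr_right fun a => (c.cut.blE_zero a).symm] at this

theorem Ctr.nh_off {K : Type} [Fintype K] {F : (Y.J → ℂ) → K → ℂ} (hF : NH Y.A F)
    {F' : (c.bl.J → ℂ) → K → ℂ} (e : ∀ w ∈ c.bl.A, F' w = 0 → F (w ∘ Sum.inl) = 0)
    {w : c.bl.J → ℂ} (hw : w ∈ c.bl.A) (h0 : blE c.g w ≠ 0) {f : (c.bl.J → ℂ) → ℂ}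
    (h1 : HolOn c.bl.A f w) (h2 : f w = 0) : ¬ ∀ᶠ z in 𝓝 w, z ∈ c.bl.A → f z = 0 → F' z = 0 := by
  intro k
  have g0 : gv c.g (w ∘ Sum.inl) ≠ 0 := mt (blE_zero hw).2 h0
  let σ : (Y.J → ℂ) → c.bl.J → ℂ := fun y => Sum.elim y ((blE c.g w)⁻¹ • gv c.g y)
  have s0 : σ (w ∘ Sum.inl) = w := by
    simp only [σ]
    rw [blE_spec hw, inv_smul_smul₀ h0, Sum.elim_comp_inl_inr]
  have s1 : AnalyticAt ℂ σ (w ∘ Sum.inl) :=
    an_elim analyticAt_id (analyticAt_const.fun_smul (an_gv _ _))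
  have s2 : ∀ᶠ y in 𝓝 (w ∘ Sum.inl), y ∈ Y.A → σ y ∈ c.bl.A :=
    ((an_gv c.g _).continuousAt.eventually_ne g0).mono fun y a b =>
      (mem_blA_off a).2 ⟨b, _, inv_ne_zero h0, rfl⟩
  refine hF _ hw.1 (fun y => f (σ y)) (HolOn.comp (s0.symm ▸ h1) (.of_an s1) hw.1 s2)
    (by rw [s0, h2]) ?_
  filter_upwards [s2, s1.continuousAt.eventually (s0.symm ▸ k)] with y a b y1 y2
  exact e _ (a y1) (b (a y1) y2)

theorem nhs (h : BLC) : NHS := fun n Y K _ G F c hF => by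
  have hy := c.hy h
  have h1 : ∀ w ∈ c.bl.A, HolOn c.bl.A (fun w => F (w ∘ Sum.inl)) w := fun w hw =>
    HolOn.comp (F := fun w : c.bl.J → ℂ => w ∘ Sum.inl) (hF.hol _ hw.1) (.of_an (an_pre Sum.inl w)) hw
      (.of_forall fun _ a => a.1)
  obtain ⟨m, F', f1, f2, f3⟩ := hy.max h1 fun w hw k => by
    obtain ⟨s, s1, s2⟩ := ((hy.freq hw).and_eventually k.eventually_nhds).exists
    exact c.nh_off hF.nh (F' := fun w => F (w ∘ Sum.inl)) (fun _ _ => id) s1.1 s1.2 (f := 0)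
      (.of_an analyticAt_const) rfl (s2.mono fun _ a b _ => a b)
  obtain ⟨d, hd⟩ := hF.eqv
  refine ⟨F', f1, ⟨fun o => o.elim m fun r => d r - m * c.δ r, fun t ht w hw => ?_⟩,
    fun w hw f g1 g2 k => ?_, fun w hw => ?_⟩
  · obtain ⟨t1, t2⟩ := unit_option.1 ht
    refine hy.ext hw (H := fun s => F' (scl _ t s)) ((f1 _ (c.pv'.inv t ht w hw)).comp
      (.of_an (an_scl analyticAt_const analyticAt_id)) hw (.of_forall fun s => c.pv'.inv t ht s))
      (holOn_smul (.of_an analyticAt_const) (f1 w hw)) (.of_forall fun s s1 s2 => ?_)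
    have e1 := f2 _ (c.pv'.inv t ht s s1)
    rw [blE_scl c.cut.hom ht s1, scl_blP_inl, hd _ t1 _ s1.1, f2 s s1, smul_smul] at e1
    have e2 : (cha c.δ (t ∘ some) / t none * blE c.g s) ^ m ≠ 0 :=
      pow_ne_zero _ (mul_ne_zero (div_ne_zero (cha_ne t1) t2) s2)
    refine smul_right_injective _ e2 (e1.symm.trans ?_)
    have e3 : (∏ r, t (some r) ^ (d r - m * c.δ r)) * cha c.δ (t ∘ some) ^ m =
        ∏ r, (t ∘ some) r ^ d r := by
      rw [cha, ← Finset.prod_pow, ← Finset.prod_mul_distrib]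
      refine Finset.prod_congr rfl fun r _ => ?_
      rw [← zpow_natCast, ← zpow_mul, comp_apply, ← zpow_add₀ (unit_iff.1 ht _)]
      congr 1
      ring
    simp only [smul_smul, Fintype.prod_option, Option.elim, zpow_natCast]
    congr 1
    rw [← e3, mul_pow, div_pow]
    field_simp
  · by_cases k1 : ∀ᶠ s in 𝓝 w, s ∈ c.bl.A → f s = 0 → blE c.g s = 0
    · refine f3 w hw (k1.self_of_nhds hw g2) ?_
      filter_upwards [hy.hyp hw g1 g2 k1, k] with s a b s1 s2 using b s1 (a s1 s2)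
    · obtain ⟨s, s1, s2, s3⟩ := ((not_eventually.1 k1).and_eventually
        ((holOn_ev g1).and k.eventually_nhds)).exists
      push Not at s1
      exact c.nh_off hF.nh (fun w a b => by rw [f2 w a, b, smul_zero]) s1.1 s1.2.2 s2 s1.2.1 s3
  · obtain ⟨a, ha⟩ := hF.par _ hw.1
    exact ⟨a * blE c.g w ^ m, by rw [ha, f2 w hw, smul_smul]⟩

end Vale.Agent.P287Q
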