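import Vale.Agent.P287Q.Us.Gr
import Vale.Agent.P287Q.Us.Sct
import Vale.Agent.P287Q.Us.BlU
import Vale.Agent.P287Q.Us.NH0
import Vale.Agent.P287Q.Us.NHS
import Vale.Agent.P287Q.Us.BLC
import Vale.Agent.P287Q.Pv.Of
import Vale.Agent.P287Q.H1.PrincC

/-!
# Resolution of a rational map on projective space by a tower of blow-ups
-/

namespace Vale.Agent.P287Q

open Set Function Topology Filter MvPolynomial P269 P269.Holo H1 Asymptotics

variable {n e : ℕ} {K : Type} [Fintype K]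

theorem Qm.conn {J R M : Type} [Fintype J] [Fintype R] [TopologicalSpace M] {π : J → R}
    {A : Set (J → ℂ)} {q : (J → ℂ) → M} (h : Qm π A n q) {C : Set M} (hC : IsClosed C)
    (hc : IsConnected C) : IsConnected (A ∩ q ⁻¹' C) := by
  have a1 : IsQuotientMap fun y : A => q y :=
    IsOpenMap.isQuotientMap (isOpenMap_iff_nhds_le.2 fun y => by
      rw [← h.nh y y.2, ← map_nhds_subtype_val, map_map]; rfl)
      (continuousOn_iff_continuous_domRestrict.1 h.cont) fun p => let ⟨y, a, b⟩ := h.surj p; ⟨⟨y, a⟩, b⟩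
  rw [← Subtype.image_preimage_coe]
  refine (a1.isCoinducing.isConnected_preimage_of_isClosed (fun p => ?_) hC hc).image _
    continuous_subtype_val.continuousOn
  obtain ⟨y, a, rfl⟩ := h.surj p
  refine ⟨⟨⟨y, a⟩, rfl⟩, IsInducing.subtypeVal.isPreconnected_image.1 ?_⟩
  convert (isConnected_unit (R := R)).isPreconnected.image (fun t => P287Q.scl π t y)
    (continuous_scl.comp (continuous_id.prodMk continuous_const)).continuousOn
  ext z
  exact ⟨fun ⟨s, b, c⟩ => let ⟨t, d, k⟩ := (h.eq_iff _ a _ s.2).1 b.symm; ⟨t, d, k.symm.trans c⟩,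
    fun ⟨t, d, k⟩ => ⟨⟨_, h.pv.inv t d y a⟩, h.scl a d, k⟩⟩

/-- A lift does not vanish where the map is proportional to a holomorphic map without zero. -/
theorem Lift.ne_zero {W : Var n} {G F P : (W.J → ℂ) → K → ℂ} (h : Lift W G F)
    (hG : ∀ y, AnalyticAt ℂ G y) (g0 : ∃ y ∈ W.A, G y ≠ 0) {y : W.J → ℂ} (hy : y ∈ W.A)
    (hP : HolOn W.A P y) (h0 : P y ≠ 0) {s : (W.J → ℂ) → ℂ}
    (k : ∀ᶠ z in 𝓝 y, z ∈ W.A → ∀ i, G z i = s z * P z i) : F y ≠ 0 := fun hF => by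
  obtain ⟨i, hi⟩ := ne_iff.1 h0
  refine h.nh y hy (fun z => F z i) ((h.hol y hy).comp_an hy (an_cd _ i)) (congrFun hF i) ?_
  filter_upwards [k.eventually_nhds, holOn_ev hP,
    hP.ev hy (p := fun u => u i ≠ 0) ((continuous_apply i).continuousAt.eventually_ne hi)]
    with z a b c hz h1
  have t1 := (h.hol z hz).tendsto hz
  have t2 := b.tendsto hz
  have := tendsto_nhds_unique_of_frequently_eq ((tendsto_pi_nhds.1 t2 i).smul t1)
    ((tendsto_pi_nhds.1 t1 i).smul t2)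
    (((freq_ne W.conn.isPreconnected W.mfd (fun y _ => .of_an (hG y)) g0 hz).and_eventually
      ((eventually_nhdsWithin_iff.2 a).and self_mem_nhdsWithin)).mono fun u ⟨d1, d2, d3⟩ => by
        obtain ⟨r, d⟩ := h.par u d3
        refine funext fun j => mul_left_cancel₀ (left_ne_zero_of_smul (d ▸ d1 :)) ?_
        have e1 : s u * P u i = r * F u i := (d2 i).symm.trans (congrFun d i)
        have e2 : s u * P u j = r * F u j := (d2 j).symm.trans (congrFun d j)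
        simp only [Pi.smul_apply, smul_eq_mul]
        linear_combination P u j * e1 - P u i * e2)
  rw [h1, zero_smul] at this
  exact (smul_eq_zero.1 this).resolve_left (c hz)

variable (g : K → MvPolynomial (Fin (n + 1)) ℂ)

/-- The invariant: the manifold is a tower over projective space, and the local families are
proportional to the rational map. -/
def TwQ (X : Mf n) (f : X.M → K → X.M → ℂ) : Prop :=
  X.Γ = ∅ ∧ ∃ (Y : Var n) (ι : Ext Y (Pn n)) (q : _) (F : _), Of X Y.π Y.A q ∧ Tow (Pn n) Y ∧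
    ι.Bir ∧ Lift Y (fun y => gv g (y ∘ ι.iJ)) F ∧ ∀ y ∈ Y.A, ∃ s : (Y.J → ℂ) → ℂ,
      ∀ᶠ z in 𝓝 y, z ∈ Y.A → ∀ i, gv g (z ∘ ι.iJ) i = s z * f (q y) i (q z)

variable {g}

theorem TwQ.step {X : Mf n} {f : X.M → K → X.M → ℂ} {C : Set X.M} {c : ℕ} (h : TwQ g X f)
    (hC : X.Ctr C c) (hc : IsConnected C) : ∃ (X' : Mf n) (β : X'.M → X.M), Mf.IsBl β C ∧
      BijOn β (β ⁻¹' Cᶜ) Cᶜ ∧ ∀ f', Mf.WT β C f f' → TwQ g X' f' := by
  obtain ⟨hΓ, Y, ι, q, F, h1, h2, h3, h4, h5⟩ := h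
  rcases (Nat.succ_le_of_lt hC.pos).eq_or_lt with rfl | h0
  · refine ⟨X, id, Mf.isBl_one hC, bijOn_id _, fun f' hw => ⟨hΓ, Y, ι, q, F, h1, h2, h3, h4,
      fun y hy => ?_⟩⟩
    obtain ⟨s, a⟩ := h5 y hy
    obtain ⟨r, -, b⟩ := hw (q y)
    refine ⟨fun z => s z * r (q z), ?_⟩
    filter_upwards [a, (h1.ev hy).1 b] with z a b hz i
    rw [a hz i, mul_assoc, ← b hz i]; rfl
  · have hn : c ≤ n := by
      obtain ⟨p, hp⟩ := hC.ne
      obtain ⟨_, B, -, rfl, -⟩ := hC.sub p hp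
      simpa using B.card_le_univ
    have pv := h1.pv_ctr hC.closed hC.sub
    obtain ⟨k, δ, u, -, b1, b2, -⟩ := chow Y.J Y.R Empty Y.π 0 _ _ pv fun τ _ y hy => by
      rwa [Subsingleton.elim τ 1, tw_one]
    have cut := b1.restrict inter_subset_left Y.pv.sub
    have cn := blc _ _ _ Y.π _ _ Y.A δ u n _ Y.pv pv (by omega) cut Subset.rfl Y.conn
    let Z : Ctr Y := ⟨n - c, _, k, δ, u, by omega, pv, h1.conn hC.closed hc, cut, b2,
      cut.bl Y.pv pv, by convert cn using 1; exact ext fun w => ⟨fun a => ⟨a, a.1⟩, fun a => a.1⟩⟩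
    obtain ⟨X', q', β, c1, c2, c3, -, c4⟩ := h1.bl hC.closed hC.pos hC.sub cut
    obtain ⟨F', c5⟩ := nhs blc n Y K _ F Z h4
    refine ⟨X', β, c2, c3, fun f' hw => ⟨c2.empty hΓ, Z.bl, Z.down.comp ι, q', F', c1, h2.step Z,
      Z.down_bir.comp h3, c5, fun w hw' => ?_⟩⟩
    obtain ⟨s, a⟩ := h5 _ hw'.1
    obtain ⟨r, -, b⟩ := hw (q' w)
    refine ⟨fun z => s (z ∘ .inl) * r (q' z), ?_⟩
    filter_upwards [(an_pre Sum.inl w).continuousAt.eventually a, (c1.ev hw').1 b] with z a b hz i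
    rw [mul_assoc, ← b hz i, c4 z hz, c4 w hw']
    exact a hz.1 i

theorem TwQ.base (hg : ∀ k, (g k).IsHomogeneous e) (h0 : ∃ y ∈ (Pn n).A, gv g y ≠ 0) :
    ∃ X f, TwQ g X f ∧ X.Coh f := by
  obtain ⟨X, q, h1, hΓ⟩ := (Pn n).pv.exists_of (Pn n).conn.nonempty
  have a0 : ∀ p, ∃ j, ∀ y ∈ (Pn n).A, q y = p → y j ≠ 0 := fun p => by
    obtain ⟨y, a, rfl⟩ := h1.surj p
    obtain ⟨j, -, b⟩ := a ()
    refine ⟨j, fun z c d => ?_⟩
    obtain ⟨t, k, rfl⟩ := (h1.eq_iff _ a _ c).1 d.symm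
    exact mul_ne_zero (unit_iff.1 k _) b
  choose j hj using a0
  have a1 : ∀ l i, ∃ β : X.M → ℂ, ∀ y ∈ (Pn n).A, β (q y) = (y l)⁻¹ ^ e * gv g y i := fun l i =>
    h1.desc fun t ht y _ => by
      have := unit_iff.1 ht ()
      rw [scl_unit, gv_smul hg]
      simp only [Pi.smul_apply, smul_eq_mul, mul_inv, mul_pow, inv_pow]
      field_simp
  choose φ hφ using a1
  have ev : ∀ y ∈ (Pn n).A, ∀ᶠ z in 𝓝 y, z (j (q y)) ≠ 0 := fun y hy =>
    (continuous_apply _).continuousAt.eventually_ne (hj _ y hy rfl)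
  have a2 : ∀ y ∈ (Pn n).A, ∀ᶠ z in 𝓝 y, z ∈ (Pn n).A →
      ∀ i, gv g z i = z (j (q y)) ^ e * φ (j (q y)) i (q z) := fun y hy =>
    (ev y hy).mono fun z a hz i => by
      rw [hφ _ _ z hz, inv_pow, mul_inv_cancel_left₀ (pow_ne_zero _ a)]
  have a3 : ∀ l, ∀ y ∈ (Pn n).A, y l ≠ 0 →
      (sz (φ l) ∘ q) =Θ[𝓝[(Pn n).A] y] fun z => 1 * ∑ i, ‖gv g z i‖ := fun l y hy a => by
    refine EventuallyEq.trans_isTheta (f₂ := fun z => ‖(z l)⁻¹ ^ e‖ * ∑ i, ‖gv g z i‖)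
      (eventually_nhdsWithin_iff.2 (.of_forall fun z hz => ?_))
      ((isTheta_of_div_tendsto_nhds_ne_zero (c := ‖(y l)⁻¹ ^ e‖) ?_ ?_).symm.mul isTheta_rfl)
    · simp only [comp, sz, hφ _ _ z hz, norm_mul, Finset.mul_sum]
    · simp only [div_one]
      exact (((continuous_apply l).continuousAt.inv₀ a).pow e).norm.tendsto.mono_left
        nhdsWithin_le_nhds
    · exact norm_ne_zero_iff.2 (pow_ne_zero _ (inv_ne_zero a))
  obtain ⟨F, hF⟩ := nh0 n e K g hg (by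
    obtain ⟨y, -, a⟩ := h0
    obtain ⟨k, b⟩ := ne_iff.1 a
    exact ⟨k, fun c => b (by simp [gv, c])⟩)
  refine ⟨X, fun p => φ (j p), ⟨hΓ, Pn n, .refl _, q, F, h1, .refl, Ext.bir_refl _, hF,
    fun y hy => ⟨_, a2 y hy⟩⟩, fun p i => ?_, fun p => ?_, by simp [hΓ], h1.reg ▸ subset_univ _,
    fun p k => ?_⟩ <;> obtain ⟨y, hy, rfl⟩ := h1.surj p
  · exact (h1.an_iff' hy).2 ((HolOn.of_an ((((an_cd y _).inv (hj _ y hy rfl)).pow e).mul
      (an_eval (g i) y))).congr (.of_forall fun z hz => hφ _ _ z hz))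
  · refine (h1.ev hy).2 ((ev y hy).mono fun z a hz => ?_)
    have := (a3 _ z hz (hj _ z hz rfl)).trans (a3 _ z hz a).symm
    rw [← h1.nh z hz]
    exact ⟨isBigO_map.2 this.1, isBigO_map.2 this.2⟩
  · refine freq_ne (Pn n).conn.isPreconnected (Pn n).mfd (fun y _ => .of_an (an_gv g y)) h0 hy
      (eventually_nhdsWithin_iff.2 ?_)
    filter_upwards [a2 y hy, (h1.ev hy).1 k] with z a b hz c
    exact c (funext fun i => by rw [a hz i, b hz i, mul_zero]; rfl)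

/-- **Resolution of a rational map on projective space.** -/
theorem exists_tow (hg : ∀ k, (g k).IsHomogeneous e) (h0 : ∃ y ∈ (Pn n).A, gv g y ≠ 0) :
    ∃ (W : Var n) (ι : Ext W (Pn n)) (F : _), Tow (Pn n) W ∧ ι.Bir ∧
      Lift W (fun y => gv g (y ∘ ι.iJ)) F ∧ ∀ y ∈ W.A, F y ≠ 0 := by
  obtain ⟨X₀, f₀, a1, a2⟩ := TwQ.base hg h0
  obtain ⟨X, f, ⟨-, Y, ι, q, F, h1, h2, h3, h4, h5⟩, hc, hz⟩ := princC n K (TwQ g) (fun _ _ h => h.1)
    (fun X f C c h _ hC k _ => let ⟨X', β, b1, b2, b3⟩ := h.step hC k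
      ⟨X', β, b1, b2, fun f' hw _ => b3 f' hw⟩) X₀ f₀ a1 a2
  refine ⟨Y, ι, F, h2, h3, h4, fun y hy => ?_⟩
  obtain ⟨s, a⟩ := h5 y hy
  obtain ⟨μ, G, d, σ, b1, -, b3, b4⟩ := h3
  obtain ⟨x, c1, c2, c3⟩ := exists_ne_ne (Pn n).conn.isPreconnected (Pn n).mfd
    (fun y _ => .of_an (b1.an y)) b4 (fun y _ => .of_an (an_gv g y)) h0
  exact h4.ne_zero (fun y => an_gv' (an_pre _ y))
    ⟨σ x, b3.mem _ ⟨c1, c2⟩, (b3.inv _ ⟨c1, c2⟩).symm ▸ c3⟩ hy
    (.pi fun i => (h1.an_iff' hy).1 (hc.an _ i))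
    (fun k => (eq_empty_iff_forall_notMem.1 hz (q y)) fun i => congrFun k i) a

end Vale.Agent.P287Q
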