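import Vale.Agent.P287Q.Us.Sct
import Vale.Agent.P287Q.Us.BLC
import Vale.Agent.P287Q.Pv.DetG
import Vale.Agent.P287Q.Pv.Gauss
import Vale.Agent.P287Q.Wg.Prd

/-!
# Sections lift to the graph of the map of Gauss
-/

set_option linter.unusedSectionVars false

namespace Vale.Agent.P287Q

open Set Function Topology Filter Module P269 P269.Holo P269.Vir

variable {J J₀ R R₀ I : Type} [Fintype J] [Fintype J₀] [Fintype R] [Fintype R₀] [Fintype I]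
  [DecidableEq R] [DecidableEq R₀]

section trs

variable {π₀ : J₀ → R₀} {A₀ : Set (J₀ → ℂ)} {w : J → R → ℤ} {Z : Set (J → ℂ)} {ι : J₀ → J}
  {ρ : R₀ → R} {M : R → R₀ → ℤ} {Φ : (J₀ → ℂ) → J → ℂ} {n : ℕ} {z : J → ℂ}

namespace Trs

variable (h : Trs π₀ A₀ w Z ι ρ M Φ)
include h

/-- The exact sequence of the tangent spaces. -/
theorem exact' (hs : A₀ ⊆ Ust π₀) (hm : ∀ y ∈ A₀, MfdAt A₀ (n + Fintype.card R₀) y)
    (hz : z ∈ Z) {V : Submodule ℂ (J → ℂ)} (hV : tn Z z ≤ V)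
    (hd : finrank ℂ V = n + Fintype.card R) :
    (∀ η, η ∈ Submodule.span ℂ (range (eulR w ρ z)) ↔ η ∈ V ∧ η ∘ ι = 0) ∧
      ∀ η', η' ∈ tn A₀ (z ∘ ι) ↔ ∃ η ∈ V, η ∘ ι = η' := by
  have hx := h.maps z hz
  obtain ⟨t, ht, e⟩ := h.orb z hz
  obtain ⟨Ψ, a, b⟩ := h.hol _ hx
  have t1 : t ∘ ρ = 1 := scl_inj (hs hx) (by
    rw [scl_one, ← congrArg (scl π₀ (t ∘ ρ)) (h.sec _ hx), ← h.tw_comp, ← e])
  have a' : AnalyticAt ℂ (fun s => tw w t (Ψ s)) (z ∘ ι) := (an_tw' w t _).comp a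
  let D := fderiv ℂ (fun s => tw w t (Ψ s)) (z ∘ ι)
  have d1 : ∀ v ∈ tn A₀ (z ∘ ι), D v ∈ tn Z z := fun v hv => by
    have := fderiv_map_tn (A' := Z) (hm _ hx) a'
      (b.mono fun s c d => c d ▸ h.inv t ht _ (h.mem s d)) hv
    rwa [← b.self_of_nhds hx, ← e] at this
  have d2 : ∀ v ∈ tn A₀ (z ∘ ι), D v ∘ ι = v := fun v hv => by
    have a2 : AnalyticAt ℂ (fun s => tw w t (Ψ s) ∘ ι) (z ∘ ι) := (an_pre ι _).comp a'
    have := hv _ (a2.fun_sub analyticAt_id) (b.mono fun s c d => by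
      rw [← c d, h.tw_comp, t1, scl_one, h.sec s d]; exact sub_self _)
    rwa [fderiv_fun_sub a2.differentiableAt differentiableAt_id, fderiv_id,
      fderiv_comp_an (an_pre ι _) a', _root_.sub_apply, sub_eq_zero,
      ContinuousLinearMap.comp_apply, fderiv_pre] at this
  have d3 : ∀ c : {r // r ∉ range ρ} → ℂ, (∑ r, c r • eulR w ρ z r) ∘ ι = 0 := fun c =>
    funext fun j => (Finset.sum_apply _ _ _).trans (Finset.sum_eq_zero fun r _ =>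
      mul_eq_zero_of_right _ (congrFun (h.eul_comp z r) j))
  let Θ := (Fintype.linearCombination ℂ (eulR w ρ z)).coprod
    (D.toLinearMap ∘ₗ (tn A₀ (z ∘ ι)).subtype)
  have θ : ∀ c v, Θ (c, v) = ∑ r, c r • eulR w ρ z r + D v.1 := fun _ _ => rfl
  have θ' : ∀ c v, Θ (c, v) ∘ ι = v.1 := fun c v =>
    (congrArg₂ (· + ·) (d3 c) (d2 _ v.2)).trans (zero_add _)
  have i : Injective Θ := LinearMap.ker_eq_bot.1 (LinearMap.ker_eq_bot'.2 fun ⟨c, v⟩ f => by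
    obtain rfl : v = 0 := Subtype.ext ((θ' c v).symm.trans (congrArg (· ∘ ι) f))
    rw [θ, ZeroMemClass.coe_zero, map_zero, add_zero] at f
    exact Prod.ext (funext (Fintype.linearIndependent_iff.1 (h.li hz) c f)) rfl)
  have r : LinearMap.range Θ = V := Submodule.eq_of_le_of_finrank_eq (by
    rintro _ ⟨⟨c, v⟩, rfl⟩
    rw [θ, h.sum_eul]
    exact hV (add_mem (h.inv.lie_mem_tn hz _) (d1 _ v.2))) (by
      rw [LinearMap.finrank_range_of_inj i, hd, finrank_prod, finrank_tn (hm _ hx),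
        finrank_fintype_fun_eq_card, ← h.card_eq]
      ring)
  subst r
  refine ⟨fun η => (Submodule.mem_span_range_iff_exists_fun ℂ).trans ⟨fun ⟨c, f⟩ => f ▸
    ⟨⟨(c, 0), by rw [θ, ZeroMemClass.coe_zero, map_zero, add_zero]⟩, d3 c⟩, ?_⟩,
    fun η' => ⟨fun f => ⟨_, ⟨(0, ⟨η', f⟩), rfl⟩, θ' _ _⟩, ?_⟩⟩
  · rintro ⟨⟨⟨c, v⟩, rfl⟩, f⟩
    obtain rfl : v = 0 := Subtype.ext ((θ' c v).symm.trans f)
    exact ⟨c, by rw [θ, ZeroMemClass.coe_zero, map_zero, add_zero]⟩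
  · rintro ⟨_, ⟨⟨c, v⟩, rfl⟩, rfl⟩
    exact θ' c v ▸ v.2

/-- From the base to the torsor. -/
theorem up' (hs : A₀ ⊆ Ust π₀) (hm : ∀ y ∈ A₀, MfdAt A₀ (n + Fintype.card R₀) y)
    (hZ : ∀ z ∈ Z, MfdAt Z (n + Fintype.card R) z) {γ : R₀ → ℤ}
    (hD : Det π₀ A₀ (n + Fintype.card R₀) γ) :
    PlE (Fin (n + Fintype.card R)) (fun t : {t : R → ℂ // IsUnit t} => tw w t.1) Z
      (fun t j => ∏ r, t.1 r ^ w j r) (tn Z) fun t => ∏ r, t.1 (ρ r) ^ γ r := by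
  have e : Fintype.card ({r // r ∉ range ρ} ⊕ Fin (n + Fintype.card R₀)) = n + Fintype.card R := by
    rw [Fintype.card_sum, Fintype.card_fin, ← h.card_eq]
    ring
  have x := fun z hz => h.exact' hs hm hz le_rfl (finrank_tn (hZ z hz))
  have t0 : ∀ (t : {t : R → ℂ // IsUnit t}) j, ∏ r, t.1 r ^ w j r ≠ 0 := fun t j =>
    Finset.prod_ne_zero_iff.2 fun r _ => zpow_ne_zero _ (unit_iff.1 t.2 r)
  have h₁ : PlE {r // r ∉ range ρ} (fun t : {t : R → ℂ // IsUnit t} => tw w t.1) Z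
      (fun t j => ∏ r, t.1 r ^ w j r) (fun z => Submodule.span ℂ (range (eulR w ρ z))) fun _ => 1 :=
    ⟨fun z => mn (eulR w ρ z), fun z a => isPl_mn (h.li a) rfl,
      fun s z _ => .of_an (an_mn s z), fun t z _ s => (mul_one _).trans (mn_tw _ z s)⟩
  have h₂ : PlE (Fin (n + Fintype.card R₀)) (fun t : {t : R → ℂ // IsUnit t} => tw w t.1) Z
      (fun t j => t.1 (ρ (π₀ j))) (fun z => tn A₀ (z ∘ ι)) fun t => ∏ r, t.1 (ρ r) ^ γ r :=
    hD.pull (· ∘ ι) (fun t => ⟨t.1 ∘ ρ, unit_iff.2 fun _ => unit_iff.1 t.2 _⟩)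
      (fun z _ => .of_an (an_pre ι z)) h.maps (fun t z _ => h.tw_comp _ z) (fun _ _ => rfl)
      (fun _ _ => rfl) fun _ => rfl
  refine (h₁.ext h₂ (locPl_tn (e.symm ▸ hZ)) ι (fun t j => ?_) t0 (fun t => h.inv _ t.2)
    (fun t z _ => tn_diag (t0 t) (h.inv _ t.2) fun s a => ?_) (fun z a => (x z a).1)
    (fun z a => (x z a).2) fun _ => (one_mul _).symm).reindex (e.trans (Fintype.card_fin _).symm)
  · simp only [h.wt, prod_sgl]
  · simp only [← Finset.prod_inv_distrib, ← inv_zpow]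
    exact h.inv _ (unit_inv t.2) s a

end Trs

end trs

variable {π₀ : J₀ → R₀} {π : J → R} {A Z : Set (J → ℂ)} {O : Set (J₀ → ℂ)} {i : J₀ → J}
  {ρ : R₀ → R} {s : (J₀ → ℂ) → J → ℂ} {P : (J → ℂ) → Set (I → ℂ)} {n : ℕ}

theorem gau_char {a b : R → ℤ} (h : ∀ t : R → ℂ, IsUnit t → ∏ r, t r ^ a r = ∏ r, t r ^ b r) :
    a = b := funext fun r => by
  have e : ∀ c : R → ℤ, ∏ x, update (1 : R → ℂ) r 2 x ^ c x = 2 ^ c r := fun c => by
    rw [Finset.prod_eq_single r (fun x _ f => by simp [f]) (by simp), update_self]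
  have := h (update 1 r 2) (unit_iff.2 fun x => by by_cases f : x = r <;> simp [f])
  rw [e, e] at this
  exact zpow_right_injective₀ (a := (2 : ℝ)) two_pos (by norm_num)
    (by simpa using congrArg (‖·‖) this)

theorem Sct.trs' (h : Sct π₀ π A i O s) (hO : O ⊆ Ust π₀)
    (hi : ∀ t, IsUnit t → ∀ y ∈ O, scl π₀ t y ∈ O) (hA : A ⊆ Ust π)
    (hi' : ∀ t, IsUnit t → ∀ y ∈ A, scl π t y ∈ A) (hn : O.Nonempty) (hρ : Injective ρ)
    (hb : ∀ j, π (i j) = ρ (π₀ j)) (hm : ∀ z ∈ A, z ∘ i ∈ O) :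
    ∃ M, Trs π₀ O (bw π) A i ρ M s := by
  obtain ⟨M, e⟩ := h.eqv
  refine ⟨M, hρ, fun j => by rw [bw, hb], hm, fun r => gau_char fun t a => ?_, h.mem, h.inv, h.hol,
    fun t a y b => by rw [tw_bw, e t a y b],
    fun z a => by simpa only [tw_bw, Orb] using h.orb z a (hm z a),
    fun t a y b => by rw [tw_bw]; exact hi' t a y b,
    fun t _ z a b => scl_inj (hA a) (by rw [← tw_bw, b, scl_one])⟩
  obtain ⟨y, b⟩ := hn
  have c := h.inv _ (hi t a y b)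
  rw [e t a y b, scl_comp hb, h.inv y b] at c
  exact (congrFun (scl_inj (hO b) c) r).trans (prod_sgl t r).symm

/-- Points of the graph over the same orbit. -/
theorem Ln.orb (h : Ln π A P) (hA : MC π A) {w w' : J ⊕ I → ℂ} (hw : w ∈ grA A P)
    (hw' : w' ∈ grA A P) (e : Orb π (w ∘ .inl) (w' ∘ .inl)) : Orb (blP I π) w w' := by
  obtain ⟨t, ht, e⟩ := e
  obtain ⟨c, hc, f⟩ := (h.mem_iff hw'.1 (e ▸ h.inv t ht _ hw.1 _ hw.2)).1 hw'.2
  refine ⟨fun o => o.elim c t, unit_option.2 ⟨ht, hc⟩, funext fun j => ?_⟩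
  rcases j with j | k
  exacts [congrFun e j, congrFun f k]

theorem Ln.conn (h : Ln π A P) (hA : MC π A) (hZ : Z ⊆ A) (hc : IsConnected Z) :
    IsConnected {w | w ∈ grA A P ∧ w ∘ .inl ∈ Z} := by
  refine ⟨?_, blc_gen hc.2 (fun y hy u hu a => (h.mc hA).cl _ a
    (mem_Ust_blP.2 ⟨hA.sub (hZ hy), hu⟩)) fun y hy => ?_⟩
  · obtain ⟨y, hy⟩ := hc.1
    obtain ⟨p, hp⟩ := h.nonempty (hZ hy)
    exact ⟨Sum.elim y p, ⟨hZ hy, hp⟩, hy⟩
  · obtain ⟨a, ha, e⟩ := h.line (hZ hy)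
    refine ⟨Submodule.span ℂ {a}, by simpa using ha, fun u => ⟨fun b => ?_, fun b => ⟨hZ hy, ?_⟩⟩⟩
    · obtain ⟨c, hc, f⟩ := (e u).1 b.2
      exact ⟨f ▸ smul_ne_zero hc ha, f ▸ Submodule.smul_mem _ _ (Submodule.mem_span_singleton_self a)⟩
    · obtain ⟨c, rfl⟩ := Submodule.mem_span_singleton.1 b.2
      exact (e _).2 ⟨c, left_ne_zero_of_smul b.1, rfl⟩

/-- An equivariant frame gives a section of the graph. -/
theorem Ln.sct (h : Ln π A P) (hA : MC π A) (hZ : Z ⊆ A) {f : (J → ℂ) → I → ℂ} {d : R → ℤ}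
    (h1 : ∀ y ∈ Z, HolOn Z f y) (h2 : ∀ y ∈ Z, f y ∈ P y)
    (h3 : ∀ t, IsUnit t → ∀ y ∈ Z, f (scl π t y) = (∏ r, t r ^ d r) • f y) :
    Sct π (blP I π) (grA A P) .inl Z fun y => Sum.elim y (f y) := by
  refine ⟨fun y hy => ((HolOn.of_an analyticAt_id).prod (h1 y hy)).comp_an
    (G := fun p : (J → ℂ) × (I → ℂ) => Sum.elim p.1 p.2) hy (analyticAt_pi_iff.2 ?_),
    fun y hy => ⟨hZ hy, h2 y hy⟩, fun _ _ => rfl,
    fun w hw hy => h.orb hA ⟨hZ hy, h2 _ hy⟩ hw (orb_refl _),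
    fun o => o.elim d fun r => Pi.single r 1, fun t ht y hy => ?_⟩
  · rintro (j | k)
    · exact analyticAt_pi_iff.1 analyticAt_fst j
    · exact analyticAt_pi_iff.1 analyticAt_snd k
  · rw [scl_blP, h3 t ht y hy]
    exact congrArg₂ Sum.elim (congrArg (fun a => scl π a y)
      (funext fun r => (prod_single t r).symm)) rfl

/-- **Sections lift to the graph of the map of Gauss.** -/
theorem Sct.gauss (h : Sct π₀ π A i O s) (hA : PV π A n) (hρ : Injective ρ)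
    (hb : ∀ j, π (i j) = ρ (π₀ j)) (hO : O ⊆ Ust π₀)
    (hi : ∀ t, IsUnit t → ∀ y ∈ O, scl π₀ t y ∈ O) (hn : O.Nonempty)
    (hm : ∀ x ∈ O, MfdAt O (n + Fintype.card R₀) x) {γ : R₀ → ℤ}
    (hD : Det π₀ O (n + Fintype.card R₀) γ) :
    ∃ s', Sct π₀ (blP _ π) (grA A (gsP π A (n + Fintype.card R))) (.inl ∘ i) O s' ∧
      ∀ x, s' x ∘ .inl = s x := by
  have hZ : ∀ z ∈ {w | w ∈ A ∧ w ∘ i ∈ O}, MfdAt {w | w ∈ A ∧ w ∘ i ∈ O} (n + Fintype.card R) z :=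
    fun z hz => h.mfdAt hρ hb hA.toMC hO hz.1 (hm _ hz.2)
  have iZ : ∀ t, IsUnit t → ∀ z ∈ {w | w ∈ A ∧ w ∘ i ∈ O}, scl π t z ∈ {w | w ∈ A ∧ w ∘ i ∈ O} :=
    fun t ht z hz => ⟨hA.inv t ht z hz.1, scl_comp hb t z ▸ hi _ (unit_comp ht ρ) _ hz.2⟩
  have mZ : ∀ x ∈ O, s x ∈ {w | w ∈ A ∧ w ∘ i ∈ O} := fun x hx =>
    ⟨h.mem x hx, (h.inv x hx).symm ▸ hx⟩
  obtain ⟨M, hT⟩ := (h.mono (C := {w | w ∈ A ∧ w ∘ i ∈ O}) subset_rfl (fun _ a => a.1) mZ).trs' hO hi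
    (fun _ a => hA.sub a.1) iZ hn hρ hb fun _ a => a.2
  obtain ⟨q, q1, q2, q3⟩ := hT.up' hO hm hZ hD
  simp only [tw_bw, prod_bw] at q3
  refine ⟨_, h.comp ((ln_gsP hA.toMC hA.mfd).sct hA.toMC (Z := {w | w ∈ A ∧ w ∘ i ∈ O})
    (fun _ a => a.1) (f := fun y => gm y (q y))
    (d := fun r => (n + Fintype.card R : ℕ) - extend ρ γ 0 r) (fun y hy => .pi fun σ => ?_)
    (fun y hy => ⟨q y, ?_, rfl⟩) fun t ht y hy => ?_) mZ iZ fun _ a _ => a.1, fun _ => rfl⟩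
  · exact (HolOn.of_an (Finset.analyticAt_fun_prod _ fun k _ => an_gmu _ y)).mulC (q2 _ y hy)
  · rw [← tn_congr ((ev_mem_of_sub (hA.mfd y hy.1) (hZ y hy) (.of_forall fun _ a => a.1)).mono
      fun _ a => ⟨fun b => b.1, a⟩)]
    exact q1 y hy
  · have t0 := unit_iff.1 ht
    have e : ∏ r, t (ρ r) ^ γ r = ∏ r, t r ^ extend ρ γ 0 r := by
      rw [← Finset.prod_subset (Finset.subset_univ (Finset.univ.image ρ)) fun r _ a => by
        rw [extend_apply' _ _ _ (by simpa using a), Pi.zero_apply, zpow_zero],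
        Finset.prod_image hρ.injOn]
      simp only [hρ.extend_apply]
    have g : ∏ r, t r ^ extend ρ γ 0 r ≠ 0 :=
      Finset.prod_ne_zero_iff.2 fun r _ => zpow_ne_zero _ (t0 r)
    have : q (scl π t y) = fun σ => (∏ r, t r ^ extend ρ γ 0 r)⁻¹ * ((∏ k, t (π (σ k))) * q y σ) :=
      funext fun σ => by rw [← q3 ⟨t, ht⟩ y hy σ, e, mul_comm (q _ _), inv_mul_cancel_left₀ g]
    funext σ
    rw [this, gm_smul, Pi.smul_apply, gm_scl, Pi.smul_apply, smul_eq_mul, smul_eq_mul, ← mul_assoc]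
    simp only [zpow_sub₀ (t0 _), Finset.prod_div_distrib, zpow_natCast, Finset.prod_pow]
    rw [div_eq_inv_mul]

/-- Open parts of `A × ℂ^I`. -/
theorem det_opnP (hA : PV π A n) {γ : R → ℤ} (hD : Det π A (n + Fintype.card R) γ)
    {O : Set (J ⊕ I → ℂ)} (hO : ∀ q ∈ O, ∀ᶠ s in 𝓝 q, s ∘ .inl ∈ A ↔ s ∈ O)
    (hi : ∀ t, IsUnit t → ∀ q ∈ O, scl (blP I π) t q ∈ O) {N : ℕ}
    (hN : N = n + Fintype.card R + Fintype.card I) :
    (∀ q ∈ O, MfdAt O N q) ∧ Det (blP I π) O N fun o => o.elim (Fintype.card I) γ := by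
  classical
  have hq : ∀ q ∈ O, q ∘ .inl ∈ A := fun q a => (hO q a).self_of_nhds.2 a
  have e : ∀ q ∈ O, ∀ᶠ s in 𝓝 q, s ∈ Wg.prd A univ ↔ s ∈ O := fun q a =>
    (hO q a).mono fun s b => (and_iff_left trivial).trans b
  have u : ∀ x : I → ℂ, MfdAt univ (Fintype.card I) x := fun x => by
    simpa using MfdAt.univ x
  have m : ∀ q ∈ O, MfdAt O N q := fun q a =>
    hN ▸ (Wg.mfdAt_prd (hA.mfd _ (hq q a)) (u _)).congr (e q a)
  have c : Fintype.card (I ⊕ Fin (n + Fintype.card R)) = N := by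
    rw [Fintype.card_sum, Fintype.card_fin, hN, add_comm]
  have tq : ∀ q ∈ O, ∀ v, v ∈ tn O q ↔ v ∘ .inl ∈ tn A (q ∘ .inl) := fun q a v => by
    rw [← tn_congr (e q a), Wg.mem_tn_prd (hA.mfd _ (hq q a)) (u _), tn_of_nhds univ_mem]
    exact and_iff_left trivial
  refine ⟨m, ?_⟩
  have h₁ : PlE I (fun t : {t : Option R → ℂ // IsUnit t} => scl (blP I π) t.1) O
      (fun t j => t.1 (blP I π j)) (fun _ => LinearMap.ker (LinearMap.funLeft ℂ ℂ Sum.inl))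
      fun t => ∏ _i : I, t.1 none :=
    plE_top (τ := .inr) Sum.inr_injective (fun _ _ η => ⟨fun a j b => by
      rcases j with j | k
      exacts [congrFun a j, (b ⟨k, rfl⟩).elim], fun a => funext fun j => a (.inl j) (by simp)⟩)
      fun _ => rfl
  have h₂ : PlE (Fin (n + Fintype.card R))
      (fun t : {t : Option R → ℂ // IsUnit t} => scl (blP I π) t.1) O
      (fun t j => t.1 (some (π j))) (fun q => tn A (q ∘ .inl)) fun t => ∏ r, t.1 (some r) ^ γ r :=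
    hD.pull (· ∘ .inl) (fun t => ⟨t.1 ∘ some, unit_comp t.2 _⟩)
      (fun z _ => .of_an (an_comp_crd _ z)) hq (fun _ _ _ => rfl) (fun _ _ => rfl)
      (fun _ _ => rfl) fun _ => rfl
  refine (h₁.ext h₂ (locPl_tn (c.symm ▸ m)) .inl (fun _ _ => rfl) (fun t _ => unit_iff.1 t.2 _)
    (fun t => hi _ t.2) (fun t z _ => tn_diag (fun _ => unit_iff.1 t.2 _) (hi _ t.2)
      (hi _ (unit_inv t.2))) (fun z a η => ?_) (fun z a η => ?_) fun t => ?_).reindex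
    (c.trans (Fintype.card_fin _).symm)
  · rw [tq z a]
    exact ⟨fun b => ⟨(show η ∘ Sum.inl = 0 from b) ▸ zero_mem _, b⟩, fun b => b.2⟩
  · exact ⟨fun b => ⟨Sum.elim η 0, (tq z a _).2 b, rfl⟩, fun ⟨v, b, f⟩ => f ▸ (tq z a v).1 b⟩
  · simp [Fintype.prod_option]

end Vale.Agent.P287Q
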