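import Vale.Agent.P287Q.Us.TwDefs
import Vale.Agent.P287Q.Us.Bir
import Vale.Agent.P287Q.Pv.Grp
import Vale.Agent.P287Q.Cub.Rat

/-!
# The graph of the resolved rational map
-/

set_option linter.unusedSectionVars false

namespace Vale.Agent.P287Q

open Set Function Topology Filter MvPolynomial P269 P269.Holo

variable {n : ℕ}

/-- A variety with one block. -/
abbrev oneV {K : Type} [Fintype K] [DecidableEq K] {A : Set (K → ℂ)} (h : PV (fun _ : K => ()) A n)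
    (c : IsConnected A) : Var n := { J := K, R := Unit, π := fun _ => (), A := A, pv := h, conn := c }

theorem scl_unit {K : Type} (t : Unit → ℂ) (x : K → ℂ) : scl (fun _ : K => ()) t x = t () • x := rfl

theorem frm_hom {K : Type} [Fintype K] {p : MvPolynomial K ℂ} {e : ℕ} (h : p.IsHomogeneous e) :
    Frm (fun _ : K => ()) (fun _ => e) fun x => eval x p :=
  ⟨an_eval p, fun t _ x => by rw [scl_unit, Cub.Rat.eval_smul h, Fintype.prod_unique]⟩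

theorem gv_smul {K L : Type} {g : L → MvPolynomial K ℂ} {e : ℕ} (h : ∀ i, (g i).IsHomogeneous e)
    (a : ℂ) (x : K → ℂ) : gv g (a • x) = a ^ e • gv g x :=
  funext fun i => Cub.Rat.eval_smul (h i) a x

theorem Frm.pre {Y : Var n} {m : ℕ} {X : Var m} (p : Ext Y X) {μ : X.R → ℕ} {G : (X.J → ℂ) → ℂ}
    (h : Frm X.π μ G) :
    Frm Y.π (fun r => ∑ r', Pi.single (M := fun _ => ℕ) (p.iR r') 1 r * μ r') fun y => G (y ∘ p.iJ) :=
  h.comp (d := fun r' => Pi.single (p.iR r') 1) (s := fun y => y ∘ p.iJ)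
    fun j => p.blk j ▸ frm_crd (p.iJ j)

theorem Var.van (V : Var n) {B B' : Type} [NormedAddCommGroup B] [NormedSpace ℂ B]
    [FiniteDimensional ℂ B] [NormedAddCommGroup B'] [NormedSpace ℂ B'] {G : (V.J → ℂ) → B'}
    {H : (V.J → ℂ) → B} (hG : ∀ y, AnalyticAt ℂ G y) (h0 : ∃ y ∈ V.A, G y ≠ 0)
    (hH : ∀ y ∈ V.A, HolOn V.A H y) (e : ∀ y ∈ V.A, G y ≠ 0 → H y = 0) : ∀ y ∈ V.A, H y = 0 :=
  let ⟨a, ha, h⟩ := h0
  ident_thm V.conn.2 V.mfd hH ha (eventually_nhdsWithin_iff.2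
    (((hG a).continuousAt.eventually_ne h).mono fun y k hy => e y hy k))

section graph

variable {W : Var n} {K : Type} [Fintype K] [DecidableEq K] {G F : (W.J → ℂ) → K → ℂ}

theorem Lift.ln (h : Lift W G F) (h0 : ∀ y ∈ W.A, F y ≠ 0) :
    Ln W.π W.A fun y => {p | ∃ c ≠ (0 : ℂ), p = c • F y} := by
  refine ⟨fun y hy => ?_, ?_⟩
  · obtain ⟨Φ, a, b⟩ := h.hol y hy
    exact ⟨Φ, a, b.self_of_nhds hy ▸ h0 y hy, b.mono fun s k hs p => k hs ▸ Iff.rfl⟩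
  · rintro t ht y hy _ ⟨c, hc, rfl⟩
    obtain ⟨d, e⟩ := h.eqv
    have := cha_ne (δ := d) ht
    exact ⟨c / cha d t, div_ne_zero hc this, by
      rw [e t ht y hy, smul_smul]
      exact congrArg (· • F y) (div_mul_cancel₀ c this).symm⟩

theorem Lift.conn (h : Lift W G F) :
    IsConnected (grA W.A fun y => {p | ∃ c ≠ (0 : ℂ), p = c • F y}) := by
  have c0 : IsConnected ({0}ᶜ : Set ℂ) := isConnected_compl_singleton_of_one_lt_rank (by simp) 0
  have c1 : ContinuousOn F W.A := fun y hy => (h.hol y hy).tendsto hy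
  have := (W.conn.prod c0).image (fun p => (Sum.elim p.1 (p.2 • F p.1) : W.J ⊕ K → ℂ))
    (continuousOn_pi.2 (Sum.rec (fun j => ((continuous_apply j).comp continuous_fst).continuousOn)
      fun k => (continuous_apply k).comp_continuousOn (continuousOn_snd.smul
        (c1.comp continuousOn_fst fun _ a => a.1))))
  convert this using 1
  ext w
  refine ⟨fun ⟨a, c, b, e⟩ => ⟨(_, c), ⟨a, b⟩, ?_⟩, ?_⟩
  · exact (congrArg _ e.symm).trans (Sum.elim_comp_inl_inr w)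
  · rintro ⟨p, a, rfl⟩
    exact ⟨a.1, p.2, a.2, rfl⟩

/-- The graph. -/
abbrev Lift.gr (h : Lift W G F) (h0 : ∀ y ∈ W.A, F y ≠ 0) : Var n :=
  { J := W.J ⊕ K, R := Option W.R, π := blP K W.π
    A := grA W.A fun y => {p | ∃ c ≠ (0 : ℂ), p = c • F y}
    pv := (h.ln h0).pv W.pv, conn := h.conn }

/-- The projection of the graph. -/
def Lift.down (h : Lift W G F) (h0 : ∀ y ∈ W.A, F y ≠ 0) : Ext (h.gr h0) W :=
  ⟨Sum.inl, some, Sum.inl_injective, Option.some_injective _, fun _ => rfl, fun _ h => h.1⟩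

theorem orb_elim {J R : Type} {π : J → R} {y : J → ℂ} {u : K → ℂ} {w : J ⊕ K → ℂ} {c : ℂ}
    (hc : c ≠ 0) (h : Orb π y (w ∘ .inl)) (e : w ∘ .inr = c • u) :
    Orb (blP K π) (Sum.elim y u) w := by
  obtain ⟨t, ht, h⟩ := h
  refine ⟨fun o => o.elim c t, Pi.isUnit_iff.2 ?_, funext ?_⟩
  · rintro (_ | r)
    exacts [hc.isUnit, Pi.isUnit_iff.1 ht r]
  · rintro (j | j)
    exacts [congrFun h j, congrFun e j]

theorem Lift.iso (h : Lift W G F) (h0 : ∀ y ∈ W.A, F y ≠ 0) : (h.down h0).Iso := by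
  obtain ⟨d, e⟩ := h.eqv
  refine ⟨fun y => Sum.elim y (F y), fun y hy => ?_, fun y hy => ⟨hy, 1, one_ne_zero,
    (one_smul _ _).symm⟩, fun _ _ => rfl, fun w ⟨_, c, hc, k⟩ _ =>
      orb_elim hc ⟨1, isUnit_one, (scl_one _).symm⟩ k,
    fun o => o.elim d fun r => Pi.single r 1, fun t ht y hy => funext ?_⟩
  · obtain ⟨Φ, a, b⟩ := h.hol y hy
    exact ⟨_, an_elim analyticAt_id a, b.mono fun s k hs => k hs ▸ rfl⟩
  · rintro (j | j)
    · refine congrArg (· * y j) ?_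
      exact ((Finset.prod_eq_single (W.π j) (fun r _ e => by simp [blP, e]) (by simp)).trans
        (by simp [blP])).symm
    · exact congrFun (e t ht y hy) j

theorem Lift.bir (h : Lift W G F) (h0 : ∀ y ∈ W.A, F y ≠ 0) {μ : W.R → ℕ}
    (hG : ∀ k, Frm W.π μ fun y => G y k) (h1 : ∃ y ∈ W.A, G y ≠ 0) : (h.down h0).Bir := by
  obtain ⟨y, hy, h1⟩ := h1
  obtain ⟨k, hk⟩ := ne_iff.1 h1
  let d : Option W.R → W.R → ℕ := fun o => o.elim μ fun r => Pi.single r 1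
  have c2 : ∀ j, Frm W.π (d (blP K W.π j)) fun x => (Sum.elim x (G x) : W.J ⊕ K → ℂ) j := by
    rintro (j | j)
    exacts [frm_crd j, hG j]
  have ne : ∀ x ∈ W.A, G x k ≠ 0 → ∃ c ≠ (0 : ℂ), G x = c • F x := fun x hx a =>
    let ⟨c, e⟩ := h.par x hx
    ⟨c, left_ne_zero_of_mul (congrFun e k ▸ a :), e⟩
  refine ⟨_, _, d, fun x => Sum.elim x (G x), hG k, c2, Sct.of_frm (d := d) c2
    (fun x hx => ⟨hx.1, ne x hx.1 hx.2⟩) (fun _ _ => rfl) (fun w ⟨a, c, hc, e⟩ hx => ?_), y, hy, hk⟩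
  obtain ⟨c', hc', e'⟩ := ne _ a hx.2
  refine orb_elim (div_ne_zero hc hc') ⟨1, isUnit_one, (scl_one _).symm⟩ (e.trans ?_)
  rw [show G (w ∘ (h.down h0).iJ) = _ from e', smul_smul, div_mul_cancel₀ c hc']

end graph

variable {F : MvPolynomial (Fin 6) ℂ} (b : Cub.Bir F)

theorem gv_zero {K L : Type} {g : L → MvPolynomial K ℂ} {e : ℕ} (h : ∀ i, (g i).IsHomogeneous e)
    (he : 0 < e) : gv g 0 = 0 := by
  have := gv_smul h 0 0
  rwa [zero_smul, zero_pow he.ne', zero_smul] at this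

theorem Cub.Bir.c_ex : ∃ y ∈ (Pn 4).A, eval y b.c ≠ 0 := by
  by_contra! h
  have := (conn_ne (Fin 5)).1
  refine b.c_ne (MvPolynomial.funext fun y => ?_)
  obtain ⟨a, ha⟩ := (conn_ne (Fin 5)).1
  exact ident_thm (A := univ) isPreconnected_univ (fun y _ => ⟨_, MfdAt.univ y⟩)
    (fun y _ => .of_an (an_eval b.c y)) (mem_univ a) (nhdsWithin_univ a ▸
      (isOpen_compl_singleton.eventually_mem ha).mono fun z hz => h z (mem_Ust_unit.2 hz)) y trivial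

/-- **The graph** of a lift without zeros is birational to the cubic. -/
theorem Cub.Bir.graph (h3 : F.IsHomogeneous 3) (pv : PV (fun _ : Fin 6 => ()) (Pub.cone F) 4)
    (cn : IsConnected (Pub.cone F)) {W : Var 4} {ι : Ext W (Pn 4)} (hι : ι.Bir)
    {f : (W.J → ℂ) → Fin 6 → ℂ} (h : Lift W (fun y => gv b.g (y ∘ ι.iJ)) f)
    (h0 : ∀ y ∈ W.A, f y ≠ 0) :
    ∃ (Γ : Var 4) (q : Ext Γ W) (p : Ext Γ (oneV pv cn)), q.Iso ∧ q.Bir ∧ p.Bir := by
  obtain ⟨μ, G, d, s, a1, a2, a3, a4⟩ := hι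
  obtain ⟨y₀, b1, b2, b3⟩ := (Pn 4).exists_ne_ne a1.an (an_eval b.c) a4 b.c_ex
  have b4 := b.g_ne (mem_Ust_unit.1 b1) b3
  have g0 : ∃ y ∈ W.A, gv b.g (y ∘ ι.iJ) ≠ 0 :=
    ⟨s y₀, a3.mem _ ⟨b1, b2⟩, (a3.inv _ ⟨b1, b2⟩).symm ▸ b4⟩
  have ga : ∀ y : W.J → ℂ, AnalyticAt ℂ (fun y => gv b.g (y ∘ ι.iJ)) y := fun y =>
    an_gv' (an_pre _ y)
  have ne : ∀ y ∈ W.A, gv b.g (y ∘ ι.iJ) ≠ 0 → ∃ c : ℂ, f y = c • gv b.g (y ∘ ι.iJ) :=
    fun y hy a =>
      let ⟨c, e⟩ := h.par y hy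
      ⟨c⁻¹, by rw [e, inv_smul_smul₀ (left_ne_zero_of_smul (e ▸ a :))]⟩
  have hon := W.van (H := fun y => eval (f y) F) ga g0
    (fun y hy => (h.hol y hy).comp_an hy (an_eval F _)) fun y hy a => by
      obtain ⟨c, e⟩ := ne y hy a
      rw [e, Cub.Rat.eval_smul h3, b.on, mul_zero]
  have pa := fun i j => W.van (H := fun y => gv b.h (f y) i * y (ι.iJ j) - gv b.h (f y) j * y (ι.iJ i))
    ga g0 (fun y hy => (((h.hol y hy).comp_an hy (an_gv b.h _)).prod (.of_an analyticAt_id)).comp_an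
      (G := fun p : (Fin 5 → ℂ) × (W.J → ℂ) => p.1 i * p.2 (ι.iJ j) - p.1 j * p.2 (ι.iJ i)) hy
      ((((an_cd _ i).comp analyticAt_fst).mul ((an_cd _ _).comp analyticAt_snd)).sub
        (((an_cd _ j).comp analyticAt_fst).mul ((an_cd _ _).comp analyticAt_snd))))
    fun y hy a => by
      obtain ⟨c, e⟩ := ne y hy a
      simp only [e, gv_smul b.h_hom, b.hg, Pi.smul_apply, smul_eq_mul, comp_apply]
      ring
  let p : Ext (h.gr h0) (oneV pv cn) := ⟨Sum.inr, fun _ => none, Sum.inr_injective,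
    fun _ _ _ => rfl, fun _ => rfl, fun w ⟨a, c, hc, e⟩ => e ▸ ⟨smul_ne_zero hc (h0 _ a), by
      rw [Cub.Rat.eval_smul h3, hon _ a, mul_zero]⟩⟩
  refine ⟨_, h.down h0, p, h.iso h0, h.bir h0 (fun k => (frm_hom (b.g_hom k)).pre ι) g0, ?_⟩
  have hh : ∀ j, Frm (fun _ : Fin 6 => ()) (fun _ => b.m) fun x => gv b.h x j := fun j =>
    frm_hom (b.h_hom j)
  let D : Option W.R → Unit → ℕ := fun o => o.elim 1 fun r _ => ∑ r', b.m * d r r'
  have c2 : ∀ j, Frm (fun _ : Fin 6 => ()) (D (blP (Fin 6) W.π j))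
      fun x => (Sum.elim (s (gv b.h x)) x : W.J ⊕ Fin 6 → ℂ) j := by
    rintro (j | j)
    exacts [(a2 j).comp (d := fun _ _ => b.m) hh, ⟨fun x => an_cd x j, fun t _ x => by simp [D, blP, scl]⟩]
  have m0 : ∀ x ∈ Pub.cone F, eval x b.c' * G (gv b.h x) ≠ 0 →
      gv b.h x ∈ {x | x ∈ (Pn 4).A ∧ G x ≠ 0} := fun x hx a =>
    ⟨mem_Ust_unit.2 (b.h_ne hx (left_ne_zero_of_mul a)), right_ne_zero_of_mul a⟩
  refine ⟨_, _, D, fun x => Sum.elim (s (gv b.h x)) x,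
    (frm_hom b.c'_hom).mul (a1.comp (d := fun _ _ => b.m) hh), c2,
    Sct.of_frm (d := D) c2 (fun x hx => ?_) (fun _ _ => rfl) (fun w ⟨a, c, hc, e⟩ hx => ?_),
    gv b.g y₀, ⟨b4, b.on y₀⟩, mul_ne_zero ?_ ?_⟩
  · have k := m0 x hx.1 hx.2
    obtain ⟨c, e⟩ := h.par _ (a3.mem _ k)
    have k1 := left_ne_zero_of_mul hx.2
    rw [a3.inv _ k, b.gh x hx.1.2] at e
    exact ⟨a3.mem _ k, c / eval x b.c', div_ne_zero (left_ne_zero_of_smul
      (e ▸ smul_ne_zero k1 hx.1.1 :)) k1, by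
        rw [div_eq_inv_mul, mul_smul]
        exact ((inv_smul_smul₀ k1 x).symm.trans (congrArg _ e) :)⟩
  · have k := m0 _ hx.1 hx.2
    obtain ⟨j, hj⟩ := ne_iff.1 (mem_Ust_unit.1 k.1)
    have e1 : gv b.h (w ∘ .inr) = c ^ b.m • gv b.h (f (w ∘ .inl)) := e ▸ gv_smul b.h_hom c _
    have e2 : (w ∘ .inl) ∘ ι.iJ = scl (fun _ => ())
        (fun _ => w (.inl (ι.iJ j)) / gv b.h (w ∘ .inr) j) (gv b.h (w ∘ .inr)) := funext fun i => by
      have := pa i j _ a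
      change w _ = _ / _ * _
      rw [div_mul_eq_mul_div, eq_div_iff hj, e1]
      simp only [Pi.smul_apply, smul_eq_mul, comp_apply] at this ⊢
      linear_combination (-c ^ b.m) * this
    have ht := unit_of_mem (π := fun _ => ()) (e2 ▸ ι.map _ a)
    obtain ⟨t, h1, h2⟩ := a3.orb _ a ⟨ι.map _ a, e2 ▸ (a1.ne_iff ht).2 k.2⟩
    refine orb_elim one_ne_zero ⟨t * _, h1.mul (unit_mon (d := d) ht), ?_⟩ (one_smul _ _).symm
    rw [scl_mul, ← frms_scl a2 ht]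
    exact h2.trans (congrArg (fun y => scl W.π t (s y)) e2)
  · intro e
    have := b.gh _ (b.on y₀)
    rw [e, zero_smul, b.hg, gv_smul b.g_hom] at this
    exact smul_ne_zero (pow_ne_zero _ b3) b4 this
  · rw [b.hg]
    exact (a1.ne_iff (t := fun _ => eval y₀ b.c) (unit_iff.2 fun _ => b3)).2 b2

end Vale.Agent.P287Q
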