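import Vale.Agent.P287Q.Us.WD
import Vale.Agent.P287Q.Us.Sct

/-!
# The master space from the embedded resolution of its singular model
-/

namespace Vale.Agent.P287Q

open Set Function Topology Filter MvPolynomial P269 P269.Holo

variable {n : ℕ} {Y X : Var n} {p : Ext Y X}

theorem ND.master (D : ND p) (hR : RES) (hF : D.StF) (hP : D.StP) (hM : D.StM) (hS : D.StS) :
    Nonempty (Master p) := by
  obtain ⟨⟨μ, f1⟩, ⟨ω, f2⟩, f3, f4, f5⟩ := hF
  obtain ⟨B, wt, iJ, iR, σ, b1, b2, b3, b4, b5, b6, b7, b8⟩ := hR _ _ _ _ (wπ Y X) (wW Y X) D.F μ ω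
    (ND.O Y X) D.U (n + 1) f1 f2 f3 f4 (fun _ a => a.1) (fun t ht => (f5 t ht).1)
    (fun _ => Iff.rfl) hP.conn (fun s hs => (hM s hs).1) fun s hs => (hM s hs).2
  have hU : ∀ t, IsUnit t → ∀ s ∈ D.U, scl (wπ Y X) t s ∈ D.U := fun t ht => (f5 t ht).2
  have hV : ∀ w ∈ B.A, w ∘ iJ ∈ D.V := b7
  have blk : ∀ j r, B.π j = iR r ↔ ∃ k, iJ k = j ∧ wπ Y X k = r := fun j r =>
    ⟨fun h => by
      obtain ⟨k, rfl⟩ := b5 j r h
      exact ⟨k, rfl, b3 ((b4 k).symm.trans h)⟩, by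
      rintro ⟨k, rfl, rfl⟩
      exact b4 k⟩
  have hz : ∀ w : B.J → ℂ, (∀ j, B.π j = B.π (iJ .τ) → j ≠ iJ .τ → w j = 0) ↔
      ∀ α, w (iJ (.z α)) = 0 := fun w =>
    ⟨fun h α => h _ ((b4 _).trans (b4 .τ).symm) fun e => (by cases b2 e), fun h j hj hn => by
      obtain ⟨k, rfl, hk⟩ := (blk j _).1 (hj.trans (b4 _))
      cases k <;> first | exact h _ | exact (hn rfl).elim | cases hk⟩
  have el : ∀ {I : Type} (u : I → wJ Y X), Sum.elim (iJ ∘ u) (iJ ∘ wab Y X) =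
      iJ ∘ Sum.elim u (wab Y X) := fun u => funext fun j => by cases j <;> rfl
  have u1 : IsUnit (1 : Y.R → ℂ) := isUnit_one
  refine ⟨{
    B := B
    wt := wt
    tinv := b1
    pX := ⟨iJ ∘ .x, iR ∘ .x, b2.comp fun _ _ => WJ.x.inj, b3.comp fun _ _ => WR.x.inj,
      fun j => b4 _, fun w hw => hP.mapX _ (hV w hw)⟩
    wtX := fun j => b6 _
    ab := iJ ∘ wab Y X
    ab_inj := b2.comp fun a b e => by cases a <;> cases b <;> first | rfl | cases e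
    ab_blk := fun j => ?_
    ab_X := fun ⟨r, e⟩ => by cases b3 (e.trans (b4 _))
    wta := b6 _
    wtb := b6 _
    μ := D.M
    G := D.G
    frm := D.fG
    ne := D.ne
    φ := fun q => σ (D.P0 q)
    gen := ?_
    iy := iJ ∘ .y
    ry := iR ∘ .y
    iy_inj := b2.comp fun _ _ => WJ.y.inj
    ry_inj := b3.comp fun _ _ => WR.y.inj
    iy_blk := fun j => b4 _
    ab_Y := fun ⟨r, e⟩ => by cases b3 (e.trans (b4 _))
    wtY := fun j => b6 _
    mapY := fun w hw hb => ⟨(hP.eq2 _ (hV w hw) hb).1, (hP.eq2 _ (hV w hw) hb).2.1⟩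
    ψ := fun q => σ (D.P2 (q ∘ .inl) 1 (q (.inr false)) (q (.inr true)) (q (.inr false)))
    snk := ?_
    jτ := iJ .τ
    wtτ := b6 _
    wtz := fun j hj hn => ?_
    χ := fun x => σ (D.P1 x 0 1 1 1)
    src := ?_
    src_b := fun x hx => ?_
    gen_τ := fun w hw hG => ?_ }⟩
  · refine (iff_of_eq (congrArg (B.π j = ·) (b4 .a))).trans ((blk j _).trans ⟨?_, ?_⟩)
    · rintro ⟨k, rfl, hk⟩
      cases k <;> first | exact ⟨true, rfl⟩ | exact ⟨false, rfl⟩ | cases hk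
    · rintro ⟨c, rfl⟩
      exact ⟨_, rfl, by cases c <;> rfl⟩
  · show Sct _ _ _ (Sum.elim (iJ ∘ _) _) _ _
    rw [el]
    exact hS.gen.comp b8 (fun q hq => hS.genU q hq.1 hq.2.1 hq.2.2) hU fun w hw _ => hV w hw
  · rw [el]
    exact hS.snk.comp b8 (fun q hq => hP.mem2 _ hq.1 _ _ _ _ isUnit_one hq.2 hq.2) hU
      fun w hw _ => hV w hw
  · obtain ⟨k, rfl, hk⟩ := (blk j _).1 (hj.trans (b4 _))
    rw [b6]
    cases k <;> first | rfl | exact (hn rfl).elim | cases hk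
  · have h1 : Sct (wπ Y X) B.π {w | w ∈ B.A ∧ ∀ j, B.π j = B.π (iJ .τ) → j ≠ iJ .τ → w j = 0} iJ
        (D.U ∩ {s | ∀ α, s (.z α) = 0}) σ := by
      simp only [hz]
      exact b8.inter {s | ∀ α, s (.z α) = 0}
    exact hS.src.comp h1 (fun x hx => ⟨hP.mem1 x hx 0 1 1 1 one_ne_zero one_ne_zero u1,
      fun α => zero_mul _⟩) (fun t ht s hs => ⟨hU t ht s hs.1, fun α => mul_eq_zero_of_right _
        (hs.2 α)⟩) fun w hw _ => ⟨hV w hw.1, (hz w).1 hw.2⟩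
  · refine (congrFun (b8.inv _ (hP.mem1 x hx 0 1 1 1 one_ne_zero one_ne_zero u1)) .b).trans ?_
    simp [ND.P1]
  · rw [hz]
    exact hS.tau _ (hV w hw) hG

end Vale.Agent.P287Q
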