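import Vale.Agent.P287Q.Pv.Of
import Vale.Agent.P287Q.Us.Sct

/-!
# Embedded resolution of multicones: the states, the step and the end
-/

set_option linter.unusedSectionVars false

namespace Vale.Agent.P287Q

open Set Function Topology Filter MvPolynomial P269 P269.Holo H1 H1.Mf

variable {J R K S : Type} [Fintype J] [Fintype R] [Fintype K] [Fintype S] {n : ℕ}

/-- A projective model of the state `X` over the product of projective spaces. -/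
structure ResSt (π : J → R) (wt : J → S → ℤ) (F : K → (J → ℂ) → ℂ) (O U : Set (J → ℂ)) (X : Mf n)
    (f : X.M → K → X.M → ℂ) (V : Set X.M) : Type 1 where
  /-- the fields -/
  J' : Type
  /-- the blocks -/
  R' : Type
  [fJ : Fintype J']
  [fR : Fintype R']
  [dJ : DecidableEq J']
  [dR : DecidableEq R']
  /-- the block of a field -/
  π' : J' → R'
  /-- the multicone -/
  A : Set (J' → ℂ)
  /-- the weights -/
  wt' : J' → S → ℤ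
  /-- the quotient map -/
  q : (J' → ℂ) → X.M
  /-- the old fields -/
  iJ : J → J'
  /-- the old blocks -/
  iR : R → R'
  /-- the section -/
  σ : (J → ℂ) → J' → ℂ
  of : Of X π' A q
  tinv : TInv wt' A
  act : ∀ τ, IsUnit τ → ∃ γ ∈ X.Γ, γ.source = univ ∧ ∀ y ∈ A, γ (q y) = q (tw wt' τ y)
  injJ : Injective iJ
  injR : Injective iR
  blk : ∀ j, π' (iJ j) = iR (π j)
  exa : ∀ j r, π' j = iR r → j ∈ range iJ
  wtJ : ∀ j, wt' (iJ j) = wt j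
  map : ∀ w ∈ A, w ∘ iJ ∈ Ust π
  sct : Sct π π' A iJ O σ
  zer : ∀ w ∈ A, q w ∈ zs f → ∀ k, F k (w ∘ iJ) = 0
  reg : ∀ w ∈ A, q w ∈ V ↔ w ∘ iJ ∈ U

attribute [instance] ResSt.fJ ResSt.fR ResSt.dJ ResSt.dR

namespace ResSt

variable {π : J → R} {wt : J → S → ℤ} {F : K → (J → ℂ) → ℂ} {O U : Set (J → ℂ)} {X : Mf n}
  {f : X.M → K → X.M → ℂ} {V C : Set X.M} {c : ℕ}

theorem tinv_ctr (s : ResSt π wt F O U X f V) (hC : X.Inv C) : TInv s.wt' (s.A ∩ s.q ⁻¹' C) := by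
  intro τ hτ y hy
  obtain ⟨γ, h1, h2, h3⟩ := s.act τ hτ
  refine ⟨s.tinv τ hτ y hy.1, ?_⟩
  rw [mem_preimage, ← h3 y hy.1]
  exact hC γ h1 _ (h2 ▸ mem_univ _) hy.2

theorem step (s : ResSt π wt F O U X f V) (hU : ∀ y, y ∈ U ↔ y ∈ O ∧ ∀ k, F k y = 0)
    (hC : X.Ctr C c) (hs : C ⊆ zs f) (hd : Disjoint C V) :
    ∃ (X' : Mf n) (β : X'.M → X.M), IsBl β C ∧ BijOn β (β ⁻¹' Cᶜ) Cᶜ ∧ Full β ∧
      ∀ f', WT β C f f' → Nonempty (ResSt π wt F O U X' f' (β ⁻¹' V)) := by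
  have h1 := s.of.pv_ctr hC.closed hC.sub
  obtain ⟨k, δ, g, ω, h2, -, h3⟩ := chow _ _ S s.π' s.wt' _ _ h1 (s.tinv_ctr hC.inv)
  have h4 : Cut s.π' s.A (s.A ∩ s.q ⁻¹' C) δ g := h2.restrict inter_subset_left s.of.pv.sub
  obtain ⟨X', q', β, a1, a2, a3, a4, a5⟩ := s.of.bl hC.closed hC.pos hC.sub h4
  have hT : TInv (Sum.elim s.wt' ω) (blA s.A g) :=
    tinv_bl s.tinv (fun y hy => ⟨_, s.of.pv.mfd y hy⟩) fun i => (h3 i).2
  refine ⟨X', β, a2, a3, a4, fun f' hw => ⟨{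
    J' := s.J' ⊕ Fin k, R' := Option s.R', π' := blP (Fin k) s.π', A := blA s.A g
    wt' := Sum.elim s.wt' ω, q := q', iJ := Sum.inl ∘ s.iJ, iR := some ∘ s.iR
    σ := fun x => Sum.elim (s.σ x) (gv g (s.σ x))
    of := a1, tinv := hT, act := fun τ hτ => ?_
    injJ := Sum.inl_injective.comp s.injJ
    injR := (Option.some_injective _).comp s.injR
    blk := fun j => congrArg some (s.blk j)
    exa := ?_
    wtJ := s.wtJ
    map := fun w hw => s.map _ hw.1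
    sct := s.sct.comp h4.sct (fun x hx => ⟨s.sct.mem x hx, fun h => ?_⟩) ?_ fun w hw _ => hw.1
    zer := fun w h1 h2 => s.zer _ h1.1 (a5 w h1 ▸ hw.zs_sub h2)
    reg := fun w h1 => by rw [mem_preimage, a5 w h1]; exact s.reg _ h1.1 }⟩⟩
  · obtain ⟨γ, b1, b2, b3⟩ := s.act τ hτ
    obtain ⟨γ', b4, b5⟩ := a1.exists_tw hT hτ
    refine ⟨γ'.toOpenPartialHomeomorph, a4 _ b5 b5.symm ⟨γ, b1, fun b _ => ⟨b2 ▸ mem_univ _, ?_⟩⟩,
      rfl, b4⟩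
    obtain ⟨w, hw, rfl⟩ := a1.surj b
    change β (γ' (q' w)) = _
    rw [b4 w hw, a5 _ (hT τ hτ w hw), a5 w hw, b3 _ hw.1]
    rfl
  · rintro (j | j) r h
    · obtain ⟨j₀, rfl⟩ := s.exa j r (Option.some_injective _ h)
      exact ⟨j₀, rfl⟩
    · exact absurd h (by simp [blP])
  · have b1 := s.zer _ h.1 (hs h.2)
    have b2 := s.sct.inv x hx
    refine disjoint_left.1 hd h.2 ((s.reg _ h.1).2 ?_)
    rw [b2] at b1 ⊢
    exact (hU x).2 ⟨hx, b1⟩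
  · exact fun t ht y hy => ⟨s.of.pv.inv t ht y hy.1, fun h => hy.2 ((h1.toMC.mem_iff ht).1 h)⟩

theorem fin (s : ResSt π wt F O U X f V) {d : ℕ} (hO : IsOpen O) (hOU : O ⊆ Ust π)
    (hUi : ∀ t, IsUnit t → ∀ y ∈ U, scl π t y ∈ U) (hU : ∀ y, y ∈ U ↔ y ∈ O ∧ ∀ k, F k y = 0)
    (hc : IsConnected U) (hm : ∀ y ∈ U, MfdAt U (d + Fintype.card R) y) (hC : X.Ctr C c)
    (hs : C ⊆ zs f) (hV : V ⊆ C) :
    ∃ (B : Var d) (wt' : B.J → S → ℤ) (iJ : J → B.J) (iR : R → B.R) (σ : (J → ℂ) → B.J → ℂ),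
      TInv wt' B.A ∧ Injective iJ ∧ Injective iR ∧ (∀ j, B.π (iJ j) = iR (π j)) ∧
      (∀ j r, B.π j = iR r → j ∈ range iJ) ∧ (∀ j, wt' (iJ j) = wt j) ∧
      (∀ w ∈ B.A, w ∘ iJ ∈ Ust π ∧ ∀ k, F k (w ∘ iJ) = 0) ∧ Sct π B.π B.A iJ U σ := by
  have hUO : U ⊆ O := fun y hy => ((hU y).1 hy).1
  have h1 := s.of.pv_ctr hC.closed hC.sub
  have h2 : Sct π s.π' s.A s.iJ U s.σ := s.sct.mono hUO Subset.rfl fun x hx => s.sct.mem x (hUO hx)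
  have h3 := h2.conn s.blk s.of.pv.inv hUi hc
  have h4 : {w | w ∈ s.A ∧ w ∘ s.iJ ∈ U} ⊆ s.A ∩ s.q ⁻¹' C :=
    fun w hw => ⟨hw.1, hV ((s.reg w hw.1).2 hw.2)⟩
  obtain ⟨w₀, h0⟩ := h3.1
  have h5 := h3.2.subset_connectedComponentIn h0 h4
  have h6 := h2.mfdAt s.injR s.blk s.of.pv.toMC (hUO.trans hOU) h0.1 (hm _ h0.2)
  have h7 : ∀ᶠ w in 𝓝 w₀, w ∈ s.A ∩ s.q ⁻¹' C ↔ w ∈ {w | w ∈ s.A ∧ w ∘ s.iJ ∈ U} := by
    filter_upwards [(an_comp_crd s.iJ w₀).continuousAt.eventually (hO.mem_nhds (hUO h0.2))]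
      with w hw
    exact ⟨fun h => ⟨h.1, (hU _).2 ⟨hw, s.zer w h.1 (hs h.2)⟩⟩, fun h => h4 h⟩
  have h8 : n - c = d := by
    have a1 := finrank_tn (h1.mfd w₀ (h4 h0))
    rw [tn_congr h7, finrank_tn h6] at a1
    omega
  have h9 := connectedComponentIn_subset (s.A ∩ s.q ⁻¹' C) w₀
  exact ⟨{ J := s.J', R := s.R', π := s.π', A := connectedComponentIn (s.A ∩ s.q ⁻¹' C) w₀
           pv := h8 ▸ h1.cmp w₀, conn := isConnected_connectedComponentIn_iff.2 (h4 h0) },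
    s.wt', s.iJ, s.iR, s.σ, (s.tinv_ctr hC.inv).cmp w₀, s.injJ, s.injR, s.blk, s.exa, s.wtJ,
    fun w hw => ⟨s.map w (h9 hw).1, s.zer w (h9 hw).1 (hs (h9 hw).2)⟩,
    h2.mono Subset.rfl (h9.trans inter_subset_left)
      fun x hx => h5 ⟨h2.mem x hx, (h2.inv x hx).symm ▸ hx⟩⟩

end ResSt

end Vale.Agent.P287Q
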