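import Vale.Agent.P287Q.Us.Defs

/-!
# The singular model of the master space (definitions) and embedded resolution (statement)
-/

set_option linter.unusedSectionVars false

namespace Vale.Agent.P287Q

open Set Function Topology Filter MvPolynomial P269 P269.Holo

/-- **Embedded resolution**: the open part `U` of the zero set of `F` is smooth, connected and
reduced; then it has a smooth equivariant compactification over the zero set. -/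
def RES : Prop := ∀ (J R K S : Type) [Fintype J] [Fintype R] [Fintype K] [Fintype S]
  [DecidableEq J] [DecidableEq R] (π : J → R) (wt : J → S → ℤ) (F : K → (J → ℂ) → ℂ)
  (μ : K → R → ℕ) (ω : K → S → ℤ) (O U : Set (J → ℂ)) (d : ℕ), (∀ k, Frm π (μ k) (F k)) →
  (∀ k τ, IsUnit τ → ∀ y, F k (tw wt τ y) = (∏ s, τ s ^ ω k s) * F k y) → (∃ k y, F k y ≠ 0) →
  IsOpen O → O ⊆ Ust π → (∀ t, IsUnit t → ∀ y ∈ O, scl π t y ∈ O) →
  (∀ y, y ∈ U ↔ y ∈ O ∧ ∀ k, F k y = 0) → IsConnected U →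
  (∀ y ∈ U, MfdAt U (d + Fintype.card R) y) →
  (∀ y ∈ U, ∀ v, (∀ k, fderiv ℂ (F k) y v = 0) → v ∈ tn U y) →
  ∃ (B : Var d) (wt' : B.J → S → ℤ) (iJ : J → B.J) (iR : R → B.R) (σ : (J → ℂ) → B.J → ℂ),
    TInv wt' B.A ∧ Injective iJ ∧ Injective iR ∧ (∀ j, B.π (iJ j) = iR (π j)) ∧
    (∀ j r, B.π j = iR r → j ∈ range iJ) ∧ (∀ j, wt' (iJ j) = wt j) ∧
    (∀ w ∈ B.A, w ∘ iJ ∈ Ust π ∧ ∀ k, F k (w ∘ iJ) = 0) ∧ Sct π B.π B.A iJ U σ

/-- The fields `x, z, τ, a, b, y, w`. -/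
inductive WJ (J Al J' R' : Type) : Type
  | x (j : J) | z (α : Al) | τ | a | b | y (j : J') | w (r : R')
  deriving DecidableEq, Fintype

/-- The blocks. -/
inductive WR (R R' : Type) : Type
  | x (r : R) | z | a | y (r : R')
  deriving DecidableEq, Fintype

/-- The equations. -/
inductive WK (K Al J J' R' K' : Type) : Type
  | qx (k : K) | zz (α β : Al) | tb (α : Al) | zy (α : Al) (j : J') | wb (r : R') | qy (k : K')
  | xy (j j' : J)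
  deriving Fintype

variable {n : ℕ} {Y X : Var n}

/-- Normalised birational data and equations of `X` and `Y`. -/
structure ND (p : Ext Y X) where
  /-- the common multidegree -/
  M : X.R → ℕ
  /-- the denominator -/
  G : (X.J → ℂ) → ℂ
  /-- the inverse map -/
  g : (X.J → ℂ) → Y.J → ℂ
  /-- a field in each block -/
  o : Sel Y.π
  fG : Frm X.π M G
  fg : ∀ j, Frm X.π M fun x => g x j
  go : ∀ x r, g x (o.1 r) = G x
  zero : ∀ x, G x = 0 → g x = 0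
  mem : ∀ x ∈ X.A, G x ≠ 0 → g x ∈ Y.A ∧ Orb X.π x (g x ∘ p.iJ)
  orb : ∀ y ∈ Y.A, G (y ∘ p.iJ) ≠ 0 → Orb Y.π (g (y ∘ p.iJ)) y
  ne : ∃ x ∈ X.A, G x ≠ 0
  /-- the number of equations of `X` -/
  kX : ℕ
  /-- their degree -/
  δX : X.R → ℤ
  /-- the equations of `X` -/
  QX : Fin kX → MvPolynomial X.J ℂ
  cutX : Cut X.π (Ust X.π) X.A δX QX
  posX : ∀ r, 0 < δX r
  /-- the number of equations of `Y` -/
  kY : ℕ
  /-- their degree -/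
  δY : Y.R → ℤ
  /-- the equations of `Y` -/
  QY : Fin kY → MvPolynomial Y.J ℂ
  cutY : Cut Y.π (Ust Y.π) Y.A δY QY
  posY : ∀ r, 0 < δY r

/-- The fields. -/
abbrev wJ (Y X : Var n) : Type := WJ X.J (Sel X.π) Y.J Y.R

/-- The blocks. -/
abbrev wR (Y X : Var n) : Type := WR X.R Y.R

/-- The block of a field. -/
def wπ (Y X : Var n) : wJ Y X → wR Y X
  | .x j => .x (X.π j)
  | .z _ => .z
  | .τ => .z
  | .a => .a
  | .b => .a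
  | .y j => .y (Y.π j)
  | .w r => .y r

/-- The weights. -/
def wW (Y X : Var n) : wJ Y X → Unit → ℤ
  | .x _ => 0
  | .z _ => 0
  | .τ => 1
  | .a => 1
  | .b => 0
  | .y _ => 0
  | .w _ => 1

/-- The fields `a` and `b`. -/
def wab (Y X : Var n) : Bool → wJ Y X
  | true => .a
  | false => .b

namespace ND

variable {p : Ext Y X} (D : ND p)

/-- The index set of the equations. -/
abbrev K : Type := WK (Fin D.kX) (Sel X.π) X.J Y.J Y.R (Fin D.kY)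

/-- Forms of multidegree `M` without common zero. -/
noncomputable def h (α : Sel X.π) (x : X.J → ℂ) : ℂ := ∏ r, x (α.1 r) ^ D.M r

/-- The equations. -/
noncomputable def F : D.K → (wJ Y X → ℂ) → ℂ
  | .qx k, s => eval (s ∘ .x) (D.QX k)
  | .zz α β, s => s (.z α) * D.h β (s ∘ .x) - s (.z β) * D.h α (s ∘ .x)
  | .tb α, s => s .τ * s .b * D.h α (s ∘ .x) - s (.z α) * D.G (s ∘ .x) * s .a
  | .zy α j, s =>
    s (.z α) * D.g (s ∘ .x) j * s (.w (Y.π j)) - s .τ * D.h α (s ∘ .x) * s (.y j)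
  | .wb r, s => s (.w r) * s .b - s (.y (D.o.1 r)) * s .a
  | .qy k, s => eval (s ∘ .y) (D.QY k)
  | .xy j j', s => if X.π j = X.π j' then
      s (.x j) * s (.y (p.iJ j')) - s (.x j') * s (.y (p.iJ j)) else 0

/-- The zero set. -/
def V : Set (wJ Y X → ℂ) := {s | s ∈ Ust (wπ Y X) ∧ ∀ k, D.F k s = 0}

/-- The open set. -/
def O (Y X : Var n) : Set (wJ Y X → ℂ) := {s | s ∈ Ust (wπ Y X) ∧ (s .τ ≠ 0 ∨ s .b ≠ 0)}

/-- The smooth part. -/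
def U : Set (wJ Y X → ℂ) := {s | s ∈ O Y X ∧ ∀ k, D.F k s = 0}

/-- The parametrisation of `τ ≠ 0`. -/
noncomputable def P1 (x : X.J → ℂ) (σ τ a : ℂ) (w : Y.R → ℂ) : wJ Y X → ℂ
  | .x j => x j
  | .z α => σ * D.h α x
  | .τ => τ
  | .a => a
  | .b => σ * D.G x * a / τ
  | .y j => σ * D.g x j * w (Y.π j) / τ
  | .w r => w r

/-- The parametrisation of `b ≠ 0`. -/
noncomputable def P2 (y : Y.J → ℂ) (t : X.R → ℂ) (σ a b : ℂ) : wJ Y X → ℂ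
  | .x j => scl X.π t (y ∘ p.iJ) j
  | .z α => σ * D.h α (scl X.π t (y ∘ p.iJ))
  | .τ => σ * D.G (scl X.π t (y ∘ p.iJ)) * a / b
  | .a => a
  | .b => b
  | .y j => y j
  | .w r => y (D.o.1 r) * a / b

/-- The section over `{G ≠ 0} × ℙ¹`. -/
noncomputable def P0 (q : X.J ⊕ Bool → ℂ) : wJ Y X → ℂ
  | .x j => q (.inl j)
  | .z α => q (.inr false) * D.h α (q ∘ .inl)
  | .τ => q (.inr true) * D.G (q ∘ .inl)
  | .a => q (.inr true)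
  | .b => q (.inr false)
  | .y j => q (.inr false) * D.g (q ∘ .inl) j
  | .w _ => q (.inr true) * D.G (q ∘ .inl)

/-- The equations are weight vectors. -/
def StF : Prop := (∃ μ : D.K → wR Y X → ℕ, ∀ k, Frm (wπ Y X) (μ k) (D.F k)) ∧
  (∃ ω : D.K → Unit → ℤ, ∀ k τ, IsUnit τ → ∀ s,
    D.F k (tw (wW Y X) τ s) = (∏ i, τ i ^ ω k i) * D.F k s) ∧ (∃ k s, D.F k s ≠ 0) ∧
  IsOpen (O Y X) ∧ ∀ t, IsUnit t → (∀ s ∈ O Y X, scl (wπ Y X) t s ∈ O Y X) ∧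
    ∀ s ∈ D.U, scl (wπ Y X) t s ∈ D.U

/-- The two charts. -/
structure StP : Prop where
  hx : ∀ x ∈ Ust X.π, ∃ α, D.h α x ≠ 0
  mapX : ∀ s ∈ D.V, s ∘ .x ∈ X.A
  mem1 : ∀ x ∈ X.A, ∀ σ τ a w, τ ≠ 0 → a ≠ 0 → IsUnit w → D.P1 x σ τ a w ∈ D.U
  eq1 : ∀ s ∈ D.V, s .τ ≠ 0 → s .a ≠ 0 ∧ IsUnit (s ∘ .w) ∧ ∀ α, D.h α (s ∘ .x) ≠ 0 →
    s = D.P1 (s ∘ .x) (s (.z α) / D.h α (s ∘ .x)) (s .τ) (s .a) (s ∘ .w)
  mem2 : ∀ y ∈ Y.A, ∀ t σ a b, IsUnit t → σ ≠ 0 → b ≠ 0 → D.P2 y t σ a b ∈ D.U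
  eq2 : ∀ s ∈ D.V, s .b ≠ 0 → s ∘ .y ∈ Y.A ∧ (∃ t, IsUnit t ∧ s ∘ .x = scl X.π t (s ∘ .y ∘ p.iJ)) ∧
    ∀ t α, s ∘ .x = scl X.π t (s ∘ .y ∘ p.iJ) → D.h α (s ∘ .x) ≠ 0 → s (.z α) ≠ 0 ∧
      s = D.P2 (s ∘ .y) t (s (.z α) / D.h α (s ∘ .x)) (s .a) (s .b)
  conn : IsConnected D.U

/-- The open part is smooth and reduced. -/
def StM : Prop := ∀ s ∈ D.U, MfdAt D.U (n + 1 + Fintype.card (wR Y X)) s ∧
  ∀ v, (∀ k, fderiv ℂ (D.F k) s v = 0) → v ∈ tn D.U s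

/-- The three sections. -/
structure StS : Prop where
  gen : Sct (blP Bool X.π) (wπ Y X) D.V (Sum.elim .x (wab Y X))
    {q | q ∘ .inl ∈ X.A ∧ D.G (q ∘ .inl) ≠ 0 ∧ q ∘ .inr ≠ 0} D.P0
  genU : ∀ q : X.J ⊕ Bool → ℂ, q ∘ .inl ∈ X.A → D.G (q ∘ .inl) ≠ 0 → q ∘ .inr ≠ 0 → D.P0 q ∈ D.U
  snk : Sct (blP Bool Y.π) (wπ Y X) D.V (Sum.elim .y (wab Y X))
    {q | q ∘ .inl ∈ Y.A ∧ q (.inr false) ≠ 0}
    fun q => D.P2 (q ∘ .inl) 1 (q (.inr false)) (q (.inr true)) (q (.inr false))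
  src : Sct X.π (wπ Y X) {s | s ∈ D.V ∧ ∀ α, s (.z α) = 0} .x X.A fun x => D.P1 x 0 1 1 1
  tau : ∀ s ∈ D.V, D.G (s ∘ .x) ≠ 0 → (s .τ = 0 ↔ s .a = 0) ∧ ((∀ α, s (.z α) = 0) ↔ s .b = 0)

end ND

end Vale.Agent.P287Q
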