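import Vale.Agent.P287Q.Us.Res0
import Vale.Agent.P287Q.Us.Res1
import Vale.Agent.P287Q.Us.WD

/-!
# Embedded resolution of multicones
-/

namespace Vale.Agent.P287Q

open Set Function Topology Filter MvPolynomial P269 P269.Holo H1 H1.Mf

/-- **Embedded resolution.** -/
theorem res : RES := by
  intro J R K S _ _ _ _ _ _ π wt F μ ω O U d hF hω hne hO hOU hOi hU hc hm hj
  obtain ⟨X, q, f, h1, h2, h3, h4, h5⟩ := res_base hF hω hne hO hOU hOi hU hc hm hj
  have hUi : ∀ t, IsUnit t → ∀ y ∈ U, scl π t y ∈ U := fun t ht y hy =>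
    (hU _).2 ⟨hOi t ht y ((hU y).1 hy).1, fun k => by
      rw [(hF k).hom t ht, ((hU y).1 hy).2 k, mul_zero]⟩
  obtain ⟨X', f', V, C, c, ⟨s⟩, -, -, a1, a2, a3⟩ := emb _ K
    (fun X f V => Nonempty (ResSt π wt F O U X f V)) (by
      rintro X f V C c ⟨s⟩ - - b1 b2 b3
      obtain ⟨X', β, b4, b5, b6, b7⟩ := s.step hU b1 b2 b3
      exact ⟨X', β, b4, b5, b6, fun f' hw _ => b7 f' hw⟩) X f (q '' U) ⟨{
    J' := J, R' := R, π' := π, A := Ust π, wt' := wt, q := q, iJ := id, iR := id, σ := fun x => x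
    of := h1, tinv := fun τ hτ y hy => tw_mem_Ust wt hτ hy, act := h5, injJ := injective_id
    injR := injective_id, blk := fun _ => rfl, exa := fun j _ _ => ⟨j, rfl⟩, wtJ := fun _ => rfl
    map := fun _ h => h, sct := Sct.id π _ O hOU, zer := fun w hw => (h4 w hw).1
    reg := fun w hw => ⟨fun ⟨y, hy, e⟩ => by
      obtain ⟨t, ht, rfl⟩ := (h1.eq_iff y (hOU ((hU y).1 hy).1) w hw).1 e
      exact hUi t ht y hy, fun h => ⟨w, h, rfl⟩⟩ }⟩ h2 h3
  exact s.fin hO hOU hUi hU hc hm a1 a2 a3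

end Vale.Agent.P287Q
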