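import Vale.Agent.P287Q.Pv.Of2
import Vale.Agent.P287Q.H1.Trl
import Vale.Agent.P287Q.Us.WD

/-!
# Embedded resolution: the initial state
-/

set_option linter.unusedSectionVars false

namespace Vale.Agent.P287Q

open Set Function Topology Filter Asymptotics P269 P269.Holo Module H1

variable {J R K S : Type} [Fintype J] [Fintype R] [Fintype K] [Fintype S] {π : J → R}
  {U : Set (J → ℂ)} {y : J → ℂ} {d : ℕ}

/-- Slices of invariant submanifolds that need not be closed. -/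
theorem exists_slc (hs : y ∈ Ust π) (hi : ∀ t, IsUnit t → ∀ y ∈ U, scl π t y ∈ U) (hy : y ∈ U)
    (hm : MfdAt U (d + Fintype.card R) y) : ∃ σ : (Fin d → ℂ) → J → ℂ, Slc π U σ 0 ∧ σ 0 = y := by
  obtain ⟨ψ, h1, h2⟩ := hm.prm
  obtain ⟨k, k1, -, -, k4⟩ := h1.lift (u := fun t => scl π t y) (z := 1) ((scl_one y).trans h2.symm)
    (an_scl analyticAt_id analyticAt_const)
    ((eventually_unit isUnit_one).mono fun _ b => hi _ b _ hy)
  have k5 : ∀ a, fderiv ℂ ψ 0 (fderiv ℂ k 1 a) = scl π a y := fun a => by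
    rw [← fderiv_orbit 1, k4]
    rfl
  obtain ⟨i, hb⟩ := exists_compl_range (n := d) (fderiv ℂ k 1) (fun a b e =>
    scl_inj hs (by rw [← k5, e, k5])) (by simp [add_comm])
  have e0 : ψ (i 0) = y := by rw [map_zero, h2]
  have a1 : AnalyticAt ℂ ψ (i 0) := by rw [map_zero]; exact h1.an
  have ha : AnalyticAt ℂ (fun z => ψ (i z)) 0 := a1.comp (i.analyticAt 0)
  refine ⟨fun z => ψ (i z), Prm.of_injective hm ((scl_one _).trans e0)
    (an_scl analyticAt_fst (ha.comp (f := Prod.snd) (x := (1, 0)) analyticAt_snd)) ?_ ?_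
    (by rw [finrank_prod, finrank_fintype_fun_eq_card, finrank_fin_fun, add_comm]), e0⟩
  · filter_upwards [(continuousAt_fst (p := ((1 : R → ℂ), (0 : Fin d → ℂ)))).eventually
      (eventually_unit isUnit_one), (continuousAt_snd (p := ((1 : R → ℂ), (0 : Fin d → ℂ)))).eventually
        (i.continuous.continuousAt.eventually (map_zero i ▸ h1.mem))] with p a b using hi _ a _ b
  · rw [injective_iff_map_eq_zero]
    intro p e
    rw [Slc.fderiv_eq ha, fderiv_comp_an a1 (i.analyticAt 0), e0, ← k5, i.fderiv, map_zero,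
      ContinuousLinearMap.comp_apply, ← map_add] at e
    exact hb.1 (by simpa using h1.imm (e.trans (map_zero _).symm))

/-- Normal form of the equations along the smooth part. -/
theorem res_chart {F : K → (J → ℂ) → ℂ} (hF : ∀ k y, AnalyticAt ℂ (F k) y) (hs : U ⊆ Ust π)
    (hi : ∀ t, IsUnit t → ∀ y ∈ U, scl π t y ∈ U) (hy : y ∈ U) (h0 : ∀ y ∈ U, ∀ k, F k y = 0)
    (hm : MfdAt U (d + Fintype.card R) y) (hj : ∀ v, (∀ k, fderiv ℂ (F k) y v = 0) → v ∈ tn U y) :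
    ∃ (c : ℕ) (σ : W (Fintype.card J - Fintype.card R) → J → ℂ) (L : W _ →L[ℂ] Fin c → ℂ),
      Slc π (Ust π) σ 0 ∧ σ 0 = y ∧ (∀ᶠ z in 𝓝 0, σ z ∈ U → L z = 0) ∧
      (fun z => sz F (σ z)) =Θ[𝓝 0] L := by
  obtain ⟨s, s1, rfl⟩ := exists_slc (hs hy) hi hy hm
  obtain ⟨c, hc⟩ := Nat.exists_eq_add_of_le
    (Nat.le_of_add_le_add_right (dim_le (pv_Ust.mfd _ (hs hy)) hm hs))
  obtain ⟨φ, a, b, e⟩ := s1.extend (c := c) pv_Ust hs (by rw [finrank_fin_fun, hc])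
  have b0 : φ (0, 0) = s 0 := b.self_of_nhds
  let L : W (Fintype.card J - Fintype.card R) ≃L[ℂ] (Fin c → ℂ) × (Fin d → ℂ) :=
    .ofFinrankEq (by simp [hc, add_comm])
  have t : Tendsto L (𝓝 0) (𝓝 (0, 0)) := L.continuous.tendsto' _ _ (map_zero L)
  have g : ∀ k, AnalyticAt ℂ (fun p => F k (φ p)) (0, 0) := fun k => (hF k _).comp a.an
  refine ⟨c, fun z => φ (L z), (ContinuousLinearMap.fst ℂ _ _).comp L.toContinuousLinearMap,
    Slc.comp (map_zero L ▸ a) (L.analyticAt _) (L.fderiv ▸ L.bijective),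
    (congrArg φ (map_zero L)).trans b0, (t.eventually e).mono fun _ f => f.1,
    Of.theta_comp ((Of.sz_norm fun k p => F k (φ p)).trans (theta_normal (analyticAt_pi_iff.2 g)
      ((b.and s1.mem).mono fun z f => funext (h0 _ (f.1.symm ▸ f.2))) fun v f => ?_)) t⟩
  obtain ⟨r, u, l⟩ := s1.mem_tn.1 (hj (fderiv ℂ φ (0, 0) (v, 0)) fun k => by
    rw [← b0, ← ContinuousLinearMap.comp_apply, ← fderiv_comp_an (hF k _) a.an]
    rw [fderiv_pi fun k => (g k).differentiableAt] at f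
    exact congrFun f k)
  rw [← EventuallyEq.fderiv_eq b, fderiv_inr a.an, ← sub_eq_iff_eq_add, ← map_sub, ← b0] at l
  simpa using congrArg Prod.fst (a.transv l).1

/-- **The initial state of the embedded resolution.** -/
theorem res_base [DecidableEq J] [DecidableEq R] {wt : J → S → ℤ} {F : K → (J → ℂ) → ℂ}
    {μ : K → R → ℕ} {ω : K → S → ℤ} {O : Set (J → ℂ)} (hF : ∀ k, Frm π (μ k) (F k))
    (hω : ∀ k τ, IsUnit τ → ∀ y, F k (tw wt τ y) = (∏ s, τ s ^ ω k s) * F k y)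
    (hne : ∃ k y, F k y ≠ 0) (hO : IsOpen O) (hOU : O ⊆ Ust π)
    (hOi : ∀ t, IsUnit t → ∀ y ∈ O, scl π t y ∈ O) (hU : ∀ y, y ∈ U ↔ y ∈ O ∧ ∀ k, F k y = 0)
    (hc : IsConnected U) (hm : ∀ y ∈ U, MfdAt U (d + Fintype.card R) y)
    (hj : ∀ y ∈ U, ∀ v, (∀ k, fderiv ℂ (F k) y v = 0) → v ∈ tn U y) :
    ∃ (X : Mf (Fintype.card J - Fintype.card R)) (q : (J → ℂ) → X.M) (f : X.M → K → X.M → ℂ),
      Of X π (Ust π) q ∧ X.Coh f ∧ X.Rg f (q '' U) ∧ (∀ y ∈ Ust π, q y ∈ zs f ↔ ∀ k, F k y = 0) ∧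
      ∀ τ, IsUnit τ → ∃ γ ∈ X.Γ, γ.source = univ ∧ ∀ y ∈ Ust π, γ (q y) = q (tw wt τ y) := by
  have hs : U ⊆ Ust π := fun y a => hOU ((hU y).1 a).1
  have hi : ∀ t, IsUnit t → ∀ y ∈ U, scl π t y ∈ U := fun t a y b => (hU _).2
    ⟨hOi t a y ((hU y).1 b).1, fun k => by rw [(hF k).hom t a, ((hU y).1 b).2 k, mul_zero]⟩
  obtain ⟨X, q, h, e⟩ := (pv_Ust (π := π)).exists_of (hc.1.mono hs)
  obtain ⟨f, hf⟩ := h.exists_fm F
  have hd : ∀ k t, IsUnit t → ∀ y ∈ Ust π, F k (scl π t y) = cha (fun r => μ k r) t * F k y :=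
    fun k t a y _ => by simp only [(hF k).hom t a, cha, zpow_natCast]
  have co := hf.coh h hd (fun k y _ => .of_an ((hF k).an y)) (fun y a b => by
    obtain ⟨k, z, c⟩ := hne
    exact c (AnalyticOnNhd.eqOn_zero_of_preconnected_of_eventuallyEq_zero (fun y _ => (hF k).an y)
      isPreconnected_univ (mem_univ y) ((b.and (isOpen_Ust.mem_nhds a)).mono fun v g => g.1 g.2 k)
      (mem_univ z))) (e ▸ fun _ => False.elim)
  obtain ⟨Γ, g1, g2, g3, h', co', g⟩ := h.exists_ext e co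
  refine ⟨_, _, _, h', co', ⟨hc.image q (h.cont.mono hs), ?_, ?_, ?_⟩, fun _ => hf.mem_zs h hd,
    fun τ a => ?_⟩
  · rintro _ ⟨y, a, rfl⟩
    exact (hf.mem_zs h hd (hs a)).2 ((hU y).1 a).2
  · rintro _ ⟨y, a, rfl⟩
    exact (h.ev (hs a)).2 ((hO.eventually_mem ((hU y).1 a).1).mono fun v b c l =>
      ⟨v, (hU v).2 ⟨b, (hf.mem_zs h hd c).1 l⟩, rfl⟩)
  · rintro _ ⟨y, a, rfl⟩
    obtain ⟨c, σ, L, s1, rfl, s2, s3⟩ := res_chart (fun k => (hF k).an) hs hi a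
      (fun y b => ((hU y).1 b).2) (hm y a) (hj y a)
    obtain ⟨φ, p1, p2, p3⟩ := h.exists_co s1
    have l : sz (f (q (σ 0))) =Θ[𝓝 (q (σ 0))] fun z => ‖L (φ z)‖ := by
      rw [← (h.lh s1).map_nhds]
      refine Of.theta_map (((Of.theta_comp ((hf.theta h hd _).self_of_nhds _ s1.mem0 rfl)
        (tendsto_nhdsWithin_iff.2 ⟨s1.an.continuousAt, s1.mem⟩)).trans s3).trans ?_)
      exact (isTheta_norm_right.2 (isTheta_refl _ _)).trans_eventuallyEq
        (p3.mono fun z b => by simp only [b])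
    obtain ⟨V, v1, v2, v3⟩ := eventually_nhds_iff.1 (co.cmp (q (σ 0)))
    filter_upwards [Mf.exists_trl (g := fun w => ‖L w‖) p1 l, v2.mem_nhds v3,
      (h.ev_slc s1 (P := fun b => b ∈ q '' U → L (φ b) = 0)).2 ((s1.mem.and (s2.and p3)).mono
        fun z b ⟨v, c1, c2⟩ => by
          obtain ⟨t, t1, t2⟩ := (h.eq_iff _ (hs c1) _ b.1).1 c2
          rw [b.2.2, b.2.1 (t2 ▸ hi t t1 v c1)])] with b b1 b2 b3 b4
    obtain ⟨γ, c1, -, c2, c3, rfl⟩ := b1 fun w => by rw [p2, sub_zero, map_add, b3 b4, add_zero]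
    refine ⟨γ.restrOpen (V ∩ (γ.source ∩ γ ⁻¹' V)) (v2.inter (γ.isOpen_inter_preimage v2)),
      (g _).2 ⟨fun z c => c1 z c.1, fun z c => ?_⟩, ⟨c3, v3, c3, b2⟩, rfl⟩
    exact (Of.theta_comp (v1 _ c.2.2.2) (γ.continuousAt c.1)).trans
      ((c2 z c.1).trans (v1 z c.2.1).symm)
  · obtain ⟨γ, b, c⟩ := h.exists_tw (wt := wt) (fun _ a _ => tw_mem_Ust wt a) a
    refine ⟨_, (g _).2 ⟨c, fun p _ => ?_⟩, rfl, b⟩
    obtain ⟨y, l, rfl⟩ := h.surj p
    refine hf.inv h hd l (tendsto_nhdsWithin_iff.2 ⟨(an_tw' wt τ y).continuousAt.mono_left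
      nhdsWithin_le_nhds, eventually_mem_nhdsWithin.mono fun _ => tw_mem_Ust wt a⟩)
      (tw_mem_Ust wt a l) (eventually_mem_nhdsWithin.mono b)
      (Of.sz_theta (a := fun k v => F k (tw wt τ v)) fun k => ?_)
    simp only [hω k τ a]
    exact (isTheta_const_mul_left (cha_ne a)).2 (isTheta_refl _ _)

end Vale.Agent.P287Q
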