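import Vale.Agent.P287Q.Us.WD
import Vale.Agent.P287Q.Us.Bir
import Vale.Agent.P287Q.Pv.Bl

/-!
# Charts of the master model: general lemmas
-/

set_option linter.unusedSectionVars false

namespace Vale.Agent.P287Q

open Set Function Topology Filter MvPolynomial P269 P269.Holo

namespace WM0

section gen

variable {W W' E : Type*} [NormedAddCommGroup W] [NormedSpace ℂ W] [NormedAddCommGroup W']
  [NormedSpace ℂ W'] [NormedAddCommGroup E] [NormedSpace ℂ E] [FiniteDimensional ℂ W]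
  [FiniteDimensional ℂ W'] [FiniteDimensional ℂ E]

theorem mfd_prod {A : Set W} {x : W} {m : ℕ} (h : MfdAt A m x) (e : E) :
    MfdAt (A ×ˢ (univ : Set E)) (m + Module.finrank ℂ E) (x, e) := h.prod (MfdAt.univ e)

theorem tn_prod {A : Set W} {x : W} {m : ℕ} (h : MfdAt A m x) (e : E) {v : W × E}
    (hv : v.1 ∈ tn A x) : v ∈ tn (A ×ˢ (univ : Set E)) (x, e) := by
  have h1 := fderiv_map_tn (A' := A ×ˢ (univ : Set E)) (Φ := fun y : W => (y, e)) h
    (analyticAt_id.prod analyticAt_const) (.of_forall fun _ a => ⟨a, trivial⟩) hv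
  have h2 := fderiv_mem_tn (A := A ×ˢ (univ : Set E)) (u := fun z : E => (x, z)) (x := e)
    (analyticAt_const.prod analyticAt_id) (.of_forall fun _ => ⟨h.mem, trivial⟩) v.2
  rw [(hasFDerivAt_prodMk_left (𝕜 := ℂ) x e).fderiv] at h1
  rw [(hasFDerivAt_prodMk_right (𝕜 := ℂ) x e).fderiv] at h2
  have h3 := add_mem h1 h2
  rwa [ContinuousLinearMap.inl_apply, ContinuousLinearMap.inr_apply, Prod.mk_add_mk, add_zero,
    zero_add] at h3

/-- `U` is near `s` the image of `A` under `P`, with inverse `Q`. -/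
theorem chart {A : Set W'} {U : Set W} {m : ℕ} {s : W} {P : W' → W} {Q : W → W'}
    (h : MfdAt A m (Q s)) (hP : AnalyticAt ℂ P (Q s)) (hQ : AnalyticAt ℂ Q s) (e : P (Q s) = s)
    (h1 : ∀ᶠ x in 𝓝 (Q s), x ∈ A → P x ∈ U ∧ Q (P x) = x)
    (h2 : ∀ᶠ y in 𝓝 s, y ∈ U → Q y ∈ A ∧ P (Q y) = y) :
    MfdAt U m s ∧ ∀ v, fderiv ℂ Q s v ∈ tn A (Q s) →
      fderiv ℂ (fun y => y - P (Q y)) s v = 0 → v ∈ tn U s := by
  have := FiniteDimensional.complete ℂ W
  have := FiniteDimensional.complete ℂ W'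
  refine ⟨e ▸ h.iso (F := P) (G := Q) hP (e.symm ▸ hQ) h1 (e.symm ▸ h2), fun v a b => ?_⟩
  have h3 := fderiv_map_tn (A' := U) h hP (h1.mono fun _ c d => (c d).1) a
  have h4 : fderiv ℂ (fun y => y - P (Q y)) s =
      ContinuousLinearMap.id ℂ W - (fderiv ℂ P (Q s)).comp (fderiv ℂ Q s) :=
    ((hasFDerivAt_id s).sub
      (hP.differentiableAt.hasFDerivAt.comp s hQ.differentiableAt.hasFDerivAt)).fderiv
  rw [h4, sub_apply, ContinuousLinearMap.id_apply,
    ContinuousLinearMap.comp_apply, sub_eq_zero] at b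
  rw [e, ← b] at h3
  exact h3

theorem fd_zero {u c f : W → ℂ} {s v : W} (hc : AnalyticAt ℂ c s) (hf : AnalyticAt ℂ f s)
    (e : ∀ᶠ y in 𝓝 s, u y = c y * f y) (h0 : f s = 0) (hv : fderiv ℂ f s v = 0) :
    fderiv ℂ u s v = 0 := by
  rw [EventuallyEq.fderiv_eq (f := fun y => c y * f y) e,
    fderiv_fun_mul hc.differentiableAt hf.differentiableAt, add_apply,
    smul_apply, smul_apply, hv, h0, smul_zero, zero_smul,
    add_zero]

theorem fd_zero' {u : W → ℂ} {s v : W} (e : ∀ᶠ y in 𝓝 s, u y = 0) : fderiv ℂ u s v = 0 := by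
  rw [EventuallyEq.fderiv_eq (f := fun _ => (0 : ℂ)) e, fderiv_fun_const]
  rfl

theorem fd_pi {J : Type} [Fintype J] {Φ : W → J → ℂ} {s v : W} (h : AnalyticAt ℂ Φ s)
    (e : ∀ j, fderiv ℂ (fun y => Φ y j) s v = 0) : fderiv ℂ Φ s v = 0 := by
  funext j
  rw [fderiv_pi fun j => (analyticAt_pi_iff.1 h j).differentiableAt]
  exact e j

theorem fd_fst {f : W → W'} {g : W → E} {s : W} (hf : AnalyticAt ℂ f s) (hg : AnalyticAt ℂ g s)
    (v : W) : (fderiv ℂ (fun y => (f y, g y)) s v).1 = fderiv ℂ f s v := by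
  rw [hf.differentiableAt.fderiv_prodMk hg.differentiableAt]
  rfl

end gen

section crd

variable {J J₀ R K B : Type} [Fintype J] [Fintype J₀] [Fintype R] [Fintype K]
  [NormedAddCommGroup B] [NormedSpace ℂ B]

theorem has_comp (i : J₀ → J) (s : J → ℂ) : HasFDerivAt (fun y : J → ℂ => y ∘ i)
    (ContinuousLinearMap.pi fun j => ContinuousLinearMap.proj (R := ℂ) (i j)) s :=
  (ContinuousLinearMap.pi fun j =>
    ContinuousLinearMap.proj (R := ℂ) (φ := fun _ : J => ℂ) (i j)).hasFDerivAt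

theorem an_crd (j : J) (s : J → ℂ) : AnalyticAt ℂ (fun y : J → ℂ => y j) s :=
  analyticAt_pi_iff.1 analyticAt_id j

theorem an_comp (i : J₀ → J) (s : J → ℂ) : AnalyticAt ℂ (fun y : J → ℂ => y ∘ i) s :=
  analyticAt_pi_iff.2 fun j => an_crd (i j) s

theorem fd_crd (i : J₀ → J) (s v : J → ℂ) : fderiv ℂ (fun y : J → ℂ => y ∘ i) s v = v ∘ i := by
  rw [(has_comp i s).fderiv]
  rfl

theorem fd_comp (i : J₀ → J) {f : (J₀ → ℂ) → B} {s : J → ℂ} (hf : AnalyticAt ℂ f (s ∘ i))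
    (v : J → ℂ) : fderiv ℂ (fun y : J → ℂ => f (y ∘ i)) s v = fderiv ℂ f (s ∘ i) (v ∘ i) := by
  rw [show fderiv ℂ (fun y : J → ℂ => f (y ∘ i)) s = _ from
    (hf.differentiableAt.hasFDerivAt.comp s (has_comp i s)).fderiv]
  rfl

theorem tn_cut [DecidableEq R] {π : J → R} {C : Set (J → ℂ)} {δ : R → ℤ}
    {g : K → MvPolynomial J ℂ} (h : Cut π (Ust π) C δ g) {y v : J → ℂ} (hy : y ∈ C)
    (hv : ∀ k, fderiv ℂ (fun x => eval x (g k)) y v = 0) : v ∈ tn C y := by
  refine h.jac y hy v ?_ ?_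
  · rw [tn_of_nhds (isOpen_Ust.mem_nhds (h.sub hy))]
    exact Submodule.mem_top
  · funext k
    rw [fderiv_gv]
    exact hv k

end crd

variable {n : ℕ} {Y X : Var n} {p : Ext Y X}

theorem card (Y X : Var n) :
    Fintype.card (wR Y X) = Fintype.card X.R + 2 + Fintype.card Y.R := by
  let e : wR Y X ≃ (X.R ⊕ Bool) ⊕ Y.R :=
    { toFun := fun
        | .x r => .inl (.inl r)
        | .z => .inl (.inr true)
        | .a => .inl (.inr false)
        | .y r => .inr r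
      invFun := fun
        | .inl (.inl r) => .x r
        | .inl (.inr true) => .z
        | .inl (.inr false) => .a
        | .inr r => .y r
      left_inv := fun r => by cases r <;> rfl
      right_inv := fun r => by
        rcases r with (r | b) | r
        · rfl
        · cases b <;> rfl
        · rfl }
  rw [Fintype.card_congr e, Fintype.card_sum, Fintype.card_sum, Fintype.card_bool]

variable (D : ND p)

theorem an_h (α : Sel X.π) (x : X.J → ℂ) : AnalyticAt ℂ (D.h α) x :=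
  Finset.analyticAt_fun_prod _ fun r _ => (an_crd (α.1 r) x).pow _

theorem an_hx (α : Sel X.π) (s : wJ Y X → ℂ) :
    AnalyticAt ℂ (fun y : wJ Y X → ℂ => D.h α (y ∘ .x)) s :=
  (an_h D α _).comp (an_comp _ s)

theorem an_Gx (s : wJ Y X → ℂ) : AnalyticAt ℂ (fun y : wJ Y X → ℂ => D.G (y ∘ .x)) s :=
  (D.fG.an _).comp (an_comp _ s)

theorem an_gx (j : Y.J) (s : wJ Y X → ℂ) :
    AnalyticAt ℂ (fun y : wJ Y X → ℂ => D.g (y ∘ .x) j) s :=
  ((D.fg j).an _).comp (an_comp _ s)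

theorem an_F (k : D.K) (s : wJ Y X → ℂ) : AnalyticAt ℂ (D.F k) s := by
  cases k with
  | qx k => exact (an_eval (D.QX k) _).comp (an_comp _ s)
  | zz α β => exact ((an_crd _ s).mul (an_hx D β s)).sub ((an_crd _ s).mul (an_hx D α s))
  | tb α =>
    exact (((an_crd _ s).mul (an_crd _ s)).mul (an_hx D α s)).sub
      (((an_crd _ s).mul (an_Gx D s)).mul (an_crd _ s))
  | zy α j =>
    exact (((an_crd _ s).mul (an_gx D j s)).mul (an_crd _ s)).sub
      (((an_crd _ s).mul (an_hx D α s)).mul (an_crd _ s))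
  | wb r => exact ((an_crd _ s).mul (an_crd _ s)).sub ((an_crd _ s).mul (an_crd _ s))
  | qy k => exact (an_eval (D.QY k) _).comp (an_comp _ s)
  | xy j j' =>
    by_cases e : X.π j = X.π j'
    · exact (((an_crd (.x j) s).mul (an_crd (.y (p.iJ j')) s)).sub
        ((an_crd (.x j') s).mul (an_crd (.y (p.iJ j)) s))).congr
        (.of_forall fun _ => (if_pos e).symm)
    · exact (analyticAt_const (v := 0)).congr (.of_forall fun _ => (if_neg e).symm)

theorem U_V {s : wJ Y X → ℂ} (h : s ∈ D.U) : s ∈ D.V := ⟨h.1.1, h.2⟩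

/-- the equations of `X` -/
theorem tn_X {s v : wJ Y X → ℂ} (hs : s ∘ .x ∈ X.A) (hv : ∀ k, fderiv ℂ (D.F k) s v = 0) :
    v ∘ .x ∈ tn X.A (s ∘ .x) :=
  tn_cut D.cutX hs fun k => (fd_comp WJ.x (an_eval (D.QX k) _) v).symm.trans (hv (.qx k))

/-- the equations of `Y` -/
theorem tn_Y {s v : wJ Y X → ℂ} (hs : s ∘ .y ∈ Y.A) (hv : ∀ k, fderiv ℂ (D.F k) s v = 0) :
    v ∘ .y ∈ tn Y.A (s ∘ .y) :=
  tn_cut D.cutY hs fun k => (fd_comp WJ.y (an_eval (D.QY k) _) v).symm.trans (hv (.qy k))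

end WM0

end Vale.Agent.P287Q
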